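import Crest.Agent.R166.Gauss
import Crest.Agent.R166.Mob

/-! # Row 166, part C: definitions -/

set_option autoImplicit false
set_option linter.unusedVariables false
set_option linter.unusedSectionVars false

open MeasureTheory ProbabilityTheory Filter Topology Matrix
open scoped ENNReal BoundedContinuousFunction ComplexConjugate

namespace Crest.Agent.R166

noncomputable section

/-- `s'(w)` -/
def sD {n : ℕ} (p : Conf n) (w : ℂ) : ℂ := ∑ i, 1 / ((p.1 i : ℂ) - w) ^ 2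

/-- `Σ 1/|x - w|²` (`= Im s(w) / Im w`) -/
def sN {n : ℕ} (p : Conf n) (w : ℂ) : ℝ := ∑ i, 1 / ‖(p.1 i : ℂ) - w‖ ^ 2

/-- `Δ(w) = s(w) - iπ` -/
def sDel {n : ℕ} (p : Conf n) (w : ℂ) : ℂ := sF p w - Real.pi * Complex.I

/-- `Sieg ^ k` -/
def SiegK (r k : ℕ) : Set (Fin k → Jet r) := {Z | ∀ j, Z j ∈ Sieg r}

/-- bounded measurable functions that are continuous on `Sieg ^ k` -/
structure Bcl {r k : ℕ} (φ : (Fin k → Jet r) → ℝ) : Prop where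
  meas : Measurable φ
  bdd : ∃ C, ∀ Z, |φ Z| ≤ C
  cont : ContinuousOn φ (SiegK r k)

/-- explicit compact subsets of `Sieg ^ k` -/
def Kset (r k : ℕ) (R c : ℝ) : Set (Fin k → Jet r) :=
  {Z | ∀ j, ‖Z j‖ ≤ R ∧ (Matrix.of (Z j).1).IsSymm ∧ (Matrix.of (Z j).2.1).IsSymm ∧
    ∀ v : Fin r → ℝ, c * (v ⬝ᵥ v) ≤ v ⬝ᵥ imM (Z j).1 *ᵥ v}

/-- restriction of a jet to some of the channels -/
def restr {r r' : ℕ} (e : Fin r → Fin r') (Z : Jet r') : Jet r :=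
  (fun b c => Z.1 (e b) (e c), fun b c => Z.2.1 (e b) (e c), Z.2.2)

/-- the embedding of complex matrices `P + i Q ↦ ⟨P, π Q, -Q/π, P⟩` -/
def uq {r : ℕ} (u : Matrix (Fin r) (Fin r) ℂ) : Quad r :=
  ⟨u.map Complex.re, Real.pi • u.map Complex.im, (-(1 / Real.pi)) • u.map Complex.im,
    u.map Complex.re⟩

/-- `diag (1, -1)` -/
def sg2 (b : Fin 2) : ℂ := if b = 0 then 1 else -1

/-- the vector field of the flow `ψ ↦ mob (rotD 0 ψ)` -/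
def flowV (Z : Jet 2) : Jet 2 :=
  (fun b c => Real.pi * (if b = c then sg2 b else 0) + (∑ e, Z.1 b e * sg2 e * Z.1 e c) / Real.pi,
   fun b c => (∑ e, (Z.1 e b * sg2 e * Z.2.1 e c + Z.2.1 b e * sg2 e * Z.1 e c)) / Real.pi,
   (∑ e, sg2 e * Z.2.1 e e) / Real.pi)

/-- `C¹` functions with decay of order four -/
def Dec {k : ℕ} (φ : (Fin k → ℂ) → ℂ) : Prop :=
  ContDiff ℝ 1 φ ∧ ∃ C : ℝ, ∀ s, (‖φ s‖ + ‖fderiv ℝ φ s‖) * (1 + ‖s‖) ^ 4 ≤ C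

/-- the vector `(1/(x - w j)²)_j` -/
def eV {k : ℕ} (w : Fin k → ℂ) (x : ℝ) : Fin k → ℂ := fun j => 1 / ((x : ℂ) - w j) ^ 2

/-- the vector `(s (w j))_j` -/
def sV {n k : ℕ} (p : Conf n) (w : Fin k → ℂ) : Fin k → ℂ := fun j => sF p (w j)

/-- integrand of the loop equation -/
def leI {n k : ℕ} (p : Conf n) (w₀ : ℂ) (w : Fin k → ℂ) (φ : (Fin k → ℂ) → ℂ) : ℂ :=
  ((Real.pi : ℂ) ^ 2 + sF p w₀ ^ 2 + sD p w₀) * φ (sV p w)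
    + 2 * ∑ i, fderiv ℝ φ (sV p w) (eV w (p.1 i)) / ((p.1 i : ℂ) - w₀)

/-- squared size of the matrix parts of a family of jets -/
def nJ {k : ℕ} (Z : Fin k → Jet 2) : ℝ :=
  ∑ j, ∑ b, ∑ c, (Complex.normSq ((Z j).1 b c) + Complex.normSq ((Z j).2.1 b c))

/-- derivative of `nJ` along the flow -/
def nJ' {k : ℕ} (Z : Fin k → Jet 2) : ℝ :=
  ∑ j, ∑ b, ∑ c, 2 * ((conj ((Z j).1 b c) * (flowV (Z j)).1 b c).re
    + (conj ((Z j).2.1 b c) * (flowV (Z j)).2.1 b c).re)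

/-- the `s`-coordinates of the jets `1, …, k` -/
def svJ {k : ℕ} (Z : Fin (k + 1) → Jet 2) : Fin k → ℂ := fun j => (Z j.succ).2.2

/-- the observable `M₀₀(w₀) φ(s)` with a rational cut-off -/
def obs {k : ℕ} (φ : (Fin k → ℂ) → ℂ) (Λ : ℝ) (Z : Fin (k + 1) → Jet 2) : ℂ :=
  (Z 0).1 0 0 * φ (svJ Z) / ((1 + nJ Z / Λ : ℝ) : ℂ)

/-- derivative of `M₀₀(w₀) φ(s)` along the flow -/
def obs0' {k : ℕ} (φ : (Fin k → ℂ) → ℂ) (Z : Fin (k + 1) → Jet 2) : ℂ :=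
  (flowV (Z 0)).1 0 0 * φ (svJ Z)
    + (Z 0).1 0 0 * fderiv ℝ φ (svJ Z) (fun j => (flowV (Z j.succ)).2.2)

/-- derivative of `obs` along the flow -/
def obs' {k : ℕ} (φ : (Fin k → ℂ) → ℂ) (Λ : ℝ) (Z : Fin (k + 1) → Jet 2) : ℂ :=
  obs0' φ Z / ((1 + nJ Z / Λ : ℝ) : ℂ)
    - (Z 0).1 0 0 * φ (svJ Z) * ((nJ' Z / Λ / (1 + nJ Z / Λ) ^ 2 : ℝ) : ℂ)

/-- rational cut-off used for the moment bounds -/
def chiT (m : ℕ) (Λ : ℝ) (s : ℂ) : ℝ :=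
  1 / (1 + ‖s - Real.pi * Complex.I‖ ^ 2 / Λ) ^ (m + 3)

/-- test function for the moment bounds -/
def tfT (m : ℕ) (Λ : ℝ) (s : ℂ) : ℂ :=
  conj ((Real.pi : ℂ) ^ 2 + s ^ 2) / ((‖s‖ ^ 2 + Real.pi ^ 2 : ℝ) : ℂ) *
    (((‖s - Real.pi * Complex.I‖ ^ 2) ^ m * chiT m Λ s : ℝ) : ℂ)

/-- `D_y = y Im (π² + s² + s')(iy)` -/
def dY {n : ℕ} (y : ℝ) (p : Conf n) : ℝ :=
  y * ((Real.pi : ℂ) ^ 2 + sF p (y * Complex.I) ^ 2 + sD p (y * Complex.I)).im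

/-- truncated real part -/
def bT (Λ : ℝ) (z : ℂ) : ℝ := z.re / (1 + ‖z‖ ^ 2 / Λ ^ 2) ^ 3

/-- truncated main part of `D_y` -/
def dT {n : ℕ} (Λ y : ℝ) (p : Conf n) : ℝ := 2 * Real.pi * bT Λ (y * sDel p (y * Complex.I))

/-- derivative of `f (s (w + τ))` in `τ` -/
def psiT {n k : ℕ} (f : (Fin k → ℂ) → ℝ) (w : Fin k → ℂ) (p : Conf n) : ℝ :=
  fderiv ℝ f (sV p w) fun j => sD p (w j)

section Fam
variable {ι : Type} (F : Filter ι) (n : ι → ℕ) (μ : ∀ i, Measure (Conf (n i)))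

/-- asymptotic invariance under `q` -/
def InvQ (r : ℕ) (q : Quad r) : Prop :=
  q.IsSymp ∧ ∀ (k : ℕ) (w : Fin k → ℂ), (∀ j, 0 < (w j).im) → ∀ φ : (Fin k → Jet r) → ℝ, Bcl φ →
    Tendsto (fun i => EG (μ i) r w (fun Z => φ fun j => mob q (Z j)) - EG (μ i) r w φ) F (𝓝 0)

/-- loop equations -/
def LoopE : Prop :=
  ∀ (k : ℕ) (w₀ : ℂ) (w : Fin (k + 1) → ℂ), 0 < w₀.im → (∀ j, 0 < (w j).im) →
    ∀ φ : (Fin (k + 1) → ℂ) → ℂ, Dec φ → Tendsto (fun i => ∫ p, leI p w₀ w φ ∂(μ i)) F (𝓝 0)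

/-- truncated moments of `Δ(w)` -/
def MomS : Prop :=
  ∀ m : ℕ, ∃ C : ℝ, ∀ w : ℂ, 0 < w.im → ∀ Λ : ℝ, 0 < Λ → ∀ ε : ℝ, 0 < ε → ∀ᶠ i in F,
    ∫ q, min ‖sDel q w‖ Λ ^ (2 * m) ∂(μ i) ≤ C / w.im ^ (2 * m) + ε

/-- weights bounded by `B` with decay of order four in `s(w₁)` -/
def Wt (w₁ : ℂ) (B : ℝ) (ω : ∀ i, Conf (n i) → ℝ) : Prop :=
  (∀ i, Measurable (ω i)) ∧ (∀ i p, 0 ≤ ω i p ∧ ω i p ≤ B) ∧
    ∃ B' : ℝ, ∀ i p, ω i p * (1 + ‖sF p w₁‖) ^ 4 ≤ B'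

end Fam

end

end Crest.Agent.R166
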