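import Crest.Agent.R166.C.Det0

/-! # Row 166, part C: deterministic estimates for Stieltjes transforms -/

set_option autoImplicit false
set_option linter.unusedVariables false
set_option linter.unusedSectionVars false

open MeasureTheory ProbabilityTheory Filter Topology Matrix
open scoped ENNReal BoundedContinuousFunction ComplexConjugate

namespace Crest.Agent.R166

noncomputable section

variable {n : ℕ}

theorem CDet_ne (x : ℝ) {w : ℂ} (hw : 0 < w.im) : (x : ℂ) - w ≠ 0 := by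
  intro h
  have := congrArg Complex.im h
  simp at this
  exact hw.ne' this

theorem CDet_pos (x : ℝ) {w : ℂ} (hw : 0 < w.im) : 0 < ‖(x : ℂ) - w‖ :=
  norm_pos_iff.2 (CDet_ne x hw)

theorem CDet_cont (i : Fin n) (w : ℂ) : Continuous fun p : Conf n => (p.1 i : ℂ) - w := by
  fun_prop

theorem CDet_cont_eV {k : ℕ} {w : Fin k → ℂ} (hw : ∀ j, 0 < (w j).im) (i : Fin n) :
    Continuous fun p : Conf n => eV w (p.1 i) := by
  refine continuous_pi fun j => ?_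
  exact continuous_const.div ((CDet_cont i (w j)).pow 2)
    (fun p => pow_ne_zero 2 (CDet_ne _ (hw j)))

theorem hasDerivAt_sF (p : Conf n) {w : ℂ} (hw : 0 < w.im) (τ : ℝ) :
    HasDerivAt (fun t : ℝ => sF p (w + t)) (sD p (w + τ)) τ := by
  have hw' : 0 < (w + τ).im := by simpa using hw
  have h : HasDerivAt (fun z : ℂ => sF p (w + z)) (sD p (w + τ)) (τ : ℂ) := by
    unfold sF sD
    refine HasDerivAt.sub_const _ (HasDerivAt.fun_sum fun i _ => ?_)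
    have h1 : HasDerivAt (fun z : ℂ => (p.1 i : ℂ) - (w + z)) (-1) (τ : ℂ) :=
      ((hasDerivAt_id (τ : ℂ)).const_add w).const_sub _
    have h2 := h1.fun_inv (CDet_ne (p.1 i) hw')
    rw [neg_neg] at h2
    simp only [one_div] at h2 ⊢
    exact h2
  exact h.comp_ofReal

theorem continuous_sD {w : ℂ} (hw : 0 < w.im) : Continuous fun p : Conf n => sD p w := by
  unfold sD
  refine continuous_finsetSum _ fun i _ => ?_
  exact continuous_const.div ((CDet_cont i w).pow 2) (fun p => pow_ne_zero 2 (CDet_ne _ hw))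

theorem continuous_sN {w : ℂ} (hw : 0 < w.im) : Continuous fun p : Conf n => sN p w := by
  unfold sN
  refine continuous_finsetSum _ fun i _ => ?_
  exact continuous_const.div ((CDet_cont i w).norm.pow 2)
    (fun p => pow_ne_zero 2 (CDet_pos _ hw).ne')

theorem continuous_sDel {w : ℂ} (hw : 0 < w.im) : Continuous fun p : Conf n => sDel p w :=
  (continuous_sF hw.ne').sub continuous_const

theorem continuous_sV {k : ℕ} {w : Fin k → ℂ} (hw : ∀ j, 0 < (w j).im) :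
    Continuous fun p : Conf n => sV p w :=
  continuous_pi fun j => continuous_sF (hw j).ne'

theorem sum_eV {k : ℕ} (p : Conf n) (w : Fin k → ℂ) :
    ∑ i, eV w (p.1 i) = fun j => sD p (w j) := by
  funext j
  simp [eV, sD, Finset.sum_apply]

/-- `‖eV w x‖ ≤ C / |x - w₁|²` (`pi_norm_le_iff_of_nonneg`, `norm_sub_cmp`) -/
theorem norm_eV_le {k : ℕ} {w : Fin k → ℂ} (hw : ∀ j, 0 < (w j).im) (w₁ : ℂ) (hw₁ : 0 < w₁.im) :
    ∃ C : ℝ, 0 ≤ C ∧ ∀ x : ℝ, ‖eV w x‖ ≤ C / ‖(x : ℂ) - w₁‖ ^ 2 := by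
  refine ⟨∑ j, (1 + ‖w₁ - w j‖ / (w j).im) ^ 2, Finset.sum_nonneg fun j _ => sq_nonneg _,
    fun x => ?_⟩
  have h1 := CDet_pos x hw₁
  refine (pi_norm_le_iff_of_nonneg (by positivity)).2 fun j => ?_
  have h2 := CDet_pos x (hw j)
  have h3 := norm_sub_cmp x w₁ (hw j)
  have h4 : (1 + ‖w₁ - w j‖ / (w j).im) ^ 2 ≤ ∑ j, (1 + ‖w₁ - w j‖ / (w j).im) ^ 2 :=
    Finset.single_le_sum (f := fun j => (1 + ‖w₁ - w j‖ / (w j).im) ^ 2)
      (fun _ _ => sq_nonneg _) (Finset.mem_univ j)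
  simp only [eV, norm_div, norm_one, norm_pow]
  rw [div_le_div_iff₀ (by positivity) (by positivity), one_mul]
  calc ‖(x : ℂ) - w₁‖ ^ 2 ≤ ((1 + ‖w₁ - w j‖ / (w j).im) * ‖(x : ℂ) - w j‖) ^ 2 :=
        pow_le_pow_left₀ h1.le h3 2
    _ = (1 + ‖w₁ - w j‖ / (w j).im) ^ 2 * ‖(x : ℂ) - w j‖ ^ 2 := by ring
    _ ≤ _ := mul_le_mul_of_nonneg_right h4 (by positivity)

/-- `x² ‖eV w x‖` is bounded -/
theorem sq_mul_norm_eV_le {k : ℕ} {w : Fin k → ℂ} (hw : ∀ j, 0 < (w j).im) :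
    ∃ C : ℝ, 0 ≤ C ∧ ∀ x : ℝ, x ^ 2 * ‖eV w x‖ ≤ C := by
  obtain ⟨C, hC0, hC⟩ := norm_eV_le hw Complex.I (by simp)
  refine ⟨C, hC0, fun x => ?_⟩
  have h1 : ‖(x : ℂ) - Complex.I‖ ^ 2 = x ^ 2 + 1 := by
    rw [Complex.sq_norm, Complex.normSq_apply]
    simp
    ring
  have h2 := hC x
  rw [h1, le_div_iff₀ (by positivity)] at h2
  nlinarith [norm_nonneg (eV w x)]

theorem continuous_leI {k : ℕ} {w₀ : ℂ} {w : Fin k → ℂ} (hw₀ : 0 < w₀.im) (hw : ∀ j, 0 < (w j).im)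
    {φ : (Fin k → ℂ) → ℂ} (hφ : ContDiff ℝ 1 φ) : Continuous fun p : Conf n => leI p w₀ w φ := by
  unfold leI
  have h1 : Continuous fun p : Conf n => sV p w := continuous_sV hw
  have h2 : Continuous fun p : Conf n => fderiv ℝ φ (sV p w) :=
    (hφ.continuous_fderiv one_ne_zero).comp h1
  refine (((continuous_const.add ((continuous_sF hw₀.ne').pow 2)).add (continuous_sD hw₀)).mul
    (hφ.continuous.comp h1)).add (continuous_const.mul (continuous_finsetSum _ fun i _ => ?_))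
  exact (h2.clm_apply (CDet_cont_eV hw i)).div (CDet_cont i w₀) (fun p => CDet_ne _ hw₀)

/-- Plan: `sF_bound` with `w = w 0`, `‖sF p (w 0)‖ ≤ ‖sV p w‖`, `norm_eV_le`. -/
theorem leI_bdd {k : ℕ} {w₀ : ℂ} {w : Fin (k + 1) → ℂ} (hw₀ : 0 < w₀.im) (hw : ∀ j, 0 < (w j).im)
    {φ : (Fin (k + 1) → ℂ) → ℂ} (hφ : Dec φ) :
    ∃ C : ℝ, ∀ (n : ℕ) (p : Conf n), ‖leI p w₀ w φ‖ ≤ C := by
  obtain ⟨-, C, hC⟩ := hφ
  obtain ⟨C₁, hC₁0, hC₁⟩ := sF_bound (hw 0) hw₀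
  obtain ⟨C₂, hC₂0, hC₂⟩ := norm_eV_le hw w₀ hw₀
  refine ⟨(Real.pi ^ 2 + C₁ ^ 2 + C₁ + 2 * (C₂ / w₀.im * C₁)) * C, fun n p => ?_⟩
  obtain ⟨h1, h2⟩ := hC₁ n p
  have hσ : ‖sF p (w 0)‖ ≤ ‖sV p w‖ := norm_le_pi_norm (sV p w) 0
  have hC' := hC (sV p w)
  set σ := ‖sV p w‖ with hσd
  set a := ‖φ (sV p w)‖ with ha
  set b := ‖fderiv ℝ φ (sV p w)‖ with hb
  have hσ0 : 0 ≤ σ := norm_nonneg _
  have ha0 : 0 ≤ a := norm_nonneg _
  have hb0 : 0 ≤ b := norm_nonneg _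
  have h1' : ‖sF p w₀‖ ≤ C₁ * σ := h1.trans (mul_le_mul_of_nonneg_left hσ hC₁0)
  have h2' : sN p w₀ ≤ C₁ * σ := h2.trans (mul_le_mul_of_nonneg_left hσ hC₁0)
  have p0 : 1 ≤ (1 + σ) ^ 4 := one_le_pow₀ (by linarith)
  have p1 : σ ≤ (1 + σ) ^ 4 := (by linarith : σ ≤ 1 + σ).trans (le_self_pow₀ (by linarith) (by norm_num))
  have p2 : σ ^ 2 ≤ (1 + σ) ^ 4 :=
    (pow_le_pow_left₀ hσ0 (by linarith : σ ≤ 1 + σ) 2).trans
      (pow_le_pow_right₀ (by linarith) (by norm_num))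
  have t1 : ‖(Real.pi : ℂ) ^ 2 + sF p w₀ ^ 2 + sD p w₀‖
      ≤ (Real.pi ^ 2 + C₁ ^ 2 + C₁) * (1 + σ) ^ 4 := by
    refine norm_add₃_le.trans ?_
    have e1 : ‖(Real.pi : ℂ) ^ 2‖ = Real.pi ^ 2 := by
      rw [norm_pow, Complex.norm_real, Real.norm_eq_abs, sq_abs]
    have e2 : ‖sF p w₀ ^ 2‖ ≤ C₁ ^ 2 * (1 + σ) ^ 4 := by
      rw [norm_pow]
      calc ‖sF p w₀‖ ^ 2 ≤ (C₁ * σ) ^ 2 := pow_le_pow_left₀ (norm_nonneg _) h1' 2
        _ = C₁ ^ 2 * σ ^ 2 := by ring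
        _ ≤ _ := mul_le_mul_of_nonneg_left p2 (by positivity)
    have e3 : ‖sD p w₀‖ ≤ C₁ * (1 + σ) ^ 4 :=
      ((norm_sD_le p w₀).trans h2').trans (mul_le_mul_of_nonneg_left p1 hC₁0)
    have e4 : Real.pi ^ 2 ≤ Real.pi ^ 2 * (1 + σ) ^ 4 := le_mul_of_one_le_right (by positivity) p0
    rw [e1]
    linarith
  have t2 : ‖∑ i, fderiv ℝ φ (sV p w) (eV w (p.1 i)) / ((p.1 i : ℂ) - w₀)‖
      ≤ b * (C₂ / w₀.im * C₁) * (1 + σ) ^ 4 := by
    have e1 : ∀ i, ‖fderiv ℝ φ (sV p w) (eV w (p.1 i)) / ((p.1 i : ℂ) - w₀)‖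
        ≤ b * (C₂ / w₀.im) * (1 / ‖(p.1 i : ℂ) - w₀‖ ^ 2) := by
      intro i
      have q1 := CDet_pos (p.1 i) hw₀
      rw [norm_div]
      calc ‖fderiv ℝ φ (sV p w) (eV w (p.1 i))‖ / ‖(p.1 i : ℂ) - w₀‖
          ≤ (b * (C₂ / ‖(p.1 i : ℂ) - w₀‖ ^ 2)) / w₀.im :=
            div_le_div₀ (by positivity) (((fderiv ℝ φ (sV p w)).le_opNorm _).trans
              (mul_le_mul_of_nonneg_left (hC₂ _) hb0)) hw₀ (im_le_norm_sub _ _)
        _ = _ := by field_simp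
    refine (norm_sum_le_of_le _ (fun i _ => e1 i)).trans ?_
    rw [← Finset.mul_sum]
    change b * (C₂ / w₀.im) * sN p w₀ ≤ _
    calc b * (C₂ / w₀.im) * sN p w₀ ≤ b * (C₂ / w₀.im) * (C₁ * (1 + σ) ^ 4) :=
          mul_le_mul_of_nonneg_left (h2'.trans (mul_le_mul_of_nonneg_left p1 hC₁0)) (by positivity)
      _ = _ := by ring
  unfold leI
  refine (norm_add_le _ _).trans ?_
  rw [norm_mul, norm_mul, Complex.norm_two]
  have k1 : 0 ≤ Real.pi ^ 2 + C₁ ^ 2 + C₁ := by positivity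
  have k2 : 0 ≤ C₂ / w₀.im * C₁ := by positivity
  have k3 : 0 ≤ (1 + σ) ^ 4 := by positivity
  calc _ ≤ (Real.pi ^ 2 + C₁ ^ 2 + C₁) * (1 + σ) ^ 4 * a
        + 2 * (b * (C₂ / w₀.im * C₁) * (1 + σ) ^ 4) :=
        add_le_add (mul_le_mul_of_nonneg_right t1 ha0) (mul_le_mul_of_nonneg_left t2 zero_le_two)
    _ ≤ (Real.pi ^ 2 + C₁ ^ 2 + C₁ + 2 * (C₂ / w₀.im * C₁)) * ((a + b) * (1 + σ) ^ 4) := by
        nlinarith [mul_nonneg (mul_nonneg k1 k3) hb0, mul_nonneg (mul_nonneg k2 k3) ha0]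
    _ ≤ _ := mul_le_mul_of_nonneg_left hC' (by positivity)

/-- compactly supported `C¹` functions decay (`HasCompactSupport.fderiv`,
`Continuous.bounded_above_of_compact_support`) -/
theorem dec_of_compact {k : ℕ} {φ : (Fin k → ℂ) → ℂ} (h : ContDiff ℝ 1 φ)
    (hc : HasCompactSupport φ) : Dec φ := by
  refine ⟨h, ?_⟩
  have h1 : Continuous fun s => (‖φ s‖ + ‖fderiv ℝ φ s‖) * (1 + ‖s‖) ^ 4 :=
    (h.continuous.norm.add (h.continuous_fderiv one_ne_zero).norm).mul (by fun_prop)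
  have h2 : HasCompactSupport fun s => (‖φ s‖ + ‖fderiv ℝ φ s‖) * (1 + ‖s‖) ^ 4 :=
    HasCompactSupport.mul_right (f := fun s => ‖φ s‖ + ‖fderiv ℝ φ s‖)
      (hc.norm.add (hc.fderiv ℝ).norm)
  obtain ⟨C, hC⟩ := h1.bounded_above_of_compact_support h2
  exact ⟨C, fun s => (le_abs_self _).trans (hC s)⟩

end

end Crest.Agent.R166
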