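import Crest.Agent.R166.C.Defs

/-! # Row 166, part C: deterministic estimates for Stieltjes transforms -/

set_option autoImplicit false
set_option linter.unusedVariables false
set_option linter.unusedSectionVars false

open MeasureTheory ProbabilityTheory Filter Topology Matrix
open scoped ENNReal BoundedContinuousFunction ComplexConjugate

namespace Crest.Agent.R166

noncomputable section

variable {n : ℕ}

theorem sN_nonneg (p : Conf n) (w : ℂ) : 0 ≤ sN p w := by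
  exact Finset.sum_nonneg fun i _ => by positivity

/-- `Im (1/(x - w)) = Im w / |x - w|²` -/
theorem im_sF (p : Conf n) (w : ℂ) : (sF p w).im = w.im * sN p w := by
  rw [sF, sN, Complex.sub_im, Complex.ofReal_im, sub_zero, Complex.im_sum, Finset.mul_sum]
  refine Finset.sum_congr rfl fun i _ => ?_
  rw [one_div, Complex.inv_im, Complex.normSq_eq_norm_sq]
  simp [div_eq_mul_inv]

theorem im_sF_nonneg (p : Conf n) {w : ℂ} (hw : 0 < w.im) : 0 ≤ (sF p w).im := by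
  rw [im_sF]
  exact mul_nonneg hw.le (sN_nonneg p w)

theorem im_le_norm_sub (x : ℝ) (w : ℂ) : w.im ≤ ‖(x : ℂ) - w‖ := by
  rw [norm_sub_rev]
  simpa using Complex.im_le_norm (w - x)

/-- triangle inequality and `Im w' ≤ |x - w'|` -/
theorem norm_sub_cmp (x : ℝ) (w : ℂ) {w' : ℂ} (hw' : 0 < w'.im) :
    ‖(x : ℂ) - w‖ ≤ (1 + ‖w - w'‖ / w'.im) * ‖(x : ℂ) - w'‖ := by
  have h1 := norm_sub_le_norm_sub_add_norm_sub (x : ℂ) w' w
  have h2 : ‖w - w'‖ ≤ ‖w - w'‖ / w'.im * ‖(x : ℂ) - w'‖ := by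
    rw [div_mul_eq_mul_div, le_div_iff₀ hw']
    exact mul_le_mul_of_nonneg_left (im_le_norm_sub x w') (norm_nonneg _)
  rw [norm_sub_rev w' w] at h1
  linarith

theorem CDet0_pos (x : ℝ) {w : ℂ} (hw : 0 < w.im) : 0 < ‖(x : ℂ) - w‖ :=
  hw.trans_le (im_le_norm_sub x w)

theorem CDet0_le (x : ℝ) {w : ℂ} (hw : 0 < w.im) : ‖1 / ((x : ℂ) - w)‖ ≤ 1 / w.im := by
  rw [norm_div, norm_one]
  exact one_div_le_one_div_of_le hw (im_le_norm_sub x w)

theorem CDet0_cmp (x : ℝ) {w w' : ℂ} (hw : 0 < w.im) (hw' : 0 < w'.im) :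
    1 / ‖(x : ℂ) - w'‖ ≤ (1 + ‖w - w'‖ / w'.im) * (1 / ‖(x : ℂ) - w‖) := by
  rw [mul_one_div, div_le_div_iff₀ (CDet0_pos x hw') (CDet0_pos x hw), one_mul]
  exact norm_sub_cmp x w hw'

theorem CDet0_sub (x : ℝ) {w w' : ℂ} (hw : 0 < w.im) (hw' : 0 < w'.im) :
    ‖1 / ((x : ℂ) - w') - 1 / ((x : ℂ) - w)‖ ≤
      ‖w - w'‖ * (1 + ‖w - w'‖ / w'.im) * (1 / ‖(x : ℂ) - w‖ ^ 2) := by
  have h1 := norm_pos_iff.1 (CDet0_pos x hw)
  have h2 := norm_pos_iff.1 (CDet0_pos x hw')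
  have h3 : 1 / ((x : ℂ) - w') - 1 / ((x : ℂ) - w) =
      (w' - w) * (1 / ((x : ℂ) - w')) * (1 / ((x : ℂ) - w)) := by
    field_simp
    ring
  rw [h3, norm_mul, norm_mul, norm_div, norm_div, norm_one, norm_sub_rev w' w]
  calc _ ≤ ‖w - w'‖ * ((1 + ‖w - w'‖ / w'.im) * (1 / ‖(x : ℂ) - w‖)) * (1 / ‖(x : ℂ) - w‖) := by
        gcongr
        exact CDet0_cmp x hw hw'
    _ = _ := by ring

theorem sN_cmp (p : Conf n) {w w' : ℂ} (hw : 0 < w.im) (hw' : 0 < w'.im) :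
    sN p w' ≤ (1 + ‖w - w'‖ / w'.im) ^ 2 * sN p w := by
  rw [sN, sN, Finset.mul_sum]
  refine Finset.sum_le_sum fun i _ => ?_
  rw [← _root_.one_div_pow, ← _root_.one_div_pow, ← mul_pow]
  exact pow_le_pow_left₀ (by positivity) (CDet0_cmp _ hw hw') 2

/-- `1/(x-w') - 1/(x-w) = (w' - w)/((x-w)(x-w'))` -/
theorem norm_sF_sub (p : Conf n) {w w' : ℂ} (hw : 0 < w.im) (hw' : 0 < w'.im) :
    ‖sF p w' - sF p w‖ ≤ ‖w - w'‖ * (1 + ‖w - w'‖ / w'.im) * sN p w := by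
  rw [sF, sF, sub_sub_sub_cancel_right, ← Finset.sum_sub_distrib, sN, Finset.mul_sum]
  exact norm_sum_le_of_le _ fun i _ => CDet0_sub _ hw hw'

theorem norm_sD_le (p : Conf n) (w : ℂ) : ‖sD p w‖ ≤ sN p w := by
  exact norm_sum_le_of_le _ fun i _ => by rw [norm_div, norm_one, norm_pow]

/-- all values of `s` are controlled by one of them (`sN p w ≤ ‖sF p w‖ / w.im`) -/
theorem sF_bound {w w' : ℂ} (hw : 0 < w.im) (hw' : 0 < w'.im) : ∃ C : ℝ, 0 ≤ C ∧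
    ∀ (n : ℕ) (p : Conf n), ‖sF p w'‖ ≤ C * ‖sF p w‖ ∧ sN p w' ≤ C * ‖sF p w‖ := by
  have ha : 0 ≤ ‖w - w'‖ * (1 + ‖w - w'‖ / w'.im) := by positivity
  have hb : 0 ≤ (1 + ‖w - w'‖ / w'.im) ^ 2 := by positivity
  have hi : 0 ≤ 1 / w.im := by positivity
  refine ⟨1 + ‖w - w'‖ * (1 + ‖w - w'‖ / w'.im) * (1 / w.im) + (1 + ‖w - w'‖ / w'.im) ^ 2 * (1 / w.im),
    by positivity, fun n p => ?_⟩
  have h1 : sN p w ≤ 1 / w.im * ‖sF p w‖ := by
    rw [one_div_mul_eq_div, le_div_iff₀' hw, ← im_sF]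
    exact Complex.im_le_norm _
  have h2 := (norm_sF_sub p hw hw').trans (mul_le_mul_of_nonneg_left h1 ha)
  have h3 := (sN_cmp p hw hw').trans (mul_le_mul_of_nonneg_left h1 hb)
  have h4 := norm_le_norm_add_norm_sub' (sF p w') (sF p w)
  have h5 := mul_nonneg ha (mul_nonneg hi (norm_nonneg (sF p w)))
  have h6 := mul_nonneg hb (mul_nonneg hi (norm_nonneg (sF p w)))
  constructor <;> nlinarith [norm_nonneg (sF p w)]

/-- the summand is `h/((x-w)²(x-w-h))` -/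
theorem sD_diff (p : Conf n) {w : ℂ} (hw : 0 < w.im) {h : ℝ} (hh : 0 < h) :
    ‖(sF p (w + h) - sF p w) / h - sD p w‖ ≤ h * sN p w / w.im := by
  have hw' : 0 < (w + h).im := by simpa using hw
  rw [sF, sF, sub_sub_sub_cancel_right, ← Finset.sum_sub_distrib, Finset.sum_div, sD,
    ← Finset.sum_sub_distrib, sN, Finset.mul_sum, Finset.sum_div]
  refine norm_sum_le_of_le _ fun i _ => ?_
  have h1 := norm_pos_iff.1 (CDet0_pos (p.1 i) hw)
  have h2 := norm_pos_iff.1 (CDet0_pos (p.1 i) hw')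
  have h0 : (h : ℂ) ≠ 0 := Complex.ofReal_ne_zero.2 hh.ne'
  have h3 : (1 / ((p.1 i : ℂ) - (w + h)) - 1 / ((p.1 i : ℂ) - w)) / h - 1 / ((p.1 i : ℂ) - w) ^ 2 =
      h * (1 / ((p.1 i : ℂ) - w) ^ 2) * (1 / ((p.1 i : ℂ) - (w + h))) := by
    field_simp
    ring
  rw [h3, norm_mul, norm_mul, norm_div, norm_one, norm_pow, Complex.norm_real,
    Real.norm_of_nonneg hh.le, div_eq_mul_one_div _ w.im]
  gcongr
  simpa using CDet0_le (p.1 i) hw'

/-- `1/a² - 1/b² = (1/a - 1/b)(1/a + 1/b)` -/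
theorem norm_sD_sub (p : Conf n) {w w' : ℂ} (hw : 0 < w.im) (hw' : 0 < w'.im) :
    ‖sD p w' - sD p w‖ ≤
      ‖w - w'‖ * (1 + ‖w - w'‖ / w'.im) * (1 / w.im + 1 / w'.im) * sN p w := by
  rw [sD, sD, ← Finset.sum_sub_distrib, sN, Finset.mul_sum]
  refine norm_sum_le_of_le _ fun i _ => ?_
  rw [← _root_.one_div_pow, ← _root_.one_div_pow, sq_sub_sq, norm_mul, mul_right_comm, mul_comm,
    add_comm (1 / w.im)]
  exact mul_le_mul (CDet0_sub _ hw hw') (norm_add_le_of_le (CDet0_le _ hw') (CDet0_le _ hw))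
    (norm_nonneg _) (by positivity)

end

end Crest.Agent.R166
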