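import Crest.Agent.R166.C.Defs

/-! # Row 166, part C: the group generated by rotD θ and the orthogonal group -/

set_option autoImplicit false
set_option linter.unusedVariables false
set_option linter.unusedSectionVars false

open MeasureTheory ProbabilityTheory Filter Topology Matrix
open scoped ENNReal BoundedContinuousFunction ComplexConjugate

namespace Crest.Agent.R166

noncomputable section

theorem uq_mul {r : ℕ} (u v : Matrix (Fin r) (Fin r) ℂ) : uq (u * v) = (uq u).mul (uq v) := by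
  have hpi := Real.pi_ne_zero
  have h1 : (u * v).map Complex.re = u.map Complex.re * v.map Complex.re -
      u.map Complex.im * v.map Complex.im := by
    ext b c; simp [Matrix.mul_apply, Finset.sum_sub_distrib]
  have h2 : (u * v).map Complex.im = u.map Complex.re * v.map Complex.im +
      u.map Complex.im * v.map Complex.re := by
    ext b c; simp [Matrix.mul_apply, Finset.sum_add_distrib]
  have h3 : Real.pi * -(1 / Real.pi) = -1 := by field_simp
  have h4 : -(1 / Real.pi) * Real.pi = -1 := by field_simp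
  refine Quad.ext ?_ ?_ ?_ ?_
  · simp only [uq, Quad.mul, h1, Matrix.smul_mul, Matrix.mul_smul, smul_smul, h3, h4]
    rw [neg_one_smul, sub_eq_add_neg]
  · simp only [uq, Quad.mul, h2, Matrix.smul_mul, Matrix.mul_smul, smul_add]
  · simp only [uq, Quad.mul, h2, Matrix.smul_mul, Matrix.mul_smul, smul_add]
    exact add_comm _ _
  · simp only [uq, Quad.mul, h1, Matrix.smul_mul, Matrix.mul_smul, smul_smul, h3, h4]
    rw [neg_one_smul, sub_eq_add_neg]
    exact add_comm _ _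

theorem uq_cx {r : ℕ} (O : Matrix (Fin r) (Fin r) ℝ) : uq (cx O) = orthQ O := by
  refine Quad.ext ?_ ?_ ?_ ?_ <;> ext b c <;> simp [uq, orthQ]

theorem uq_diag {r : ℕ} (θ : Fin r → ℝ) :
    uq (diagonal fun b => Complex.exp (θ b * Complex.I)) = rotQ θ := by
  refine Quad.ext ?_ ?_ ?_ ?_ <;> ext b c <;> by_cases h : b = c <;>
    simp [uq, rotQ, h, Matrix.diagonal_apply, Complex.exp_ofReal_mul_I_re, Complex.exp_ofReal_mul_I_im]
  ring

theorem rotQ_mul {r : ℕ} (θ θ' : Fin r → ℝ) : (rotQ θ).mul (rotQ θ') = rotQ (θ + θ') := by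
  rw [← uq_diag, ← uq_diag, ← uq_diag, ← uq_mul, diagonal_mul_diagonal]
  congr 2
  funext b
  rw [← Complex.exp_add]
  simp [add_mul]

theorem rotD_mul (r : ℕ) (ψ ψ' : ℝ) : (rotD r ψ).mul (rotD r ψ') = rotD r (ψ + ψ') := by
  unfold rotD
  rw [rotQ_mul]
  congr 1
  funext b
  simp only [Pi.add_apply]
  split_ifs <;> ring

theorem rotD_zero (r : ℕ) : rotD r 0 = Quad.one (r + 2) := by
  refine Quad.ext ?_ ?_ ?_ ?_ <;> ext b c <;> simp [rotD, rotQ, Quad.one, Matrix.diagonal_apply, Matrix.one_apply]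

/-- index splitting -/
def grpE (r : ℕ) : Fin 3 ⊕ Fin r ≃ Fin (r + 1 + 2) := finSumFinEquiv.trans (finCongr (by omega))

/-- `A ⊕ 1` -/
def grpB (r : ℕ) {R : Type} [CommRing R] (A : Matrix (Fin 3) (Fin 3) R) :
    Matrix (Fin (r + 1 + 2)) (Fin (r + 1 + 2)) R :=
  (fromBlocks A 0 0 (1 : Matrix (Fin r) (Fin r) R)).submatrix (grpE r).symm (grpE r).symm

theorem grpB_mul (r : ℕ) {R : Type} [CommRing R] (A B : Matrix (Fin 3) (Fin 3) R) :
    grpB r (A * B) = grpB r A * grpB r B := by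
  unfold grpB
  rw [Matrix.submatrix_mul_equiv, fromBlocks_multiply]
  simp

theorem grpB_one (r : ℕ) {R : Type} [CommRing R] : grpB r (1 : Matrix (Fin 3) (Fin 3) R) = 1 := by
  unfold grpB
  rw [fromBlocks_one]
  simp

theorem grpB_tr (r : ℕ) {R : Type} [CommRing R] (A : Matrix (Fin 3) (Fin 3) R) :
    (grpB r A)ᵀ = grpB r Aᵀ := by
  unfold grpB
  rw [Matrix.transpose_submatrix, fromBlocks_transpose]
  simp

theorem grpB_cx (r : ℕ) (A : Matrix (Fin 3) (Fin 3) ℝ) : grpB r (cx A) = cx (grpB r A) := by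
  ext b c
  simp only [grpB, cx_apply, Matrix.submatrix_apply]
  rcases (grpE r).symm b with b' | b' <;> rcases (grpE r).symm c with c' | c' <;>
    simp [Matrix.one_apply]
  split_ifs <;> simp

theorem grpB_diag (r : ℕ) (ψ : ℝ) :
    uq (grpB r !![Complex.exp (ψ * Complex.I), 0, 0; 0, Complex.exp (-ψ * Complex.I), 0; 0, 0, 1]) =
      rotD (r + 1) ψ := by
  unfold rotD
  rw [← uq_diag]
  congr 1
  have h1 : (!![Complex.exp (ψ * Complex.I), 0, 0; 0, Complex.exp (-ψ * Complex.I), 0; 0, 0, 1] :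
      Matrix (Fin 3) (Fin 3) ℂ) =
      diagonal ![Complex.exp (ψ * Complex.I), Complex.exp (-ψ * Complex.I), 1] := by
    ext b c; fin_cases b <;> fin_cases c <;> simp
  unfold grpB
  rw [h1, ← diagonal_one, fromBlocks_diagonal, Matrix.submatrix_diagonal_equiv]
  congr 1
  funext b
  obtain ⟨b', rfl⟩ := (grpE r).surjective b
  simp only [Function.comp, Equiv.symm_apply_apply]
  rcases b' with b' | b'
  · have h0 : grpE r (Sum.inl 0) = 0 := by ext; simp [grpE]
    have h1 : grpE r (Sum.inl 1) = 1 := by ext; simp [grpE]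
    have h2 : grpE r (Sum.inl 2) ≠ 0 := by intro h; have := congrArg Fin.val h; simp [grpE] at this
    have h3 : grpE r (Sum.inl 2) ≠ 1 := by intro h; have := congrArg Fin.val h; simp [grpE] at this
    fin_cases b'
    · simp [h0]
    · simp [h1]
    · simp [h2, h3]
  · have h2 : grpE r (Sum.inr b') ≠ 0 := by
      intro h; have := congrArg Fin.val h; simp [grpE] at this
    have h3 : grpE r (Sum.inr b') ≠ 1 := by
      intro h; have := congrArg Fin.val h; simp [grpE] at this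
    simp [h2, h3]

theorem grp_half (x y : ℝ) : ∃ a b : ℝ, a ^ 2 + b ^ 2 = 1 ∧
    (a ^ 2 - b ^ 2) * x - 2 * a * b * y = Real.sqrt (x ^ 2 + y ^ 2) ∧
      (a ^ 2 - b ^ 2) * y + 2 * a * b * x = 0 := by
  set z : ℂ := ⟨x, y⟩ with hz
  set α : ℝ := -(Complex.arg z / 2) with hα
  have h1 : Complex.exp (α * Complex.I) ^ 2 * z = (‖z‖ : ℂ) := by
    conv_lhs => rw [← Complex.norm_mul_exp_arg_mul_I z]
    rw [← Complex.exp_nat_mul, mul_left_comm, ← Complex.exp_add]
    have : ((2 : ℕ) : ℂ) * (α * Complex.I) + (Complex.arg z : ℂ) * Complex.I = 0 := by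
      rw [hα]; push_cast; ring
    rw [this]; simp
  have h2 : ‖z‖ = Real.sqrt (x ^ 2 + y ^ 2) := by
    rw [Complex.norm_def, Complex.normSq_apply]; congr 1; simp [hz]; ring
  refine ⟨Real.cos α, Real.sin α, by nlinarith [Real.sin_sq_add_cos_sq α], ?_, ?_⟩
  · have := congrArg Complex.re h1
    rw [← h2]
    simp only [sq, Complex.mul_re, Complex.mul_im, Complex.exp_ofReal_mul_I_re,
      Complex.exp_ofReal_mul_I_im, Complex.ofReal_re, hz] at this ⊢
    linarith
  · have := congrArg Complex.im h1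
    simp only [sq, Complex.mul_re, Complex.mul_im, Complex.exp_ofReal_mul_I_re,
      Complex.exp_ofReal_mul_I_im, Complex.ofReal_im, hz] at this ⊢
    linarith

theorem grp_three (P : Matrix (Fin 3) (Fin 3) ℂ → Prop) (hmul : ∀ A B, P A → P B → P (A * B))
    (horth : ∀ O : Matrix (Fin 3) (Fin 3) ℝ, O * Oᵀ = 1 → P (cx O)) {θ : ℝ} (hθ : Real.sin θ ≠ 0)
    (hD : P !![Complex.exp (θ * Complex.I), 0, 0; 0, Complex.exp (-θ * Complex.I), 0; 0, 0, 1])
    {ψ : ℝ} (h1 : |Real.sin ψ| ≤ |Real.sin θ|) (h2 : 0 ≤ Real.cos ψ) :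
    P !![Complex.exp (ψ * Complex.I), 0, 0; 0, Complex.exp (-ψ * Complex.I), 0; 0, 0, 1] := by
  have hexp : ∀ t : ℝ, Complex.exp (t * Complex.I) = (Real.cos t : ℂ) + (Real.sin t : ℂ) * Complex.I ∧
      Complex.exp (-t * Complex.I) = (Real.cos t : ℂ) - (Real.sin t : ℂ) * Complex.I := by
    intro t
    constructor
    · rw [Complex.exp_mul_I]; simp
    · rw [Complex.exp_mul_I]; simp [sub_eq_add_neg]
  rw [(hexp θ).1, (hexp θ).2] at hD
  rw [(hexp ψ).1, (hexp ψ).2]
  have hθ2 := Real.sin_sq_add_cos_sq θ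
  have hψ2 := Real.sin_sq_add_cos_sq ψ
  generalize Real.cos θ = C at *
  generalize Real.sin θ = S at *
  generalize Real.cos ψ = C' at *
  generalize Real.sin ψ = S' at *
  have hR : ∀ a b : ℝ, a ^ 2 + b ^ 2 = 1 → P !![(a : ℂ), -b, 0; b, a, 0; 0, 0, 1] := by
    intro a b hab
    have := horth !![a, -b, 0; b, a, 0; 0, 0, 1] (by
      ext i j; fin_cases i <;> fin_cases j <;> simp [Matrix.mul_apply, Fin.sum_univ_three] <;> nlinarith)
    convert this using 1
    ext i j; fin_cases i <;> fin_cases j <;> simp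
  have hS1 : P !![(1 : ℂ), 0, 0; 0, 0, 1; 0, 1, 0] := by
    have := horth !![1, 0, 0; 0, 0, 1; 0, 1, 0] (by
      ext i j; fin_cases i <;> fin_cases j <;> simp [Matrix.mul_apply, Fin.sum_univ_three])
    convert this using 1
    ext i j; fin_cases i <;> fin_cases j <;> simp
  have hS2 : P !![(0 : ℂ), 0, 1; 0, 1, 0; 1, 0, 0] := by
    have := horth !![0, 0, 1; 0, 1, 0; 1, 0, 0] (by
      ext i j; fin_cases i <;> fin_cases j <;> simp [Matrix.mul_apply, Fin.sum_univ_three])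
    convert this using 1
    ext i j; fin_cases i <;> fin_cases j <;> simp
  have hD2 : P !![(C : ℂ) + S * Complex.I, 0, 0; 0, 1, 0; 0, 0, (C : ℂ) - S * Complex.I] := by
    have := hmul _ _ (hmul _ _ hS1 hD) hS1
    convert this using 1
    ext i j; fin_cases i <;> fin_cases j <;> simp [Matrix.mul_apply, Fin.sum_univ_three]
  have hD3 : P !![(C : ℂ) - S * Complex.I, 0, 0; 0, 1, 0; 0, 0, (C : ℂ) + S * Complex.I] := by
    have := hmul _ _ (hmul _ _ hS2 hD2) hS2
    convert this using 1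
    ext i j; fin_cases i <;> fin_cases j <;> simp [Matrix.mul_apply, Fin.sum_univ_three]
  obtain ⟨s, hs⟩ : ∃ s : ℝ, s * S = -S' := ⟨-S' / S, by field_simp⟩
  have hs1 : s ^ 2 ≤ 1 := by
    have h3 : S' ^ 2 ≤ S ^ 2 := sq_le_sq.mpr h1
    have h4 : 0 < S ^ 2 := by positivity
    have h5 : s ^ 2 * S ^ 2 = S' ^ 2 := by rw [← mul_pow, hs]; ring
    nlinarith
  obtain ⟨c, hc⟩ : ∃ c : ℝ, c ^ 2 + s ^ 2 = 1 :=
    ⟨Real.sqrt (1 - s ^ 2), by rw [Real.sq_sqrt (by linarith)]; ring⟩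
  obtain ⟨a, b, hab, e1, e2⟩ := grp_half c (s * C)
  have hq : Real.sqrt (c ^ 2 + (s * C) ^ 2) = C' := by
    rw [Real.sqrt_eq_iff_mul_self_eq (by positivity) h2]
    have h5 : s ^ 2 * S ^ 2 = S' ^ 2 := by rw [← mul_pow, hs]; ring
    nlinarith
  rw [hq] at e1
  have hCS : (S : ℂ) ^ 2 + C ^ 2 = 1 := by exact_mod_cast hθ2
  have hX : P !![(c : ℂ), -s * (C + S * Complex.I), 0; s * (C - S * Complex.I), c, 0; 0, 0, 1] := by
    have := hmul _ _ (hmul _ _ hD2 (hR c s hc)) hD3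
    convert this using 1
    ext i j; fin_cases i <;> fin_cases j <;> simp [Matrix.mul_apply, Fin.sum_univ_three]
    · linear_combination (-c : ℂ) * hCS + (c : ℂ) * (S : ℂ) ^ 2 * Complex.I_sq
    · ring
    · linear_combination (-1 : ℂ) * hCS + (S : ℂ) ^ 2 * Complex.I_sq
  have e1' : ((a : ℂ) ^ 2 - b ^ 2) * c - 2 * a * b * (s * C) = C' := by exact_mod_cast e1
  have e2' : ((a : ℂ) ^ 2 - b ^ 2) * (s * C) + 2 * a * b * c = 0 := by exact_mod_cast e2
  have hab' : (a : ℂ) ^ 2 + b ^ 2 = 1 := by exact_mod_cast hab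
  have hs' : (s : ℂ) * S = -S' := by exact_mod_cast hs
  have hY : P !![(C' : ℂ), S' * Complex.I, 0; S' * Complex.I, C', 0; 0, 0, 1] := by
    have := hmul _ _ (hmul _ _ (hR a b hab) hX) (hR a b hab)
    convert this using 1
    ext i j; fin_cases i <;> fin_cases j <;> simp [Matrix.mul_apply, Fin.sum_univ_three]
    · linear_combination (-1 : ℂ) * e1'
    · linear_combination e2' + Complex.I * hs' + (s : ℂ) * S * Complex.I * hab'
    · linear_combination (-1 : ℂ) * e2' + Complex.I * hs' + (s : ℂ) * S * Complex.I * hab'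
    · linear_combination (-1 : ℂ) * e1'
  obtain ⟨h, hh⟩ : ∃ h : ℝ, h ^ 2 + h ^ 2 = 1 :=
    ⟨Real.sqrt (1 / 2), by rw [Real.sq_sqrt (by norm_num)]; norm_num⟩
  have hh' : (h : ℂ) ^ 2 + h ^ 2 = 1 := by exact_mod_cast hh
  have := hmul _ _ (hmul _ _ (hR h (-h) (by rw [neg_sq]; exact hh)) hY) (hR h h hh)
  convert this using 1
  ext i j; fin_cases i <;> fin_cases j <;> simp [Matrix.mul_apply, Fin.sum_univ_three]
  · linear_combination (-(C' : ℂ) - S' * Complex.I) * hh'
  · ring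
  · ring
  · linear_combination (-(C' : ℂ) + S' * Complex.I) * hh'

/-- Plan.  `P' u := P (uq u)` is multiplicative and contains `cx O`.  Conjugating by permutation matrices
(`Equiv.Perm.permMatrix`, orthogonal) it contains `diagonal (d ∘ σ)` for `d = (e^{iθ}, e^{-iθ}, 1, …)`, in
particular `D₂ = diag (e^{iθ}, 1, e^{-iθ}, 1, …)` and `D₂⁻¹ = diag (e^{-iθ}, 1, e^{iθ}, 1, …)`.
Let `blk A` be the matrix `A ⊕ 1` for `A : Matrix (Fin 2) (Fin 2) ℂ` (define it by `Fin.cons`/`Fin.cases` or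
`Matrix.of fun b c => if h : b < 2 ∧ c < 2 then A .. .. else if b = c then 1 else 0`; `blk (A B) = blk A blk B`),
`R a b = !![a, -b; b, a]` for `a² + b² = 1` (real orthogonal).  Then
`D₂ blk (R c s) D₂⁻¹ = blk !![c, -s e^{iθ}; s e^{-iθ}, c]`.  For `|sin ψ| ≤ |sin θ|`, `cos ψ ≥ 0` take
`s = -sin ψ / sin θ`, `c = √(1 - s²)`, `z = c + i s cos θ`, `|z| = cos ψ`, `a + i b = exp (-i arg z / 2)`, so
`(a + i b)² z = cos ψ`, and `R a b · !![c, -s e^{iθ}; s e^{-iθ}, c] · R a b = !![cos ψ, i sin ψ; i sin ψ, cos ψ]`.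
Conjugating with `R (1/√2) (∓1/√2)` gives `diag (e^{iψ}, e^{-iψ})`.  A general `ψ` is `N · (ψ/N)`
(`rotD_mul`, induction; `|sin t| ≤ |t|`). -/
theorem group_rotD (r : ℕ) (P : Quad (r + 1 + 2) → Prop)
    (hmul : ∀ q q', P q → P q' → P (q.mul q'))
    (horth : ∀ O : Matrix (Fin (r + 1 + 2)) (Fin (r + 1 + 2)) ℝ, O * Oᵀ = 1 → P (orthQ O))
    {θ : ℝ} (hθ : Real.sin θ ≠ 0) (hD : P (rotD (r + 1) θ)) (ψ : ℝ) : P (rotD (r + 1) ψ) := by
  have hsmall : ∀ t : ℝ, |Real.sin t| ≤ |Real.sin θ| → 0 ≤ Real.cos t → P (rotD (r + 1) t) := by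
    intro t h1 h2
    rw [← grpB_diag]
    refine grp_three (fun A => P (uq (grpB r A))) ?_ ?_ hθ ?_ h1 h2
    · intro A B hA hB
      show P _
      rw [grpB_mul, uq_mul]
      exact hmul _ _ hA hB
    · intro O hO
      show P _
      rw [grpB_cx, uq_cx]
      apply horth
      rw [grpB_tr, ← grpB_mul, hO, grpB_one]
    · show P _
      rw [grpB_diag]; exact hD
  have hpos : 0 < |Real.sin θ| := abs_pos.mpr hθ
  obtain ⟨N, hN⟩ := exists_nat_gt (|ψ| / |Real.sin θ|)
  have hN0 : (0 : ℝ) < N := lt_of_le_of_lt (by positivity) hN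
  have ht : |ψ / N| ≤ |Real.sin θ| := by
    rw [abs_div, abs_of_pos hN0, div_le_iff₀ hN0]
    rw [div_lt_iff₀ hpos] at hN
    linarith
  have h1 : P (rotD (r + 1) (ψ / N)) := by
    refine hsmall _ ((Real.abs_sin_le_abs).trans ht) ?_
    have h2 : |ψ / N| ≤ 1 := ht.trans (Real.abs_sin_le_one θ)
    have h3 := Real.one_le_pi_div_two
    rw [abs_le] at h2
    exact Real.cos_nonneg_of_neg_pi_div_two_le_of_le (by linarith) (by linarith)
  have h2 : ∀ m : ℕ, P (rotD (r + 1) (m * (ψ / N))) := by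
    intro m
    induction m with
    | zero => exact hsmall _ (by simp) (by simp)
    | succ m ih =>
      have := hmul _ _ ih h1
      rw [rotD_mul] at this
      convert this using 2
      push_cast; ring
  have := h2 N
  rwa [mul_div_cancel₀ _ hN0.ne'] at this

end

end Crest.Agent.R166
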