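import Crest.Agent.R166.C.Inv
import Crest.Agent.R166.C.Group

/-! # Row 166, part C: the flow lemma -/

set_option autoImplicit false
set_option linter.unusedVariables false
set_option linter.unusedSectionVars false

open MeasureTheory ProbabilityTheory Filter Topology Matrix
open scoped ENNReal BoundedContinuousFunction ComplexConjugate

namespace Crest.Agent.R166

noncomputable section

/-- entrywise derivative at `0` -/
def CFlow_MD (f : ℝ → Matrix (Fin 2) (Fin 2) ℂ) (f' : Matrix (Fin 2) (Fin 2) ℂ) : Prop :=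
  ∀ b c, HasDerivAt (fun ψ => f ψ b c) (f' b c) 0

theorem CFlow_MD.mul {f g : ℝ → Matrix (Fin 2) (Fin 2) ℂ} {f' g' : Matrix (Fin 2) (Fin 2) ℂ}
    (hf : CFlow_MD f f') (hg : CFlow_MD g g') :
    CFlow_MD (fun ψ => f ψ * g ψ) (f' * g 0 + f 0 * g') := fun b c => by
  simp only [Matrix.mul_apply, Matrix.add_apply, ← Finset.sum_add_distrib]
  exact HasDerivAt.fun_sum fun e _ => (hf b e).fun_mul (hg e c)

theorem CFlow_MD.add {f g : ℝ → Matrix (Fin 2) (Fin 2) ℂ} {f' g' : Matrix (Fin 2) (Fin 2) ℂ}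
    (hf : CFlow_MD f f') (hg : CFlow_MD g g') :
    CFlow_MD (fun ψ => f ψ + g ψ) (f' + g') := fun b c => (hf b c).fun_add (hg b c)

theorem CFlow_MD.const (f : Matrix (Fin 2) (Fin 2) ℂ) : CFlow_MD (fun _ => f) 0 :=
  fun b c => hasDerivAt_const _ _

theorem CFlow_MD.transpose {f : ℝ → Matrix (Fin 2) (Fin 2) ℂ} {f' : Matrix (Fin 2) (Fin 2) ℂ}
    (hf : CFlow_MD f f') : CFlow_MD (fun ψ => (f ψ)ᵀ) f'ᵀ := fun b c => hf c b

theorem CFlow_MD.inv {f : ℝ → Matrix (Fin 2) (Fin 2) ℂ} {f' : Matrix (Fin 2) (Fin 2) ℂ}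
    (hf : CFlow_MD f f') (h1 : f 0 = 1) : CFlow_MD (fun ψ => (f ψ)⁻¹) (-f') := fun b c => by
  have h00 : f 0 0 0 = 1 := by rw [h1]; simp
  have h11 : f 0 1 1 = 1 := by rw [h1]; simp
  have h01 : f 0 0 1 = 0 := by rw [h1]; simp
  have h10 : f 0 1 0 = 0 := by rw [h1]; simp
  have hd := (((hf 0 0).fun_mul (hf 1 1)).fun_sub ((hf 0 1).fun_mul (hf 1 0))).fun_inv
    (by simp [h00, h11, h01, h10])
  simp only [Matrix.inv_def, Ring.inverse_eq_inv', Matrix.det_fin_two, Matrix.adjugate_fin_two,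
    Matrix.smul_apply, smul_eq_mul, Matrix.neg_apply]
  fin_cases b <;> fin_cases c
  · refine (hd.fun_mul (hf 1 1)).congr_deriv ?_
    simp [h00, h11, h01, h10]
  · refine (hd.fun_mul (hf 0 1).fun_neg).congr_deriv ?_
    simp [h00, h11, h01, h10]
  · refine (hd.fun_mul (hf 1 0).fun_neg).congr_deriv ?_
    simp [h00, h11, h01, h10]
  · refine (hd.fun_mul (hf 0 0)).congr_deriv ?_
    simp [h00, h11, h01, h10]

theorem CFlow_MD.diag {f : Fin 2 → ℝ → ℝ} {f' : Fin 2 → ℝ} (hf : ∀ b, HasDerivAt (f b) (f' b) 0) :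
    CFlow_MD (fun ψ => cx (diagonal fun b => f b ψ)) (diagonal fun b => (f' b : ℂ)) := fun b c => by
  by_cases h : b = c
  · subst h
    simpa [cx] using (hf b).ofReal_comp
  · simpa [cx, h] using hasDerivAt_const (0 : ℝ) (0 : ℂ)

/-- real version of `sg2` -/
def CFlow_sg (b : Fin 2) : ℝ := if b = 0 then 1 else -1

theorem CFlow_sg_eq (b : Fin 2) : (CFlow_sg b : ℂ) = sg2 b := by
  unfold CFlow_sg sg2
  split_ifs <;> simp

theorem CFlow_rotD (ψ : ℝ) : rotD 0 ψ = rotQ (r := 2) fun b => CFlow_sg b * ψ := by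
  unfold rotD
  congr 1
  funext b
  fin_cases b <;> simp [CFlow_sg]

/-- Plan: `j ψ = jfac (rotD 0 ψ) Z` is `1` at `ψ = 0` with entrywise derivative `-(sg2 b) M_{bc}/π`; the entries of
`(j ψ)⁻¹` have derivative `+(sg2 b) M_{bc}/π` (`Matrix.inv_def`, `det_fin_two`, `adjugate_fin_two`, or differentiate
`j⁻¹ j = 1`); then the product rule entry by entry (`hasDerivAt_pi`, `HasDerivAt.prodMk`). -/
theorem hasDerivAt_mob_rotD (Z : Jet 2) :
    HasDerivAt (fun ψ : ℝ => mob (rotD 0 ψ) Z) (flowV Z) 0 := by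
  simp only [CFlow_rotD]
  have hθ : ∀ b, HasDerivAt (fun ψ => CFlow_sg b * ψ) (CFlow_sg b) 0 := fun b => by
    simpa using (hasDerivAt_id (0 : ℝ)).const_mul (CFlow_sg b)
  have hcos : CFlow_MD (fun ψ => cx (diagonal fun b => Real.cos (CFlow_sg b * ψ))) 0 := by
    have := CFlow_MD.diag (f := fun b ψ => Real.cos (CFlow_sg b * ψ)) fun b => (hθ b).cos
    simpa using this
  have hB : CFlow_MD (fun ψ => cx (diagonal fun b => Real.pi * Real.sin (CFlow_sg b * ψ)))
      (diagonal fun b => Real.pi * sg2 b) := by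
    have := CFlow_MD.diag (f := fun b ψ => Real.pi * Real.sin (CFlow_sg b * ψ))
      fun b => (hθ b).sin.const_mul Real.pi
    simpa [CFlow_sg_eq] using this
  have hC : CFlow_MD (fun ψ => cx (diagonal fun b => -(Real.sin (CFlow_sg b * ψ) / Real.pi)))
      (diagonal fun b => -(sg2 b / Real.pi)) := by
    have := CFlow_MD.diag (f := fun b ψ => -(Real.sin (CFlow_sg b * ψ) / Real.pi))
      fun b => ((hθ b).sin.div_const Real.pi).fun_neg
    simpa [CFlow_sg_eq] using this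
  have e1 : cx (diagonal fun b : Fin 2 => Real.cos (CFlow_sg b * 0)) = 1 := by
    ext b c; fin_cases b <;> fin_cases c <;> simp [cx]
  have e2 : cx (diagonal fun b : Fin 2 => Real.pi * Real.sin (CFlow_sg b * 0)) = 0 := by
    ext b c; fin_cases b <;> fin_cases c <;> simp [cx]
  have e3 : cx (diagonal fun b : Fin 2 => -(Real.sin (CFlow_sg b * 0) / Real.pi)) = 0 := by
    ext b c; fin_cases b <;> fin_cases c <;> simp [cx]
  have hj0 : jfac (rotQ (r := 2) fun b => CFlow_sg b * 0) Z = 1 := by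
    unfold jfac rotQ
    simp only [e1, e3, Matrix.zero_mul, zero_add]
  have hj : CFlow_MD (fun ψ => jfac (rotQ (r := 2) fun b => CFlow_sg b * ψ) Z) _ :=
    (hC.mul (CFlow_MD.const (Matrix.of Z.1))).add hcos
  have hi := hj.inv hj0
  have h1 := ((hcos.mul (CFlow_MD.const (Matrix.of Z.1))).add hB).mul hi
  have h2 := (hi.transpose.mul (CFlow_MD.const (Matrix.of Z.2.1))).mul hi
  have h3 := (hi.mul hC).mul (CFlow_MD.const (Matrix.of Z.2.1))
  simp only [hj0, e1, e2, e3, inv_one, Matrix.mul_zero, Matrix.zero_mul, add_zero, zero_add,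
    Matrix.mul_one, Matrix.one_mul, Matrix.transpose_one] at h1 h2 h3
  refine HasDerivAt.prodMk ?_ (HasDerivAt.prodMk ?_ ?_)
  · refine hasDerivAt_pi.2 fun b => hasDerivAt_pi.2 fun c => ?_
    refine (h1 b c).congr_deriv ?_
    fin_cases b <;> fin_cases c <;> simp [Matrix.mul_apply, Fin.sum_univ_two] <;> ring
  · refine hasDerivAt_pi.2 fun b => hasDerivAt_pi.2 fun c => ?_
    refine (h2 b c).congr_deriv ?_
    fin_cases b <;> fin_cases c <;> simp [Matrix.mul_apply, Fin.sum_univ_two] <;> ring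
  · have h4 := (HasDerivAt.fun_sum (u := Finset.univ) fun e _ => h3 e e).const_sub Z.2.2
    refine h4.congr_deriv ?_
    simp [Matrix.mul_apply, Fin.sum_univ_two]
    ring

/-- `mob2_joint`, `jfac_isUnit` -/
theorem continuousAt_mob_rotD {r : ℕ} (ψ : ℝ) {Z : Jet (r + 2)} (hZ : Z ∈ Sieg (r + 2)) :
    ContinuousAt (fun x : ℝ × Jet (r + 2) => mob (rotD r x.1) x.2) (ψ, Z) := by
  have hθ : ∀ b : Fin (r + 2), Continuous fun x : ℝ × Jet (r + 2) =>
      if b = 0 then x.1 else if b = 1 then -x.1 else 0 := fun b => by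
    split_ifs <;> fun_prop
  refine mob2_joint (q := fun x : ℝ × Jet (r + 2) => rotD r x.1) (Z := fun x => x.2) ?_ ?_ ?_ ?_
    continuousAt_snd (jfac_isUnit (rotQ_isSymp _) hZ).ne_zero
  · exact (continuous_pi fun b => Real.continuous_cos.comp (hθ b)).matrix_diagonal
  · exact (continuous_pi fun b =>
      continuous_const.mul (Real.continuous_sin.comp (hθ b))).matrix_diagonal
  · exact (continuous_pi fun b =>
      ((Real.continuous_sin.comp (hθ b)).div_const _).neg).matrix_diagonal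
  · exact (continuous_pi fun b => Real.continuous_cos.comp (hθ b)).matrix_diagonal

/-- mean value theorem along the flow: by `rotD_mul` and `mob_mul` the derivative of
`t ↦ Φ (mob (rotD 0 t) Z)` at `t` is `G (mob (rotD 0 t) Z)`; `exists_hasDerivAt_eq_slope`; `rotD_zero`, `mob_one`. -/
theorem flow_mvt {k : ℕ} {Φ G : (Fin k → Jet 2) → ℝ}
    (hd : ∀ Z ∈ SiegK 2 k, HasDerivAt (fun ψ : ℝ => Φ fun j => mob (rotD 0 ψ) (Z j)) (G Z) 0)
    {Z : Fin k → Jet 2} (hZ : Z ∈ SiegK 2 k) {ψ : ℝ} (hψ : 0 < ψ) :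
    ∃ t ∈ Set.Ioo 0 ψ, Φ (fun j => mob (rotD 0 ψ) (Z j)) - Φ Z = ψ * G fun j => mob (rotD 0 t) (Z j) := by
  have h : ∀ t, HasDerivAt (fun s : ℝ => Φ fun j => mob (rotD 0 s) (Z j))
      (G fun j => mob (rotD 0 t) (Z j)) t := fun t => by
    have h1 := hd (fun j => mob (rotD 0 t) (Z j)) fun j => mob_mem_Sieg (rotQ_isSymp _) (hZ j)
    have h2 : HasDerivAt (fun s : ℝ => Φ fun j => mob (rotD 0 (s - t)) (mob (rotD 0 t) (Z j)))
        (G fun j => mob (rotD 0 t) (Z j)) t := by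
      rw [← sub_self t] at h1
      exact h1.comp_sub_const t t
    convert h2 using 4 with s j
    rw [← mob_mul (q := rotD 0 (s - t)) (q' := rotD 0 t) (rotQ_isSymp _) (rotQ_isSymp _) (hZ j),
      rotD_mul, sub_add_cancel]
  obtain ⟨t, ht, he⟩ := exists_hasDerivAt_eq_slope _ _ hψ
    (fun t _ => (h t).continuousAt.continuousWithinAt) fun t _ => h t
  refine ⟨t, ht, ?_⟩
  rw [he]
  simp only [rotD_zero, mob_one, sub_zero]
  field_simp

/-- uniform continuity at `t = 0` on a compact set (`IsCompact.eventually_forall_of_forall_eventually`,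
`continuousAt_mob_rotD`, `ContinuousOn G (SiegK ..)`, `mob_mem_Sieg`) -/
theorem flow_unif {k : ℕ} {G : (Fin k → Jet 2) → ℝ} (hG : ContinuousOn G (SiegK 2 k))
    {K : Set (Fin k → Jet 2)} (hK : IsCompact K) (hKS : K ⊆ SiegK 2 k) {ε : ℝ} (hε : 0 < ε) :
    ∃ ψ : ℝ, 0 < ψ ∧ ∀ t ∈ Set.Ioo 0 ψ, ∀ Z ∈ K, |G (fun j => mob (rotD 0 t) (Z j)) - G Z| ≤ ε := by
  have h1 : ∀ᶠ t in 𝓝 (0 : ℝ), ∀ Z ∈ K, Z ∈ SiegK 2 k →
      |G (fun j => mob (rotD 0 t) (Z j)) - G Z| ≤ ε := by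
    refine hK.eventually_forall_of_forall_eventually fun Z hZ => ?_
    have hS := hKS hZ
    have h2 : ContinuousAt (fun x : ℝ × (Fin k → Jet 2) => fun j => mob (rotD 0 x.1) (x.2 j))
        (0, Z) := continuousAt_pi.2 fun j =>
      (continuousAt_mob_rotD (r := 0) 0 (hS j)).comp_of_eq
        (f := fun x : ℝ × (Fin k → Jet 2) => (x.1, x.2 j)) (by fun_prop) rfl
    have h3 : ContinuousWithinAt (fun x : ℝ × (Fin k → Jet 2) =>
        G (fun j => mob (rotD 0 x.1) (x.2 j)) - G x.2) {x | x.2 ∈ SiegK 2 k} (0, Z) := by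
      refine ContinuousWithinAt.sub ?_ ?_
      · refine ContinuousWithinAt.comp (t := SiegK 2 k) (hG _ fun j => ?_) h2.continuousWithinAt
          fun x hx j => mob_mem_Sieg (rotQ_isSymp _) (hx j)
        exact mob_mem_Sieg (rotQ_isSymp _) (hS j)
      · exact ContinuousWithinAt.comp (t := SiegK 2 k) (hG _ hS) continuousAt_snd.continuousWithinAt
          fun x hx => hx
    have h4 := h3.abs.eventually (p := fun y => y ≤ ε) (by
      simp only [rotD_zero, mob_one, sub_self, abs_zero]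
      exact Iic_mem_nhds hε)
    exact eventually_nhdsWithin_iff.1 h4
  obtain ⟨δ, hδ, h2⟩ := Metric.eventually_nhds_iff.1 h1
  refine ⟨δ, hδ, fun t ht Z hZ => h2 ?_ Z hZ (hKS hZ)⟩
  rw [Real.dist_eq, sub_zero, abs_of_pos ht.1]
  exact ht.2

variable {ι : Type} {F : Filter ι} {n : ι → ℕ} {μ : ∀ i, Measure (Conf (n i))}

/-- Plan: given `ε` take `K` from `TightS` and `ψ` from `flow_unif`.  `H Z = (Φ (mob ψ Z) - Φ Z)/ψ` satisfies
`|H| ≤ C_G` on `SiegK` and `|H - G| ≤ ε` on `K` (`flow_mvt`).  With the clamp `H' = max (-C_G) (min C_G H)`: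
`EG H' - EG H → 0` (`EG_congr_Sieg`), `|EG H' - EG G| ≤ ε + 2 C_G ε` (`EG_close`), and
`EG H = (EG (Φ ∘ mob) - EG Φ)/ψ → 0` (`EG_eq_prod`, `integral_sub`). -/
theorem flow_lemma (hf : IsFam n μ) (ht : TightS F n μ) (hinv : ∀ ψ, InvQ F n μ 2 (rotD 0 ψ))
    {k : ℕ} {w : Fin k → ℂ} (hw : ∀ j, 0 < (w j).im) {Φ G : (Fin k → Jet 2) → ℝ} (hΦ : Bcl Φ)
    (hG : Bcl G)
    (hd : ∀ Z ∈ SiegK 2 k, HasDerivAt (fun ψ : ℝ => Φ fun j => mob (rotD 0 ψ) (Z j)) (G Z) 0) :
    Tendsto (fun i => EG (μ i) 2 w G) F (𝓝 0) := by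
  obtain ⟨C, hC⟩ := hG.bdd
  obtain ⟨B, hB⟩ := hΦ.bdd
  have hC0 : 0 ≤ C := (abs_nonneg _).trans (hC fun _ => 0)
  rw [Metric.tendsto_nhds]
  intro ε hε
  set η : ℝ := ε / (4 * (1 + 2 * C)) with hη
  have hη0 : 0 < η := by positivity
  obtain ⟨K, hK, hKS, hP⟩ := ht 2 k w hw η hη0
  obtain ⟨ψ, hψ, hu⟩ := flow_unif hG.cont hK hKS hη0
  have hΦ' := hΦ.comp_mob (hinv ψ).1
  set H : (Fin k → Jet 2) → ℝ := fun Z => (Φ (fun j => mob (rotD 0 ψ) (Z j)) - Φ Z) / ψ with hH
  have hHm : Measurable H := (hΦ'.meas.sub hΦ.meas).div_const _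
  have hHb : ∀ Z, |H Z| ≤ (B + B) / ψ := fun Z => by
    rw [hH]
    simp only
    rw [abs_div, abs_of_pos hψ]
    exact div_le_div_of_nonneg_right ((abs_sub _ _).trans (add_le_add (hB _) (hB _))) hψ.le
  have hHS : ∀ Z ∈ SiegK 2 k, ∃ t ∈ Set.Ioo 0 ψ, H Z = G fun j => mob (rotD 0 t) (Z j) :=
    fun Z hZ => by
      obtain ⟨t, ht, he⟩ := flow_mvt hd hZ hψ
      refine ⟨t, ht, ?_⟩
      rw [hH]
      simp only
      rw [he]
      field_simp
  set H' : (Fin k → Jet 2) → ℝ := fun Z => max (-C) (min C (H Z)) with hH'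
  have hH'm : Measurable H' := measurable_const.max (measurable_const.min hHm)
  have hH'b : ∀ Z, |H' Z| ≤ C := fun Z =>
    abs_le.2 ⟨le_max_left _ _, max_le (by linarith) (min_le_left _ _)⟩
  have hHH : ∀ Z ∈ SiegK 2 k, H' Z = H Z := fun Z hZ => by
    obtain ⟨t, -, he⟩ := hHS Z hZ
    have := abs_le.1 (he ▸ hC fun j => mob (rotD 0 t) (Z j))
    rw [hH']
    simp only
    rw [min_eq_right this.2, max_eq_right this.1]
  have t1 := EG_congr_Sieg hf ht hw hH'm hHm (C := max C ((B + B) / ψ))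
    (fun Z => (hH'b Z).trans (le_max_left _ _)) (fun Z => (hHb Z).trans (le_max_right _ _)) hHH
  have t2 : Tendsto (fun i => EG (μ i) 2 w H) F (𝓝 0) := by
    have h1 := ((hinv ψ).2 k w hw Φ hΦ).div_const ψ
    rw [zero_div] at h1
    refine h1.congr fun i => ?_
    have := (hf i).1
    have hm : Measurable fun q : Conf (n i) × (Fin 2 × Fin (n i) → ℝ) =>
        fun j => jetG q.1 q.2 (w j) :=
      measurable_pi_lambda _ fun j => (continuous_jetG (hw j)).measurable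
    rw [EG_eq_prod _ hw hΦ'.meas fun Z => hB _, EG_eq_prod _ hw hΦ.meas hB,
      EG_eq_prod _ hw hHm hHb, ← integral_sub, ← integral_div]
    · exact Integrable.of_bound (hΦ'.meas.comp hm).aestronglyMeasurable B
        (ae_of_all _ fun q => hB _)
    · exact Integrable.of_bound (hΦ.meas.comp hm).aestronglyMeasurable B
        (ae_of_all _ fun q => hB _)
  have t3 := t1.add t2
  rw [add_zero, Metric.tendsto_nhds] at t3
  filter_upwards [t3 (ε / 2) (by positivity), hP] with i h1 h2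
  have := (hf i).1
  have h3 := EG_close (μ i) hw hH'm hG.meas hH'b hC hη0.le hη0.le hK.measurableSet
    (fun Z hZ => by
      obtain ⟨t, ht, he⟩ := hHS Z (hKS Z hZ)
      rw [hHH Z (hKS Z hZ), he]
      exact hu t ht Z hZ) h2
  have h4 : η + 2 * C * η = ε / 4 := by
    rw [hη]; field_simp
  rw [Real.dist_eq, sub_zero] at h1 ⊢
  rw [sub_add_cancel] at h1
  have h5 := abs_le.1 h3
  have h6 := abs_lt.1 h1
  rw [abs_lt]
  constructor <;> linarith

end

end Crest.Agent.R166
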