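import Crest.Agent.R166.C.Det

/-! # Row 166, part C: Gaussian averages given the points -/

set_option autoImplicit false
set_option linter.unusedVariables false
set_option linter.unusedSectionVars false

open MeasureTheory ProbabilityTheory Filter Topology Matrix
open scoped ENNReal BoundedContinuousFunction ComplexConjugate

namespace Crest.Agent.R166

noncomputable section

/-- centred bilinear sum -/
def CGaussC_xi {n : ℕ} (b c : Fin 2) (a : Fin n → ℂ) (g : Fin 2 × Fin n → ℝ) : ℂ :=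
  ∑ i, ((g (b, i) * g (c, i) - if b = c then 1 else 0 : ℝ) : ℂ) * a i

theorem CGaussC_cont {n : ℕ} (b c : Fin 2) (a : Fin n → ℂ) : Continuous (CGaussC_xi b c a) := by
  unfold CGaussC_xi
  fun_prop

theorem CGaussC_jet1 {n : ℕ} (p : Conf n) (g : Fin 2 × Fin n → ℝ) (w : ℂ) (b c : Fin 2) :
    (jetG p g w).1 b c = (if b = c then sF p w else 0)
      + CGaussC_xi b c (fun i => 1 / ((p.1 i : ℂ) - w)) g := by
  simp only [jetG, jetV, sF, CGaussC_xi]
  split_ifs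
  · rw [sub_add_eq_add_sub, ← Finset.sum_add_distrib]
    congr 1
    refine Finset.sum_congr rfl fun i _ => ?_
    push_cast; ring
  · simp [div_eq_mul_inv]

theorem CGaussC_jet2 {n : ℕ} (p : Conf n) (g : Fin 2 × Fin n → ℝ) (w : ℂ) (b c : Fin 2) :
    (jetG p g w).2.1 b c = (if b = c then sD p w else 0)
      + CGaussC_xi b c (fun i => 1 / ((p.1 i : ℂ) - w) ^ 2) g := by
  simp only [jetG, jetV, sD, CGaussC_xi]
  split_ifs
  · rw [← Finset.sum_add_distrib]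
    refine Finset.sum_congr rfl fun i _ => ?_
    push_cast; ring
  · simp [div_eq_mul_inv]

/-- integrable with a given integral -/
def CGaussC_HI {n : ℕ} (f : (Fin 2 × Fin n → ℝ) → ℂ) (c : ℂ) : Prop :=
  Integrable f (gpi (Fin 2 × Fin n)) ∧ ∫ g, f g ∂(gpi (Fin 2 × Fin n)) = c

theorem CGaussC_HI.add {n : ℕ} {f f' : (Fin 2 × Fin n → ℝ) → ℂ} {c c' : ℂ} (h : CGaussC_HI f c)
    (h' : CGaussC_HI f' c') : CGaussC_HI (fun g => f g + f' g) (c + c') :=
  ⟨h.1.add h'.1, by rw [integral_add h.1 h'.1, h.2, h'.2]⟩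

theorem CGaussC_HI.mul {n : ℕ} {f : (Fin 2 × Fin n → ℝ) → ℂ} {c : ℂ} (h : CGaussC_HI f c)
    (a : ℂ) : CGaussC_HI (fun g => a * f g) (a * c) :=
  ⟨h.1.const_mul a, by rw [integral_const_mul, h.2]⟩

theorem CGaussC_HI_const {n : ℕ} (a : ℂ) : CGaussC_HI (fun _ : Fin 2 × Fin n → ℝ => a) a :=
  ⟨integrable_const a, by simp⟩

theorem CGaussC_HI_xi {n : ℕ} (b c : Fin 2) (a : Fin n → ℂ) : CGaussC_HI (CGaussC_xi b c a) 0 := by
  have h1 : Integrable (CGaussC_xi b c a) (gpi (Fin 2 × Fin n)) :=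
    (gpi_bilin_integrable b c a 1).mono' (CGaussC_cont b c a).aestronglyMeasurable
      (Eventually.of_forall fun g => by rw [pow_one]; rfl)
  refine ⟨h1, ?_⟩
  have h2 := gpi_bilin_mean b c a
  have e : ∀ g : Fin 2 × Fin n → ℝ, ∑ i, ((g (b, i) * g (c, i) : ℝ) : ℂ) * a i
      = CGaussC_xi b c a g + if b = c then ∑ i, a i else 0 := fun g => by
    unfold CGaussC_xi
    split_ifs
    · rw [← Finset.sum_add_distrib]
      refine Finset.sum_congr rfl fun i _ => ?_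
      push_cast; ring
    · simp
  simp only [e] at h2
  rw [integral_add h1 (integrable_const _)] at h2
  simpa using h2

theorem CGaussC_HI_cov {n : ℕ} (b c b' c' : Fin 2) (a a' : Fin n → ℂ) :
    CGaussC_HI (fun g => CGaussC_xi b c a g * CGaussC_xi b' c' a' g)
      (((if b = b' ∧ c = c' then 1 else 0) + (if b = c' ∧ c = b' then 1 else 0))
        * ∑ i, a i * a' i) := by
  refine ⟨((gpi_bilin_integrable b c a 2).add (gpi_bilin_integrable b' c' a' 2)).mono'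
    ((CGaussC_cont b c a).mul (CGaussC_cont b' c' a')).aestronglyMeasurable
    (Eventually.of_forall fun g => ?_), gpi_bilin_cov b c b' c' a a'⟩
  change _ ≤ ‖CGaussC_xi b c a g‖ ^ 2 + ‖CGaussC_xi b' c' a' g‖ ^ 2
  rw [norm_mul]
  nlinarith [sq_nonneg (‖CGaussC_xi b c a g‖ - ‖CGaussC_xi b' c' a' g‖),
    mul_nonneg (norm_nonneg (CGaussC_xi b c a g)) (norm_nonneg (CGaussC_xi b' c' a' g))]

/-- families with controlled second moment -/
def CGaussC_P (w₁ : ℂ) (F : ∀ n : ℕ, Conf n → (Fin 2 × Fin n → ℝ) → ℝ) : Prop :=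
  (∀ n p, Continuous (F n p) ∧ Integrable (fun g => F n p g ^ 2) (gpi (Fin 2 × Fin n))) ∧
    ∃ C : ℝ, 0 ≤ C ∧ ∀ n p, ∫ g, F n p g ^ 2 ∂(gpi (Fin 2 × Fin n)) ≤ C * (1 + ‖sF p w₁‖) ^ 4

theorem CGaussC_P.add {w₁ : ℂ} {F F' : ∀ n : ℕ, Conf n → (Fin 2 × Fin n → ℝ) → ℝ}
    (h : CGaussC_P w₁ F) (h' : CGaussC_P w₁ F') :
    CGaussC_P w₁ (fun n p g => F n p g + F' n p g) := by
  obtain ⟨h1, C, hC, h2⟩ := h
  obtain ⟨h1', C', hC', h2'⟩ := h'
  have k : ∀ n p g, (F n p g + F' n p g) ^ 2 ≤ 2 * F n p g ^ 2 + 2 * F' n p g ^ 2 :=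
    fun n p g => by nlinarith [sq_nonneg (F n p g - F' n p g)]
  have i1 : ∀ n p, Integrable (fun g => 2 * F n p g ^ 2 + 2 * F' n p g ^ 2)
      (gpi (Fin 2 × Fin n)) := fun n p => ((h1 n p).2.const_mul 2).add ((h1' n p).2.const_mul 2)
  have i2 : ∀ n p, Integrable (fun g => (F n p g + F' n p g) ^ 2) (gpi (Fin 2 × Fin n)) :=
    fun n p => (i1 n p).mono' (((h1 n p).1.add (h1' n p).1).pow 2).aestronglyMeasurable
      (Eventually.of_forall fun g => by rw [Real.norm_of_nonneg (sq_nonneg _)]; exact k n p g)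
  refine ⟨fun n p => ⟨(h1 n p).1.add (h1' n p).1, i2 n p⟩, 2 * C + 2 * C', by positivity,
    fun n p => (integral_mono (i2 n p) (i1 n p) (k n p)).trans ?_⟩
  rw [integral_add ((h1 n p).2.const_mul 2) ((h1' n p).2.const_mul 2), integral_const_mul,
    integral_const_mul]
  linarith [h2 n p, h2' n p]

theorem CGaussC_P_const (w₁ : ℂ) (a : ℝ) : CGaussC_P w₁ (fun _ _ _ => a) :=
  ⟨fun n p => ⟨continuous_const, integrable_const _⟩, a ^ 2, sq_nonneg _, fun n p => by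
    simp only [integral_const, probReal_univ, one_smul]
    exact le_mul_of_one_le_right (sq_nonneg _)
      (one_le_pow₀ (le_add_of_nonneg_right (norm_nonneg _)))⟩

theorem CGaussC_P_sum {w₁ : ℂ} {T : Type} (s : Finset T)
    {F : T → ∀ n : ℕ, Conf n → (Fin 2 × Fin n → ℝ) → ℝ} (h : ∀ t, CGaussC_P w₁ (F t)) :
    CGaussC_P w₁ (fun n p g => ∑ t ∈ s, F t n p g) := by
  classical
  induction s using Finset.induction_on with
  | empty => simpa using CGaussC_P_const w₁ 0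
  | insert t s ht ih =>
    simp only [Finset.sum_insert ht]
    exact (h t).add ih

theorem CGaussC_P_basic {w₁ : ℂ} (b c : Fin 2) (u : ∀ n : ℕ, Conf n → ℂ)
    (a : ∀ n : ℕ, Conf n → Fin n → ℂ) {K K' : ℝ} (hK : 0 ≤ K) (hK' : 0 ≤ K')
    (hu : ∀ n p, ‖u n p‖ ≤ K * ‖sF p w₁‖) (ha : ∀ n p, ∑ i, ‖a n p i‖ ^ 2 ≤ K' * ‖sF p w₁‖) :
    CGaussC_P w₁ (fun n p g => Complex.normSq (u n p + CGaussC_xi b c (a n p) g)) := by
  obtain ⟨C, hC⟩ := gpi_bilin_four_le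
  have c1 : ∀ n p, Continuous fun g => Complex.normSq (u n p + CGaussC_xi b c (a n p) g) :=
    fun n p => Complex.continuous_normSq.comp (continuous_const.add (CGaussC_cont b c _))
  have k : ∀ n p g, Complex.normSq (u n p + CGaussC_xi b c (a n p) g) ^ 2
      ≤ 8 * ‖u n p‖ ^ 4 + 8 * ‖CGaussC_xi b c (a n p) g‖ ^ 4 := fun n p g => by
    rw [Complex.normSq_eq_norm_sq, ← pow_mul]
    refine (pow_le_pow_left₀ (norm_nonneg _) (norm_add_le _ _) _).trans ?_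
    have := add_pow_le (norm_nonneg (u n p)) (norm_nonneg (CGaussC_xi b c (a n p) g)) 4
    norm_num at this ⊢
    linarith
  have i0 : ∀ n p, Integrable (fun g => 8 * ‖CGaussC_xi b c (a n p) g‖ ^ 4)
      (gpi (Fin 2 × Fin n)) := fun n p => (gpi_bilin_integrable b c (a n p) 4).const_mul 8
  have i1 : ∀ n p, Integrable (fun g => 8 * ‖u n p‖ ^ 4 + 8 * ‖CGaussC_xi b c (a n p) g‖ ^ 4)
      (gpi (Fin 2 × Fin n)) := fun n p => (integrable_const _).add (i0 n p)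
  have i2 : ∀ n p, Integrable (fun g => Complex.normSq (u n p + CGaussC_xi b c (a n p) g) ^ 2)
      (gpi (Fin 2 × Fin n)) := fun n p => (i1 n p).mono' ((c1 n p).pow 2).aestronglyMeasurable
      (Eventually.of_forall fun g => by rw [Real.norm_of_nonneg (sq_nonneg _)]; exact k n p g)
  refine ⟨fun n p => ⟨c1 n p, i2 n p⟩, 8 * K ^ 4 + 8 * (|C| * K' ^ 2), by positivity,
    fun n p => (integral_mono (i2 n p) (i1 n p) (k n p)).trans ?_⟩
  rw [integral_add (integrable_const _) (i0 n p), integral_const_mul, integral_const_mul]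
  simp only [integral_const, probReal_univ, one_smul]
  have h0 := norm_nonneg (sF p w₁)
  have h1 : ‖u n p‖ ^ 4 ≤ K ^ 4 * (1 + ‖sF p w₁‖) ^ 4 := by
    rw [← mul_pow]
    exact pow_le_pow_left₀ (norm_nonneg _) ((hu n p).trans (by nlinarith)) 4
  have h2 : (∑ i, ‖a n p i‖ ^ 2) ^ 2 ≤ K' ^ 2 * (1 + ‖sF p w₁‖) ^ 4 := by
    rw [show (4 : ℕ) = 2 * 2 from rfl, pow_mul, ← mul_pow]
    exact pow_le_pow_left₀ (by positivity) ((ha n p).trans
      (mul_le_mul_of_nonneg_left (by nlinarith) hK')) 2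
  have h3 : ∫ g, ‖CGaussC_xi b c (a n p) g‖ ^ 4 ∂(gpi (Fin 2 × Fin n))
      ≤ |C| * (K' ^ 2 * (1 + ‖sF p w₁‖) ^ 4) :=
    (hC b c (a n p)).trans (mul_le_mul (le_abs_self C) h2 (sq_nonneg _) (abs_nonneg C))
  linarith

theorem CGaussC_P_nJ {k : ℕ} {W : Fin k → ℂ} (hW : ∀ j, 0 < (W j).im) {w₁ : ℂ}
    (hw₁ : 0 < w₁.im) : CGaussC_P w₁ (fun n p g => 1 + nJ fun j => jetG p g (W j)) := by
  refine (CGaussC_P_const w₁ 1).add ?_
  unfold nJ
  refine CGaussC_P_sum _ fun j => CGaussC_P_sum _ fun b => CGaussC_P_sum _ fun c => ?_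
  obtain ⟨K, hK, h⟩ := sF_bound hw₁ (hW j)
  simp only [CGaussC_jet1, CGaussC_jet2]
  have hj := hW j
  refine (CGaussC_P_basic b c _ _ hK hK (fun n p => ?_) fun n p => ?_).add
    (CGaussC_P_basic b c _ _ hK (K' := K / (W j).im ^ 2) (by positivity) (fun n p => ?_)
      fun n p => ?_)
  · split_ifs
    · exact (h n p).1
    · rw [norm_zero]; positivity
  · refine le_trans (le_of_eq ?_) (h n p).2
    simp [sN]
  · split_ifs
    · exact (norm_sD_le p _).trans (h n p).2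
    · rw [norm_zero]; positivity
  · rw [div_mul_eq_mul_div]
    refine le_trans ?_ (div_le_div_of_nonneg_right (h n p).2 (sq_nonneg _))
    rw [sN, Finset.sum_div]
    refine Finset.sum_le_sum fun i _ => ?_
    have h1 := im_le_norm_sub (p.1 i) (W j)
    have h2 : 0 < ‖(p.1 i : ℂ) - W j‖ := hj.trans_le h1
    rw [norm_div, norm_one, norm_pow, div_pow, one_pow, div_div, sq (‖(p.1 i : ℂ) - W j‖ ^ 2)]
    gcongr

/-- Plan: with `ξ_{bc}(a) = Σ (g g - δ) a`, `a₀ i = 1/(x_i - w₀)`: `M_{bc}(w₀) = δ s + ξ_{bc}(a₀)`,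
`π (flowV Z).1 0 0 = π² + M₀₀² - M₀₁ M₁₀`, so by `gpi_bilin_cov` and `gpi_bilin_mean` (mean of `ξ` is `0`) the mean is
`π² + s² + 2 s' - s'`.  For the second term `π (flowV (Z j)).2.2 = Σ_i (g(0,i)² - g(1,i)²)/(x_i - w j)²`, so with the
real-linear `L = fderiv ℝ φ (sV p w)` one gets `π L(..) = Σ_i (g(0,i)² - g(1,i)²) L (eV w x_i) = ξ₀₀(a') - ξ₁₁(a')`,
`a' i = L (eV w x_i)`, and `E[M₀₀ (ξ₀₀(a') - ξ₁₁(a'))] = 2 Σ a₀ a'`.  Integrability of products:
`gpi_bilin_integrable` with `q = 1, 2` and `‖a b‖ ≤ ‖a‖² + ‖b‖²`. -/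
theorem integral_obs0' {n k : ℕ} (p : Conf n) {w₀ : ℂ} {w : Fin k → ℂ} (hw₀ : 0 < w₀.im)
    (hw : ∀ j, 0 < (w j).im) (φ : (Fin k → ℂ) → ℂ) :
    ∫ g, obs0' φ (fun j => jetG p g ((Fin.cons w₀ w : Fin (k + 1) → ℂ) j)) ∂(gpi (Fin 2 × Fin n))
      = leI p w₀ w φ / Real.pi := by
  set s := sF p w₀ with hs
  set f := φ (sV p w) with hf
  set a : Fin n → ℂ := fun i => 1 / ((p.1 i : ℂ) - w₀) with ha
  set a' : Fin n → ℂ := fun i => fderiv ℝ φ (sV p w) (eV w (p.1 i)) with ha'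
  have hπ : (Real.pi : ℂ) ≠ 0 := Complex.ofReal_ne_zero.2 Real.pi_ne_zero
  have e : ∀ g : Fin 2 × Fin n → ℝ,
      obs0' φ (fun j => jetG p g ((Fin.cons w₀ w : Fin (k + 1) → ℂ) j))
      = (Real.pi + s ^ 2 / Real.pi) * f + (2 * s * f / Real.pi) * CGaussC_xi 0 0 a g
        + (f / Real.pi) * (CGaussC_xi 0 0 a g * CGaussC_xi 0 0 a g)
        + (-f / Real.pi) * (CGaussC_xi 0 1 a g * CGaussC_xi 1 0 a g)
        + (s / Real.pi) * CGaussC_xi 0 0 a' g + (-s / Real.pi) * CGaussC_xi 1 1 a' g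
        + (1 / Real.pi) * (CGaussC_xi 0 0 a g * CGaussC_xi 0 0 a' g)
        + (-1 / Real.pi) * (CGaussC_xi 0 0 a g * CGaussC_xi 1 1 a' g) := fun g => by
    have e1 : svJ (fun j => jetG p g ((Fin.cons w₀ w : Fin (k + 1) → ℂ) j)) = sV p w := rfl
    have e2 : (fun j => (flowV (jetG p g (w j))).2.2)
        = ∑ i, ((g (0, i) * g (0, i) - g (1, i) * g (1, i)) / Real.pi) • eV w (p.1 i) := by
      funext j
      simp only [flowV, jetG, jetV, Fin.sum_univ_two, sg2, Finset.sum_apply, Pi.smul_apply, eV,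
        Complex.real_smul, if_true, one_ne_zero, if_false, one_mul, neg_mul]
      rw [← sub_eq_add_neg, ← Finset.sum_sub_distrib, Finset.sum_div]
      refine Finset.sum_congr rfl fun i _ => ?_
      push_cast; ring
    have e3 : fderiv ℝ φ (sV p w) (fun j => (flowV (jetG p g (w j))).2.2)
        = (CGaussC_xi 0 0 a' g - CGaussC_xi 1 1 a' g) / Real.pi := by
      rw [e2, map_sum, CGaussC_xi, CGaussC_xi, ← Finset.sum_sub_distrib, Finset.sum_div]
      refine Finset.sum_congr rfl fun i _ => ?_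
      rw [map_smul, Complex.real_smul]
      simp only [if_true, ha']
      push_cast; ring
    simp only [obs0', e1, Fin.cons_zero, Fin.cons_succ, e3]
    simp only [flowV, Fin.sum_univ_two, sg2, CGaussC_jet1, if_true, one_ne_zero, zero_ne_one,
      if_false, ← hs, ← hf, ← ha]
    ring
  simp only [e]
  rw [((((((((CGaussC_HI_const _).add ((CGaussC_HI_xi 0 0 a).mul _)).add
    ((CGaussC_HI_cov 0 0 0 0 a a).mul _)).add ((CGaussC_HI_cov 0 1 1 0 a a).mul _)).add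
    ((CGaussC_HI_xi 0 0 a').mul _)).add ((CGaussC_HI_xi 1 1 a').mul _)).add
    ((CGaussC_HI_cov 0 0 0 0 a a').mul _)).add ((CGaussC_HI_cov 0 0 1 1 a a').mul _)).2]
  have e4 : ∑ i, a i * a i = sD p w₀ := Finset.sum_congr rfl fun i _ => by
    simp only [ha]; rw [div_mul_div_comm, one_mul, sq]
  have e5 : ∑ i, a i * a' i
      = ∑ i, fderiv ℝ φ (sV p w) (eV w (p.1 i)) / ((p.1 i : ℂ) - w₀) :=
    Finset.sum_congr rfl fun i _ => by simp only [ha, ha']; ring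
  rw [e4, e5, leI]
  simp only [and_self, if_true, zero_ne_one, one_ne_zero, if_false, ← hs, ← hf]
  field_simp
  ring

theorem integrable_nJ_sq {n k : ℕ} (p : Conf n) {W : Fin k → ℂ} (hW : ∀ j, 0 < (W j).im) :
    Integrable (fun g => (1 + nJ fun j => jetG p g (W j)) ^ 2) (gpi (Fin 2 × Fin n)) := by
  exact ((CGaussC_P_nJ hW (w₁ := Complex.I) (by simp)).1 n p).2

/-- Plan: `(1 + Σ_{t ∈ T} a_t)² ≤ (|T| + 1)(1 + Σ a_t²)`; `|δ s + ξ|⁴ ≤ 8|s|⁴ + 8|ξ|⁴`; `gpi_bilin_four_le`;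
`Σ‖1/(x-w)‖² = sN`, `Σ‖1/(x-w)²‖² ≤ sN/(Im w)²`, `‖sD‖ ≤ sN`; `sF_bound`. -/
theorem integral_nJ_sq_le {k : ℕ} {W : Fin k → ℂ} (hW : ∀ j, 0 < (W j).im) {w₁ : ℂ}
    (hw₁ : 0 < w₁.im) : ∃ C : ℝ, 0 ≤ C ∧ ∀ (n : ℕ) (p : Conf n),
      ∫ g, (1 + nJ fun j => jetG p g (W j)) ^ 2 ∂(gpi (Fin 2 × Fin n)) ≤
        C * (1 + ‖sF p w₁‖) ^ 4 := by
  exact (CGaussC_P_nJ hW hw₁).2

end

end Crest.Agent.R166
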