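import Crest.Agent.R166.C.Inv0

/-! # Row 166, part C: the invariance group -/

set_option autoImplicit false
set_option linter.unusedVariables false
set_option linter.unusedSectionVars false

open MeasureTheory ProbabilityTheory Filter Topology Matrix
open scoped ENNReal BoundedContinuousFunction ComplexConjugate

namespace Crest.Agent.R166

noncomputable section

variable {ι : Type} {F : Filter ι} {n : ι → ℕ} {μ : ∀ i, Measure (Conf (n i))}

/-- Plan: `K` from `TightS`, `exists_testFn` for `K ∪ (mob q) '' K`, `EG_close` twice. -/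
theorem inv_of_testFn (hf : IsFam n μ) (ht : TightS F n μ) {r : ℕ} {q : Quad r} (hq : q.IsSymp)
    (h : ∀ (k : ℕ) (w : Fin k → ℂ), (∀ j, 0 < (w j).im) → ∀ φ : (Fin k → Jet r) → ℝ, TestFn φ →
      Tendsto (fun i => EG (μ i) r w (fun Z => φ fun j => mob q (Z j)) - EG (μ i) r w φ) F (𝓝 0)) :
    InvQ F n μ r q := by
  refine ⟨hq, fun k w hw φ hφ => ?_⟩
  obtain ⟨C, hC⟩ := hφ.bdd
  have hC0 : 0 ≤ C := (abs_nonneg _).trans (hC 0)
  rw [Metric.tendsto_nhds]
  intro ε hε
  obtain ⟨K, hK, hKS, hP⟩ := ht r k w hw (ε / (8 * (C + 1))) (by positivity)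
  let m : (Fin k → Jet r) → (Fin k → Jet r) := fun Z j => mob q (Z j)
  have hm : Measurable m :=
    measurable_pi_lambda _ fun j => (measurable_mob q).comp (measurable_pi_apply j)
  have hmc : ContinuousOn m K := continuousOn_pi.2 fun j =>
    (continuousOn_mob hq).comp (continuous_apply j).continuousOn fun Z hZ => hKS Z hZ j
  obtain ⟨ψ, hψ, hψC, hψK⟩ := exists_testFn hφ.cont hC (hK.union (hK.image_of_continuousOn hmc)) (by
    rintro Z (hZ | ⟨W, hW, rfl⟩) j
    · exact hKS Z hZ j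
    · exact mob_mem_Sieg hq (hKS W hW j))
  filter_upwards [hP, Metric.tendsto_nhds.1 (h k w hw ψ hψ) (ε / 2) (half_pos hε)] with i h1 h2
  have := (hf i).1
  have a1 := EG_close (μ i) hw hψ.1.measurable hφ.meas hψC hC le_rfl (by positivity)
    hK.measurableSet (fun Z hZ => by rw [hψK Z (Or.inl hZ), sub_self, abs_zero]) h1
  have a2 := EG_close (μ i) hw (φ := fun Z => φ (m Z)) (ψ := fun Z => ψ (m Z)) (hφ.meas.comp hm)
    (hψ.1.measurable.comp hm) (fun Z => hC _) (fun Z => hψC _) le_rfl (by positivity)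
    hK.measurableSet
    (fun Z hZ => by rw [hψK _ (Or.inr ⟨Z, hZ, rfl⟩), sub_self, abs_zero]) h1
  have a3 : 2 * C * (ε / (8 * (C + 1))) ≤ ε / 4 := by
    rw [← mul_div_assoc, div_le_div_iff₀ (by positivity) (by positivity)]
    nlinarith
  rw [Real.dist_eq, sub_zero, abs_lt] at h2 ⊢
  rw [abs_le] at a1 a2
  constructor <;> linarith [a1.1, a1.2, a2.1, a2.2, h2.1, h2.2]

/-- `mob_mul` on `SiegK`, `EG_congr_Sieg`, `Bcl.comp_mob` -/
theorem InvQ.mul (hf : IsFam n μ) (ht : TightS F n μ) {r : ℕ} {q q' : Quad r} (h : InvQ F n μ r q)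
    (h' : InvQ F n μ r q') : InvQ F n μ r (q.mul q') := by
  refine ⟨h.1.mul h'.1, fun k w hw φ hφ => ?_⟩
  obtain ⟨C, hC⟩ := hφ.bdd
  have h1 := EG_congr_Sieg hf ht hw (hφ.comp_mob (h.1.mul h'.1)).meas
    ((hφ.comp_mob h.1).comp_mob h'.1).meas (fun Z => hC _) (fun Z => hC _) fun Z hZ =>
      congrArg φ (funext fun j => mob_mul h.1 h'.1 (hZ j))
  have h2 := (h1.add (h'.2 k w hw _ (hφ.comp_mob h.1))).add (h.2 k w hw φ hφ)
  simpa using h2

/-- `EG_orth` -/
theorem inv_orth {r : ℕ} {O : Matrix (Fin r) (Fin r) ℝ} (h : O * Oᵀ = 1) :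
    InvQ F n μ r (orthQ O) := by
  refine ⟨orthQ_isSymp h, fun k w hw φ hφ => ?_⟩
  simp only [EG_orth _ h w hw hφ.meas, sub_self]
  exact tendsto_const_nhds

end

end Crest.Agent.R166
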