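import Crest.Agent.R166.C.Det

/-! # Row 166, part C: the invariance group -/

set_option autoImplicit false
set_option linter.unusedVariables false
set_option linter.unusedSectionVars false

open MeasureTheory ProbabilityTheory Filter Topology Matrix
open scoped ENNReal BoundedContinuousFunction ComplexConjugate

namespace Crest.Agent.R166

noncomputable section

variable {ι : Type} {F : Filter ι} {n : ι → ℕ} {μ : ∀ i, Measure (Conf (n i))}

theorem CInv0_meas {N r k : ℕ} {w : Fin k → ℂ} (hw : ∀ j, 0 < (w j).im) :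
    Measurable fun q : Conf N × (Fin r × Fin N → ℝ) => fun j => jetG q.1 q.2 (w j) :=
  measurable_pi_lambda _ fun j => (continuous_jetG (hw j)).measurable

theorem CInv0_int {N r k : ℕ} (ν : Measure (Conf N)) [IsProbabilityMeasure ν] {w : Fin k → ℂ}
    (hw : ∀ j, 0 < (w j).im) {φ : (Fin k → Jet r) → ℝ} (hm : Measurable φ) {C : ℝ}
    (hC : ∀ Z, |φ Z| ≤ C) :
    Integrable (fun q : Conf N × (Fin r × Fin N → ℝ) => φ (fun j => jetG q.1 q.2 (w j)))
      (ν.prod (gpi (Fin r × Fin N))) :=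
  Integrable.of_bound (hm.comp (CInv0_meas hw)).aestronglyMeasurable C
    (Eventually.of_forall fun q => hC _)

/-- Fubini (`integral_prod`, `continuous_jetG`) -/
theorem EG_eq_prod {N r k : ℕ} (ν : Measure (Conf N)) [IsProbabilityMeasure ν] {w : Fin k → ℂ}
    (hw : ∀ j, 0 < (w j).im) {φ : (Fin k → Jet r) → ℝ} (hm : Measurable φ) {C : ℝ}
    (hC : ∀ Z, |φ Z| ≤ C) :
    EG ν r w φ = ∫ q, φ (fun j => jetG q.1 q.2 (w j)) ∂(ν.prod (gpi (Fin r × Fin N))) := by
  rw [integral_prod _ (CInv0_int ν hw hm hC)]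
  rfl

/-- two bounded functions that are `δ`-close on a set carrying all but `ε` of the mass.
Plan: `EG_eq_prod`, `|φ - ψ| ≤ δ + 2 C · indicator` of the (measurable) bad set. -/
theorem EG_close {N r k : ℕ} (ν : Measure (Conf N)) [IsProbabilityMeasure ν] {w : Fin k → ℂ}
    (hw : ∀ j, 0 < (w j).im) {φ ψ : (Fin k → Jet r) → ℝ} (hφ : Measurable φ) (hψ : Measurable ψ)
    {C δ ε : ℝ} (hCφ : ∀ Z, |φ Z| ≤ C) (hCψ : ∀ Z, |ψ Z| ≤ C) (hδ : 0 ≤ δ) (hε : 0 ≤ ε)
    {K : Set (Fin k → Jet r)} (hK : MeasurableSet K) (hcl : ∀ Z ∈ K, |φ Z - ψ Z| ≤ δ)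
    (hP : (ν.prod (gpi (Fin r × Fin N))) {q | (fun j => jetG q.1 q.2 (w j)) ∉ K} ≤
      ENNReal.ofReal ε) : |EG ν r w φ - EG ν r w ψ| ≤ δ + 2 * C * ε := by
  have hC : 0 ≤ C := (abs_nonneg _).trans (hCφ 0)
  set S : Set (Conf N × (Fin r × Fin N → ℝ)) := {q | (fun j => jetG q.1 q.2 (w j)) ∉ K} with hS
  have hSm : MeasurableSet S := CInv0_meas hw hK.compl
  rw [EG_eq_prod ν hw hφ hCφ, EG_eq_prod ν hw hψ hCψ,
    ← integral_sub (CInv0_int ν hw hφ hCφ) (CInv0_int ν hw hψ hCψ)]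
  have hi : Integrable (S.indicator fun _ => 2 * C) (ν.prod (gpi (Fin r × Fin N))) :=
    (integrable_const _).indicator hSm
  rw [← Real.norm_eq_abs]
  refine (norm_integral_le_of_norm_le ((integrable_const δ).add hi)
    (Eventually.of_forall fun q => ?_)).trans ?_
  · rw [Real.norm_eq_abs, Pi.add_apply]
    by_cases hq : q ∈ S
    · rw [Set.indicator_of_mem hq]
      have := abs_sub (φ fun j => jetG q.1 q.2 (w j)) (ψ fun j => jetG q.1 q.2 (w j))
      linarith [hCφ fun j => jetG q.1 q.2 (w j), hCψ fun j => jetG q.1 q.2 (w j)]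
    · rw [Set.indicator_of_notMem hq, add_zero]
      exact hcl _ (not_not.1 hq)
  · simp only [Pi.add_apply]
    rw [integral_add (integrable_const δ) hi, integral_indicator_const _ hSm]
    have : (ν.prod (gpi (Fin r × Fin N))).real S ≤ ε := ENNReal.toReal_le_of_le_ofReal hε hP
    simp only [integral_const, probReal_univ, smul_eq_mul, one_mul]
    nlinarith

theorem EG_congr_Sieg (hf : IsFam n μ) (ht : TightS F n μ) {r k : ℕ} {w : Fin k → ℂ}
    (hw : ∀ j, 0 < (w j).im) {φ ψ : (Fin k → Jet r) → ℝ} (hφ : Measurable φ) (hψ : Measurable ψ)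
    {C : ℝ} (hCφ : ∀ Z, |φ Z| ≤ C) (hCψ : ∀ Z, |ψ Z| ≤ C) (h : ∀ Z ∈ SiegK r k, φ Z = ψ Z) :
    Tendsto (fun i => EG (μ i) r w φ - EG (μ i) r w ψ) F (𝓝 0) := by
  have hC : 0 ≤ C := (abs_nonneg _).trans (hCφ 0)
  rw [Metric.tendsto_nhds]
  intro ε hε
  obtain ⟨K, hK, hKS, hP⟩ := ht r k w hw (ε / (2 * C + 1)) (by positivity)
  filter_upwards [hP] with i hi
  have := (hf i).1
  have := EG_close (μ i) hw hφ hψ hCφ hCψ le_rfl (by positivity) hK.measurableSet
    (fun Z hZ => by rw [h Z (hKS Z hZ), sub_self, abs_zero]) hi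
  rw [Real.dist_eq, sub_zero]
  refine this.trans_lt ?_
  rw [zero_add, ← mul_div_assoc, div_lt_iff₀ (by positivity)]
  nlinarith

/-- `measurable_mob`, `continuousOn_mob`, `mob_mem_Sieg` -/
theorem Bcl.comp_mob {r k : ℕ} {φ : (Fin k → Jet r) → ℝ} (hφ : Bcl φ) {q : Quad r} (hq : q.IsSymp) :
    Bcl fun Z : Fin k → Jet r => φ fun j => mob q (Z j) := by
  obtain ⟨C, hC⟩ := hφ.bdd
  refine ⟨hφ.meas.comp (measurable_pi_lambda _ fun j =>
    (measurable_mob q).comp (measurable_pi_apply j)), ⟨C, fun Z => hC _⟩, ?_⟩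
  refine hφ.cont.comp (f := fun (Z : Fin k → Jet r) j => mob q (Z j))
    (continuousOn_pi.2 fun j => ?_) fun Z hZ j => mob_mem_Sieg hq (hZ j)
  exact (continuousOn_mob hq).comp (continuous_apply j).continuousOn fun Z hZ => hZ j

/-- Plan: `cSieg r \ Sieg r` is closed (positive semidefinite and `det = 0`), so
`U = {Z | ¬ ((∀ j, Z j ∈ cSieg r) ∧ ∃ j, Z j ∉ Sieg r)}` is open and contains `K`;
`exists_continuousMap_one_of_isCompact_subset_isOpen` gives a cut-off `χ`; extend `φ|K` by Tietze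
(`BoundedContinuousFunction.exists_norm_eq_restrict_eq` / `ContinuousMap.exists_restrict_eq`, then clamp
to `[-C, C]`); the compact set of `TestFn` is `tsupport χ ∩ cSieg ^ k`.  See also `Mob2.lean`. -/
theorem exists_testFn {r k : ℕ} {φ : (Fin k → Jet r) → ℝ} (hφ : ContinuousOn φ (SiegK r k)) {C : ℝ}
    (hC : ∀ Z, |φ Z| ≤ C) {K : Set (Fin k → Jet r)} (hK : IsCompact K) (hKS : K ⊆ SiegK r k) :
    ∃ ψ : (Fin k → Jet r) → ℝ, TestFn ψ ∧ (∀ Z, |ψ Z| ≤ C) ∧ ∀ Z ∈ K, ψ Z = φ Z := by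
  have hC0 : 0 ≤ C := (abs_nonneg _).trans (hC 0)
  have hc : IsClosed {Z : Fin k → Jet r | ∀ j, Z j ∈ cSieg r} := by
    rw [Set.ofPred_forall]
    exact isClosed_iInter fun j => (isClosed_cSieg r).preimage (continuous_apply j)
  have hd : IsClosed {Z : Fin k → Jet r | ∃ j, (imM (Z j).1).det = 0} := by
    rw [Set.ofPred_exists]
    refine isClosed_iUnion_of_finite fun j => isClosed_eq (Continuous.matrix_det ?_) continuous_const
    refine continuous_matrix fun a b => ?_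
    simp only [imM, of_apply]
    fun_prop
  obtain ⟨χ, χ1, χc, χs, χb⟩ := exists_continuousMap_one_of_isCompact_subset_isOpen hK
    (hc.inter hd).isOpen_compl (by
      rintro Z hZ ⟨-, j, hj⟩
      exact (hKS hZ j).2.2.det_pos.ne' hj)
  obtain ⟨g, hgb, hg⟩ := ContinuousMap.exists_restrict_eq_forall_mem_of_closed
    (s := K) ⟨_, (hφ.mono hKS).domRestrict⟩ (t := Set.Icc (-C) C) (fun Z => abs_le.1 (hC Z))
    ⟨0, by constructor <;> linarith⟩ hK.isClosed
  refine ⟨fun Z => χ Z * g Z, ⟨χ.continuous.mul g.continuous, HasCompactSupport.mul_right χc,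
    tsupport χ ∩ {Z | ∀ j, Z j ∈ cSieg r}, χc.inter_right hc, fun Z hZ j => ?_,
    fun Z hZ hn => ?_⟩, fun Z => ?_, fun Z hZ => ?_⟩
  · refine ⟨(hZ.2 j).1, (hZ.2 j).2.1, (hZ.2 j).2.2.posDef_iff_det_ne_zero.2 fun h => ?_⟩
    exact χs hZ.1 ⟨hZ.2, j, h⟩
  · show χ Z * g Z = 0
    rw [image_eq_zero_of_notMem_tsupport fun h => hn ⟨h, hZ⟩, zero_mul]
  · show |χ Z * g Z| ≤ C
    rw [abs_mul, abs_of_nonneg (χb Z).1]
    exact (mul_le_of_le_one_left (abs_nonneg _) (χb Z).2).trans (abs_le.2 (hgb Z))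
  · show χ Z * g Z = φ Z
    rw [χ1 hZ, Pi.one_apply, one_mul]
    exact DFunLike.congr_fun hg ⟨Z, hZ⟩

end

end Crest.Agent.R166
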