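import Crest.Agent.R166.C.Obs
import Crest.Agent.R166.C.GaussC

/-! # Row 166, part C: loop equations -/

set_option autoImplicit false
set_option linter.unusedVariables false
set_option linter.unusedSectionVars false

open MeasureTheory ProbabilityTheory Filter Topology Matrix
open scoped ENNReal BoundedContinuousFunction ComplexConjugate

namespace Crest.Agent.R166

noncomputable section

variable {ι : Type} {F : Filter ι} {n : ι → ℕ} {μ : ∀ i, Measure (Conf (n i))}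

theorem CLoopEq_sv {N k : ℕ} (p : Conf N) (g : Fin 2 × Fin N → ℝ) (w₀ : ℂ) (w : Fin k → ℂ) :
    svJ (fun j => jetG p g ((Fin.cons w₀ w : Fin (k + 1) → ℂ) j)) = sV p w := rfl

/-- the conditional mean of `obs'` is close to the loop equation integrand -/
theorem CLoopEq_slice {k : ℕ} {w₀ : ℂ} {w : Fin (k + 1) → ℂ} (hw₀ : 0 < w₀.im)
    (hw : ∀ j, 0 < (w j).im) {φ : (Fin (k + 1) → ℂ) → ℂ} (hφ : Dec φ) : ∃ C : ℝ, 0 ≤ C ∧
    ∀ Λ : ℝ, 1 ≤ Λ → ∀ (N : ℕ) (p : Conf N),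
      ‖∫ g, obs' φ Λ (fun j => jetG p g ((Fin.cons w₀ w : Fin (k + 1 + 1) → ℂ) j))
        ∂(gpi (Fin 2 × Fin N)) - leI p w₀ w φ / Real.pi‖ ≤ C / Λ := by
  have hW : ∀ j, 0 < ((Fin.cons w₀ w : Fin (k + 1 + 1) → ℂ) j).im := fun j =>
    Fin.cases hw₀ hw j
  obtain ⟨C₁, hC₁, h₁⟩ := norm_obs'_sub_le (k + 1)
  obtain ⟨C₂, hC₂, h₂⟩ := integral_nJ_sq_le hW (hw 0)
  obtain ⟨C₃, h₃⟩ := hφ.2
  obtain ⟨C₄, hC₄, h₄⟩ := norm_obs0'_le (k + 1)
  have hC₃ : 0 ≤ C₃ := le_trans (by positivity) (h₃ 0)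
  refine ⟨C₁ * C₂ * C₃, by positivity, fun Λ hΛ N p => ?_⟩
  have hΛ0 : 0 < Λ := lt_of_lt_of_le one_pos hΛ
  obtain ⟨C₅, h₅⟩ := obs_bdd hφ hΛ
  set J : (Fin 2 × Fin N → ℝ) → Fin (k + 1 + 1) → Jet 2 :=
    fun g j => jetG p g ((Fin.cons w₀ w : Fin (k + 1 + 1) → ℂ) j) with hJ
  have hJc : Continuous J := continuous_pi fun j =>
    (continuous_jetG (hW j)).comp (Continuous.prodMk_right p)
  set D : ℝ := ‖φ (sV p w)‖ + ‖fderiv ℝ φ (sV p w)‖ with hD
  have hD0 : 0 ≤ D := by positivity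
  have hN := integrable_nJ_sq p hW
  have i1 : Integrable (fun g => obs' φ Λ (J g)) (gpi (Fin 2 × Fin N)) :=
    Integrable.of_bound ((continuous_obs' hφ.1 hΛ0).comp hJc).aestronglyMeasurable C₅
      (Eventually.of_forall fun g => (h₅ _).2)
  have i0 : Integrable (fun g => obs0' φ (J g)) (gpi (Fin 2 × Fin N)) := by
    refine Integrable.mono' ((hN.const_mul C₄).mul_const D)
      ((continuous_obs0' hφ.1).comp hJc).aestronglyMeasurable (Eventually.of_forall fun g => ?_)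
    refine (h₄ φ (J g)).trans ?_
    have h0 := nJ_nonneg (J g)
    have : 1 + nJ (J g) ≤ (1 + nJ (J g)) ^ 2 := by nlinarith
    exact mul_le_mul_of_nonneg_right (mul_le_mul_of_nonneg_left this hC₄) hD0
  rw [← integral_obs0' p hw₀ hw φ, ← integral_sub i1 i0]
  calc _ ≤ ∫ g, C₁ / Λ * (1 + nJ (J g)) ^ 2 * D ∂(gpi (Fin 2 × Fin N)) :=
        norm_integral_le_of_norm_le ((hN.const_mul _).mul_const D)
          (Eventually.of_forall fun g => h₁ φ Λ hΛ0 (J g))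
    _ = C₁ / Λ * (∫ g, (1 + nJ (J g)) ^ 2 ∂(gpi (Fin 2 × Fin N))) * D := by
        rw [integral_mul_const, integral_const_mul]
    _ ≤ C₁ / Λ * (C₂ * (1 + ‖sV p w‖) ^ 4) * D := by
        have a1 : ‖sF p (w 0)‖ ≤ ‖sV p w‖ := norm_le_pi_norm (sV p w) 0
        have a2 : C₂ * (1 + ‖sF p (w 0)‖) ^ 4 ≤ C₂ * (1 + ‖sV p w‖) ^ 4 := by gcongr
        have a3 := (h₂ N p).trans a2
        gcongr
    _ = C₁ * C₂ * (D * (1 + ‖sV p w‖) ^ 4) / Λ := by ring
    _ ≤ _ := by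
        have := h₃ (sV p w)
        gcongr

theorem CLoopEq_lin (hf : IsFam n μ) (ht : TightS F n μ) (hinv : ∀ ψ, InvQ F n μ 2 (rotD 0 ψ))
    {k : ℕ} {w₀ : ℂ} {w : Fin (k + 1) → ℂ} (hw₀ : 0 < w₀.im) (hw : ∀ j, 0 < (w j).im)
    {φ : (Fin (k + 1) → ℂ) → ℂ} (hφ : Dec φ) (L : ℂ →L[ℝ] ℝ) (hL : ‖L‖ ≤ 1) :
    Tendsto (fun i => ∫ p, L (leI p w₀ w φ) ∂(μ i)) F (𝓝 0) := by
  have hW : ∀ j, 0 < ((Fin.cons w₀ w : Fin (k + 1 + 1) → ℂ) j).im := fun j =>
    Fin.cases hw₀ hw j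
  have hLz : ∀ z, |L z| ≤ ‖z‖ := fun z =>
    (L.le_opNorm z).trans (mul_le_of_le_one_left (norm_nonneg _) hL)
  obtain ⟨C, hC0, hC⟩ := CLoopEq_slice hw₀ hw hφ
  obtain ⟨C', hC'⟩ := leI_bdd hw₀ hw hφ
  rw [Metric.tendsto_nhds]
  intro ε hε
  set Λ : ℝ := 1 + 2 * Real.pi * C / ε with hΛdef
  have hΛ : 1 ≤ Λ := by
    have : 0 ≤ 2 * Real.pi * C / ε := by positivity
    linarith
  have hΛ0 : 0 < Λ := lt_of_lt_of_le one_pos hΛ
  obtain ⟨C₅, h₅⟩ := obs_bdd hφ hΛ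
  have c1 : Continuous fun Z => L (obs φ Λ Z) := L.continuous.comp (continuous_obs hφ.1 hΛ0)
  have c2 : Continuous fun Z => L (obs' φ Λ Z) := L.continuous.comp (continuous_obs' hφ.1 hΛ0)
  have hflow := flow_lemma hf ht hinv hW (Φ := fun Z => L (obs φ Λ Z))
    (G := fun Z => L (obs' φ Λ Z))
    ⟨c1.measurable, ⟨C₅, fun Z => (hLz _).trans (h₅ Z).1⟩, c1.continuousOn⟩
    ⟨c2.measurable, ⟨C₅, fun Z => (hLz _).trans (h₅ Z).2⟩, c2.continuousOn⟩
    fun Z _ => L.hasFDerivAt.comp_hasDerivAt 0 (hasDerivAt_obs hφ.1 hΛ0 Z)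
  have hpi := Real.pi_pos
  filter_upwards [Metric.tendsto_nhds.1 hflow (ε / (2 * Real.pi)) (by positivity)] with i hi
  have := (hf i).1
  rw [Real.dist_eq, sub_zero] at hi ⊢
  have hJc : Continuous fun q : Conf (n i) × (Fin 2 × Fin (n i) → ℝ) =>
      fun j => jetG q.1 q.2 ((Fin.cons w₀ w : Fin (k + 1 + 1) → ℂ) j) :=
    continuous_pi fun j => continuous_jetG (hW j)
  have hI : Integrable (fun q : Conf (n i) × (Fin 2 × Fin (n i) → ℝ) =>
      L (obs' φ Λ fun j => jetG q.1 q.2 ((Fin.cons w₀ w : Fin (k + 1 + 1) → ℂ) j)))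
      ((μ i).prod (gpi (Fin 2 × Fin (n i)))) :=
    Integrable.of_bound (c2.comp hJc).aestronglyMeasurable C₅
      (Eventually.of_forall fun q => (hLz _).trans (h₅ _).2)
  have i1 := hI.integral_prod_left
  have i2 : Integrable (fun p => L (leI p w₀ w φ) / Real.pi) (μ i) :=
    (Integrable.of_bound (L.continuous.comp (continuous_leI hw₀ hw hφ.1)).aestronglyMeasurable C'
      (Eventually.of_forall fun p => (hLz _).trans (hC' _ p))).div_const _
  have hd : |EG (μ i) 2 (Fin.cons w₀ w : Fin (k + 1 + 1) → ℂ) (fun Z => L (obs' φ Λ Z))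
      - (∫ p, L (leI p w₀ w φ) ∂(μ i)) / Real.pi| ≤ C / Λ := by
    rw [← integral_div, EG, ← integral_sub i1 i2]
    have := norm_integral_le_of_norm_le_const (μ := μ i) (C := C / Λ)
      (f := fun p => (∫ g, L (obs' φ Λ fun j =>
        jetG p g ((Fin.cons w₀ w : Fin (k + 1 + 1) → ℂ) j)) ∂(gpi (Fin 2 × Fin (n i))))
          - L (leI p w₀ w φ) / Real.pi) (Eventually.of_forall fun p => ?_)
    · simpa using this
    · have hg : Integrable (fun g => obs' φ Λ fun j =>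
          jetG p g ((Fin.cons w₀ w : Fin (k + 1 + 1) → ℂ) j)) (gpi (Fin 2 × Fin (n i))) :=
        Integrable.of_bound ((continuous_obs' hφ.1 hΛ0).comp
          (hJc.comp (Continuous.prodMk_right p))).aestronglyMeasurable C₅
          (Eventually.of_forall fun g => (h₅ _).2)
      have e : L (leI p w₀ w φ) / Real.pi = L (leI p w₀ w φ / Real.pi) := by
        rw [div_eq_inv_mul (leI p w₀ w φ), ← Complex.ofReal_inv, ← Complex.real_smul, map_smul,
          smul_eq_mul, div_eq_inv_mul]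
      rw [ContinuousLinearMap.integral_comp_comm _ hg, e, ← map_sub]
      exact (hLz _).trans (hC Λ hΛ _ p)
  have hCΛ : C / Λ ≤ ε / (2 * Real.pi) := by
    rw [div_le_div_iff₀ hΛ0 (by positivity), hΛdef, mul_add, mul_div_cancel₀ _ hε.ne']
    linarith
  have h1 : |(∫ p, L (leI p w₀ w φ) ∂(μ i)) / Real.pi| < ε / Real.pi := by
    have e : ε / Real.pi = ε / (2 * Real.pi) + ε / (2 * Real.pi) := by field_simp; ring
    rw [e]
    have := abs_sub_abs_le_abs_sub ((∫ p, L (leI p w₀ w φ) ∂(μ i)) / Real.pi)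
      (EG (μ i) 2 (Fin.cons w₀ w : Fin (k + 1 + 1) → ℂ) fun Z => L (obs' φ Λ Z))
    rw [abs_sub_comm] at this
    linarith
  rw [abs_div, abs_of_pos hpi] at h1
  exact (div_lt_div_iff_of_pos_right hpi).1 h1

/-- Plan: `W = Fin.cons w₀ w`.  For `Λ ≥ 1` and every real-linear `L : ℂ →L[ℝ] ℝ` (`reCLM`, `imCLM`), `flow_lemma` with
`Φ = L ∘ obs φ Λ`, `G = L ∘ obs' φ Λ` gives `EG (L ∘ obs') → 0`.  For every `p`,
`|∫ g, L (obs' ..) - L (leI p ..)/π| ≤ C/Λ` with `C` independent of `n, p, Λ` (`integral_obs0'`, `norm_obs'_sub_le`,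
`integral_nJ_sq_le` with `w₁ = w 0`, `svJ (jets) = sV p w`, decay of `φ`; `obs0'` is integrable by `norm_obs0'_le`).
Integrate over `p` (`leI_bdd`, `continuous_leI`; the inner integral is measurable in `p` by
`StronglyMeasurable.integral_prod_right`), let `Λ → ∞`. -/
theorem le_of_inv (hf : IsFam n μ) (ht : TightS F n μ) (hinv : ∀ ψ, InvQ F n μ 2 (rotD 0 ψ)) :
    LoopE F n μ := by
  intro k w₀ w hw₀ hw φ hφ
  have key := CLoopEq_lin hf ht hinv hw₀ hw hφ
  obtain ⟨C, hC⟩ := leI_bdd hw₀ hw hφ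
  have hint : ∀ i, Integrable (fun p => leI p w₀ w φ) (μ i) := fun i => by
    have := (hf i).1
    exact Integrable.of_bound (continuous_leI hw₀ hw hφ.1).aestronglyMeasurable C
      (Eventually.of_forall fun p => hC _ p)
  have h1 := key Complex.reCLM (by simp)
  have h2 := key Complex.imCLM (by simp)
  have h3 := ((Complex.continuous_ofReal.tendsto 0).comp h1).add
    (((Complex.continuous_ofReal.tendsto 0).comp h2).mul_const Complex.I)
  simp only [Complex.ofReal_zero, zero_mul, add_zero] at h3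
  refine h3.congr fun i => ?_
  simp only [Function.comp]
  rw [ContinuousLinearMap.integral_comp_comm _ (hint i),
    ContinuousLinearMap.integral_comp_comm _ (hint i)]
  exact Complex.re_add_im _

end

end Crest.Agent.R166
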