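import Crest.Agent.R166.C.Tight0

/-! # Row 166, part C: tightness -/

set_option autoImplicit false
set_option linter.unusedVariables false
set_option linter.unusedSectionVars false

open MeasureTheory ProbabilityTheory Filter Topology Matrix
open scoped ENNReal BoundedContinuousFunction ComplexConjugate

namespace Crest.Agent.R166

noncomputable section

/-- the centred Gaussian bilinear form -/
def CTight_xi {r n : ℕ} (g : Fin r × Fin n → ℝ) (b c : Fin r) (a : Fin n → ℂ) : ℂ :=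
  ∑ i, ((g (b, i) * g (c, i) - if b = c then 1 else 0 : ℝ) : ℂ) * a i

theorem CTight_M {r n : ℕ} (p : Conf n) (g : Fin r × Fin n → ℝ) (w : ℂ) (b c : Fin r) :
    (jetG p g w).1 b c = (if b = c then sF p w else 0) +
      CTight_xi g b c fun i => 1 / ((p.1 i : ℂ) - w) := by
  simp only [jetG, jetV, CTight_xi, sF]
  split_ifs
  · push_cast
    simp only [mul_one_div, sub_div, Finset.sum_sub_distrib]
    ring
  · simp [div_eq_mul_inv]

theorem CTight_M' {r n : ℕ} (p : Conf n) (g : Fin r × Fin n → ℝ) (w : ℂ) (b c : Fin r) :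
    (jetG p g w).2.1 b c = (if b = c then sD p w else 0) +
      CTight_xi g b c fun i => 1 / ((p.1 i : ℂ) - w) ^ 2 := by
  simp only [jetG, jetV, CTight_xi, sD]
  split_ifs
  · push_cast
    simp only [mul_one_div, sub_div, Finset.sum_sub_distrib]
    ring
  · simp [div_eq_mul_inv]

theorem CTight_union {r n : ℕ} {T : Type} [Fintype T] (b c : T → Fin r) (a : T → Fin n → ℂ)
    {S t : ℝ} (ht : 0 < t) (hS : ∀ τ, ∑ i, ‖a τ i‖ ^ 2 ≤ S) :
    gpi (Fin r × Fin n) {g | ∃ τ, t ≤ ‖CTight_xi g (b τ) (c τ) (a τ)‖} ≤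
      ENNReal.ofReal (Fintype.card T * (2 * S / t ^ 2)) := by
  rw [Set.ofPred_exists]
  refine (measure_iUnion_fintype_le _ _).trans ?_
  refine (Finset.sum_le_card_nsmul _ _ (ENNReal.ofReal (2 * S / t ^ 2)) fun τ _ => ?_).trans ?_
  · refine (tight_cheb (b τ) (c τ) (a τ) ht).trans (ENNReal.ofReal_le_ofReal ?_)
    have := hS τ
    gcongr
  · rw [ENNReal.ofReal_mul (Nat.cast_nonneg _), ENNReal.ofReal_natCast, nsmul_eq_mul,
      Finset.card_univ]

theorem CTight_sum1 {n : ℕ} (p : Conf n) (w : ℂ) :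
    ∑ i, ‖1 / ((p.1 i : ℂ) - w)‖ ^ 2 = sN p w := by
  simp [sN]

theorem CTight_sum2 {n : ℕ} (p : Conf n) {w : ℂ} (hw : 0 < w.im) :
    ∑ i, ‖1 / ((p.1 i : ℂ) - w) ^ 2‖ ^ 2 ≤ sN p w / w.im ^ 2 := by
  rw [sN, Finset.sum_div]
  refine Finset.sum_le_sum fun i _ => ?_
  have h1 := im_le_norm_sub (p.1 i) w
  have h2 : 0 < ‖(p.1 i : ℂ) - w‖ := hw.trans_le h1
  rw [norm_div, norm_one, norm_pow, div_pow, one_pow, div_div, pow_two (‖(p.1 i : ℂ) - w‖ ^ 2)]
  gcongr

theorem CTight_pos {r : ℕ} (M X : Fin r → Fin r → ℂ) (s : ℂ) (hs : 2 ≤ s.im)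
    (hM : ∀ b c, M b c = (if b = c then s else 0) + X b c)
    (hX : ∀ b c, ‖X b c‖ ≤ 1 / (r + 1)) (v : Fin r → ℝ) : v ⬝ᵥ v ≤ v ⬝ᵥ imM M *ᵥ v := by
  have h0 : 0 ≤ ∑ b, v b ^ 2 := Finset.sum_nonneg fun _ _ => sq_nonneg _
  have h1 : v ⬝ᵥ v = ∑ b, v b ^ 2 := by simp [dotProduct, sq]
  have h2 : v ⬝ᵥ imM M *ᵥ v = s.im * ∑ b, v b ^ 2 + ∑ b, ∑ c, v b * (X b c).im * v c := by
    simp only [dotProduct, mulVec, imM, Matrix.of_apply, hM, Complex.add_im, Finset.mul_sum,
      ← Finset.sum_add_distrib]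
    refine Finset.sum_congr rfl fun b _ => ?_
    simp only [add_mul, mul_add, Finset.sum_add_distrib]
    congr 1
    · rw [Finset.sum_eq_single b]
      · simp; ring
      · intro c _ hc; simp [Ne.symm hc]
      · simp
    · exact Finset.sum_congr rfl fun c _ => by ring
  have h3 : ∑ b, ∑ c, -(1 / (r + 1) * ((v b ^ 2 + v c ^ 2) / 2)) ≤
      ∑ b, ∑ c, v b * (X b c).im * v c := by
    refine Finset.sum_le_sum fun b _ => Finset.sum_le_sum fun c _ => ?_
    have h4 := abs_le.1 ((Complex.abs_im_le_norm _).trans (hX b c))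
    nlinarith [sq_nonneg (v b + v c), sq_nonneg (v b - v c), mul_nonneg (sub_nonneg.2 h4.2) (sq_nonneg (v b - v c)),
      mul_nonneg (sub_nonneg.2 h4.1) (sq_nonneg (v b + v c))]
  have h5 : ∑ b, ∑ c, -(1 / (r + 1) * ((v b ^ 2 + v c ^ 2) / 2)) =
      -(r / (r + 1) * ∑ b, v b ^ 2) := by
    simp only [Finset.sum_neg_distrib, ← Finset.mul_sum, ← Finset.sum_div, Finset.sum_add_distrib,
      Finset.sum_const, Finset.card_univ, Fintype.card_fin, nsmul_eq_mul]
    ring
  have h6 : (r : ℝ) / (r + 1) ≤ 1 := by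
    rw [div_le_one (by positivity)]; linarith
  rw [h1, h2]
  nlinarith

/-- Plan: on `‖s(iK) - iπ‖ ≤ 1`: `π - 1 ≤ Im s(iK) = K sN(iK) ≤ π + 1`, `‖s(w j)‖`, `sN (w j)` are bounded
(`sF_bound`).  `M_{bc}(w) = δ s(w) + ξ_{bc}(1/(x-w))`, `M'_{bc}(w) = δ s'(w) + ξ_{bc}(1/(x-w)²)` with
`ξ_{bc}(a) = Σ (g g - δ) a`; `tight_cheb` and a union bound over `(j, b, c)` give the norm bound `R`.
`vᵀ Im M(iK) v ≥ (π - 1)|v|² - r t |v|²` if all `‖ξ_{bc}(1/(x - iK))‖ < t = 1/(r+1)`, which fails with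
probability `≤ r² · 2 sN(iK) (r+1)² ≤ C(r)/K`; then `tight_cmp`.  Symmetry: `jetV_mem_cSieg`. -/
theorem tight_slice (r k : ℕ) (w : Fin k → ℂ) (hw : ∀ j, 0 < (w j).im) {ε : ℝ} (hε : 0 < ε) :
    ∃ K₁ : ℝ, ∀ K : ℝ, K₁ ≤ K → 0 < K → ∃ R c : ℝ, 0 < c ∧ ∀ (n : ℕ) (p : Conf n),
      ‖sF p (K * Complex.I) - Real.pi * Complex.I‖ ≤ 1 →
      gpi (Fin r × Fin n) {g | (fun j => jetG p g (w j)) ∉ Kset r k R c} ≤ ENNReal.ofReal ε := by
  refine ⟨30 * r ^ 2 * (r + 1) ^ 2 / ε, fun K hK1 hK => ?_⟩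
  have hKi : 0 < ((K : ℂ) * Complex.I).im := by simpa using hK
  choose C hC0 hC using fun j => sF_bound hKi (hw j)
  choose c hc0 hc using fun j => tight_cmp (r := r) (hw j) hKi
  set S : ℝ := ∑ j, (C j * 5 + C j * 5 / (w j).im ^ 2) with hS
  have hSj : ∀ j, C j * 5 + C j * 5 / (w j).im ^ 2 ≤ S := fun j =>
    Finset.single_le_sum (f := fun j => C j * 5 + C j * 5 / (w j).im ^ 2)
      (fun j _ => by have := hC0 j; positivity) (Finset.mem_univ j)
  have hS0 : 0 ≤ S := Finset.sum_nonneg fun j _ => by have := hC0 j; positivity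
  set t : ℝ := 1 + 6 * (k * r ^ 2) * S / ε with ht
  have ht1 : 1 ≤ t := le_add_of_nonneg_right (by positivity)
  have hsum0 : 0 ≤ ∑ j, 1 / c j := Finset.sum_nonneg fun j _ => by have := hc0 j; positivity
  refine ⟨S + t, 1 / (1 + ∑ j, 1 / c j), by positivity, fun n p hp => ?_⟩
  have hpi3 := Real.pi_gt_three
  have hpi4 := Real.pi_lt_four
  have hnorm : ‖sF p (K * Complex.I)‖ ≤ 5 := by
    have h1 := norm_add_le (sF p (K * Complex.I) - Real.pi * Complex.I) (Real.pi * Complex.I)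
    rw [sub_add_cancel] at h1
    have h2 : ‖(Real.pi : ℂ) * Complex.I‖ = Real.pi := by simp [abs_of_pos Real.pi_pos]
    linarith
  have him : 2 ≤ (sF p (K * Complex.I)).im := by
    have h1 := abs_le.1 ((Complex.abs_im_le_norm _).trans hp)
    simp only [Complex.sub_im, Complex.mul_im, Complex.ofReal_re, Complex.I_im, mul_one,
      Complex.ofReal_im, Complex.I_re, mul_zero, add_zero] at h1
    linarith [h1.1]
  have hN : sN p (K * Complex.I) ≤ 5 / K := by
    have h1 := im_sF p (K * Complex.I)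
    have h2 := (le_abs_self _).trans ((Complex.abs_im_le_norm _).trans hnorm)
    rw [h1] at h2
    rw [le_div_iff₀ hK]
    simpa [mul_comm] using h2
  have hF : ∀ j, ‖sF p (w j)‖ ≤ C j * 5 := fun j =>
    (hC j n p).1.trans (mul_le_mul_of_nonneg_left hnorm (hC0 j))
  have hNj : ∀ j, sN p (w j) ≤ C j * 5 := fun j =>
    (hC j n p).2.trans (mul_le_mul_of_nonneg_left hnorm (hC0 j))
  have hq : ∀ j, 0 ≤ C j * 5 / (w j).im ^ 2 := fun j => by have := hC0 j; positivity
  have u1 := CTight_union (T := Fin k × Fin r × Fin r) (fun τ => τ.2.1) (fun τ => τ.2.2)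
    (fun τ i => 1 / ((p.1 i : ℂ) - w τ.1)) (S := S) (t := t) (by linarith) fun τ => by
      rw [CTight_sum1]
      linarith [hNj τ.1, hSj τ.1, hq τ.1]
  have u2 := CTight_union (T := Fin k × Fin r × Fin r) (fun τ => τ.2.1) (fun τ => τ.2.2)
    (fun τ i => 1 / ((p.1 i : ℂ) - w τ.1) ^ 2) (S := S) (t := t) (by linarith) fun τ => by
      refine (CTight_sum2 p (hw τ.1)).trans ?_
      have h1 : sN p (w τ.1) / (w τ.1).im ^ 2 ≤ C τ.1 * 5 / (w τ.1).im ^ 2 := by
        have := hNj τ.1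
        gcongr
      linarith [hSj τ.1, hC0 τ.1]
  have u3 := CTight_union (T := Fin r × Fin r) (fun τ => τ.1) (fun τ => τ.2)
    (fun τ i => 1 / ((p.1 i : ℂ) - K * Complex.I)) (S := 5 / K) (t := 1 / (r + 1))
    (by positivity) fun τ => by rw [CTight_sum1]; exact hN
  have e1 : (Fintype.card (Fin k × Fin r × Fin r) : ℝ) * (2 * S / t ^ 2) ≤ ε / 3 := by
    simp only [Fintype.card_prod, Fintype.card_fin]
    push_cast
    have h1 : 6 * (k * r ^ 2) * S ≤ t * ε := by
      rw [ht, add_mul, div_mul_cancel₀ _ hε.ne']; linarith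
    have h2 : t * ε ≤ t ^ 2 * ε := by
      have : t ≤ t ^ 2 := by nlinarith
      gcongr
    rw [← mul_div_assoc, div_le_div_iff₀ (by positivity) (by norm_num)]
    nlinarith
  have e3 : (Fintype.card (Fin r × Fin r) : ℝ) * (2 * (5 / K) / (1 / (r + 1)) ^ 2) ≤ ε / 3 := by
    simp only [Fintype.card_prod, Fintype.card_fin]
    push_cast
    rw [div_le_iff₀ hε] at hK1
    have h1 : (r : ℝ) * r * (2 * (5 / K) / (1 / (r + 1)) ^ 2) = 10 * r ^ 2 * (r + 1) ^ 2 / K := by
      field_simp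
      ring
    rw [h1, div_le_div_iff₀ hK (by norm_num)]
    linarith
  refine le_trans (measure_mono (t := (_ ∪ _) ∪ _) ?_) ((measure_union_le _ _).trans
    ((add_le_add ((measure_union_le _ _).trans (add_le_add u1 u2)) u3).trans ?_))
  · intro g hg
    by_contra hn
    simp only [Set.mem_union, Set.mem_ofPred_eq, not_or, not_exists, not_le] at hn
    obtain ⟨⟨g1, g2⟩, g3⟩ := hn
    refine hg fun j => ?_
    have hm := jetV_mem_cSieg p (fun b i => g (b, i)) (fun b c : Fin r => if b = c then p.2 else 0)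
      (fun b c => by simp only [eq_comm]) (hw j)
    refine ⟨?_, hm.1, hm.2.1, fun v => ?_⟩
    · have hR : 0 ≤ S + t := by linarith
      have a1 := hF j
      have a2 := (norm_sD_le p (w j)).trans (hNj j)
      have a3 := hSj j
      have a4 := hq j
      have a5 := hC0 j
      refine max_le ((pi_norm_le_iff_of_nonneg hR).2 fun b => (pi_norm_le_iff_of_nonneg hR).2
        fun c => ?_) (max_le ((pi_norm_le_iff_of_nonneg hR).2 fun b =>
          (pi_norm_le_iff_of_nonneg hR).2 fun c => ?_) ?_)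
      · rw [CTight_M]
        refine (norm_add_le _ _).trans (add_le_add ?_ (g1 (j, b, c)).le)
        split_ifs
        · linarith
        · simpa using hS0
      · rw [CTight_M']
        refine (norm_add_le _ _).trans (add_le_add ?_ (g2 (j, b, c)).le)
        split_ifs
        · linarith
        · simpa using hS0
      · change ‖sF p (w j)‖ ≤ _
        linarith
    · have b1 := CTight_pos _ _ _ him (CTight_M p g (K * Complex.I)) (fun b c => (g3 (b, c)).le) v
      have b2 := hc j n p g v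
      have b3 : 1 / (1 + ∑ j, 1 / c j) ≤ c j := by
        have h1 : 1 / c j ≤ ∑ j, 1 / c j :=
          Finset.single_le_sum (f := fun j => 1 / c j)
            (fun j _ => by have := hc0 j; positivity) (Finset.mem_univ j)
        exact (one_div_le (by positivity) (hc0 j)).2 (by linarith)
      have b4 : 0 ≤ v ⬝ᵥ v := Finset.sum_nonneg fun _ _ => mul_self_nonneg _
      calc _ ≤ c j * (v ⬝ᵥ v) := mul_le_mul_of_nonneg_right b3 b4
        _ ≤ _ := mul_le_mul_of_nonneg_left b1 (hc0 j).le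
        _ ≤ _ := b2
  · refine (add_le_add (add_le_add (ENNReal.ofReal_le_ofReal e1) (ENNReal.ofReal_le_ofReal e1))
      (ENNReal.ofReal_le_ofReal e3)).trans (le_of_eq ?_)
    rw [← ENNReal.ofReal_add (by positivity) (by positivity),
      ← ENNReal.ofReal_add (by positivity) (by positivity)]
    congr 1
    ring

variable {ι : Type} {F : Filter ι} {n : ι → ℕ} {μ : ∀ i, Measure (Conf (n i))}

/-- Plan: `H0` with `min 1 (ε/2)`, `tight_slice` with `ε/2`; the bad set is measurable (`continuous_jetG`,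
`Kset` closed), `Measure.prod_apply`, bound the slice measure by
`indicator {‖s - iπ‖ > 1} 1 + ofReal (ε/2)`. -/
theorem tightS_of_H0 (hf : IsFam n μ) (h0 : H0 F n μ) : TightS F n μ := by
  intro r k w hw ε hε
  obtain ⟨K₁, hK₁⟩ := tight_slice r k w hw (half_pos hε)
  obtain ⟨K₀, hK₀⟩ := h0 (min 1 (ε / 2)) (lt_min one_pos (half_pos hε))
  have hK : (0 : ℝ) < max (max K₀ K₁) 1 := lt_max_of_lt_right one_pos
  set K : ℝ := max (max K₀ K₁) 1
  obtain ⟨R, c, hc, hs⟩ := hK₁ K ((le_max_right _ _).trans (le_max_left _ _)) hK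
  refine ⟨Kset r k R c, isCompact_Kset r k R c, Kset_subset r k R hc, ?_⟩
  filter_upwards [hK₀ K ((le_max_left _ _).trans (le_max_left _ _)) hK] with i hi
  have := (hf i).1
  have hKi : ((K : ℂ) * Complex.I).im ≠ 0 := by simpa using hK.ne'
  have hcont : Continuous fun q : Conf (n i) × (Fin r × Fin (n i) → ℝ) =>
      fun j => jetG q.1 q.2 (w j) := continuous_pi fun j => continuous_jetG (hw j)
  have hB : MeasurableSet {q : Conf (n i) × (Fin r × Fin (n i) → ℝ) |
      (fun j => jetG q.1 q.2 (w j)) ∉ Kset r k R c} :=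
    ((isCompact_Kset r k R c).isClosed.isOpen_compl.preimage hcont).measurableSet
  have hE : MeasurableSet {p : Conf (n i) |
      min 1 (ε / 2) < ‖sF p (K * Complex.I) - Real.pi * Complex.I‖} :=
    (isOpen_lt continuous_const ((continuous_sF hKi).sub continuous_const).norm).measurableSet
  rw [Measure.prod_apply hB]
  refine (lintegral_mono (g := fun p => Set.indicator {p : Conf (n i) |
    min 1 (ε / 2) < ‖sF p (K * Complex.I) - Real.pi * Complex.I‖} 1 p + ENNReal.ofReal (ε / 2))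
    fun p => ?_).trans ?_
  · by_cases hp : min 1 (ε / 2) < ‖sF p (K * Complex.I) - Real.pi * Complex.I‖
    · simp only [Set.indicator_of_mem (s := {p : Conf (n i) |
        min 1 (ε / 2) < ‖sF p (K * Complex.I) - Real.pi * Complex.I‖}) hp, Pi.one_apply]
      exact prob_le_one.trans le_self_add
    · exact (hs (n i) p ((not_lt.1 hp).trans (min_le_left _ _))).trans le_add_self
  · rw [lintegral_add_right _ measurable_const, lintegral_indicator_one hE, lintegral_const,
      measure_univ, mul_one]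
    refine (add_le_add (hi.trans (ENNReal.ofReal_le_ofReal (min_le_right _ _))) le_rfl).trans ?_
    rw [← ENNReal.ofReal_add (by positivity) (by positivity), add_halves]

/-- the case `r = 0`, `k = 1`, read on the `s`-coordinate -/
theorem TightS.sF_le (hf : IsFam n μ) (ht : TightS F n μ) {w : ℂ} (hw : 0 < w.im) {ε : ℝ}
    (hε : 0 < ε) : ∃ R : ℝ, ∀ᶠ i in F, μ i {p | R < ‖sF p w‖} ≤ ENNReal.ofReal ε := by
  obtain ⟨K, hK, -, h⟩ := ht 0 1 (fun _ => w) (fun _ => hw) ε hε
  obtain ⟨R, hR⟩ := hK.isBounded.exists_norm_le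
  refine ⟨R, h.mono fun i hi => le_trans ?_ hi⟩
  rw [← mul_one (μ i _), ← measure_univ (μ := gpi (Fin 0 × Fin (n i))), ← Measure.prod_prod]
  refine measure_mono fun q hq hK' => ?_
  have h1 := (norm_le_pi_norm _ 0).trans (hR _ hK')
  have h2 : ‖sF q.1 w‖ ≤ ‖jetG q.1 q.2 w‖ :=
    (norm_snd_le (jetG q.1 q.2 w).2).trans (norm_snd_le (jetG q.1 q.2 w))
  exact absurd hq.1 (not_lt.2 (h2.trans h1))

end

end Crest.Agent.R166
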