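import Crest.Agent.R166.C.TestT
import Crest.Agent.R166.C.Tight

/-! # Row 166, part C: moments and tails -/

set_option autoImplicit false
set_option linter.unusedVariables false
set_option linter.unusedSectionVars false

open MeasureTheory ProbabilityTheory Filter Topology Matrix
open scoped ENNReal BoundedContinuousFunction ComplexConjugate

namespace Crest.Agent.R166

noncomputable section

variable {ι : Type} {F : Filter ι} {n : ι → ℕ} {μ : ∀ i, Measure (Conf (n i))}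

theorem CMom_sDel_le {N : ℕ} (p : Conf N) (w : ℂ) : ‖sDel p w‖ ≤ ‖sF p w‖ + Real.pi := by
  refine (norm_sub_le _ _).trans (le_of_eq ?_)
  rw [norm_mul, Complex.norm_I, mul_one, Complex.norm_real, Real.norm_of_nonneg Real.pi_pos.le]

theorem CMom_int {N : ℕ} (ν : Measure (Conf N)) [IsFiniteMeasure ν] {w : ℂ} (hw : 0 < w.im) {Λ : ℝ}
    (hΛ : 0 < Λ) (k : ℕ) : Integrable (fun q => min ‖sDel q w‖ Λ ^ k) ν := by
  refine Integrable.of_bound (((continuous_sDel hw).norm.min continuous_const).pow k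
    ).aestronglyMeasurable (Λ ^ k) (Eventually.of_forall fun q => ?_)
  have h0 : 0 ≤ min ‖sDel q w‖ Λ := le_min (norm_nonneg _) hΛ.le
  rw [Real.norm_of_nonneg (pow_nonneg h0 _)]
  exact pow_le_pow_left₀ h0 (min_le_right _ _) _

theorem CMom_chi (m : ℕ) {Λ : ℝ} (hΛ : 0 < Λ) {s : ℂ} (h : ‖s - Real.pi * Complex.I‖ ^ 2 ≤ Λ) :
    1 ≤ 2 ^ (m + 3) * chiT m Λ s := by
  unfold chiT
  have h1 : 0 ≤ ‖s - Real.pi * Complex.I‖ ^ 2 / Λ := by positivity
  have h2 : ‖s - Real.pi * Complex.I‖ ^ 2 / Λ ≤ 1 := (div_le_one hΛ).2 h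
  rw [mul_one_div, le_div_iff₀ (by positivity), one_mul]
  exact pow_le_pow_left₀ (by linarith) (by linarith) _

/-- Plan: `m = 0` is trivial.  For `m + 1`: `TightS.sF_le` gives `R` with `P(‖Δ‖ > R') ≤ ε'`; `Λ' = R'²`;
`min ‖Δ‖ Λ ^ (2m+2) ≤ 2^{m+3} u^{m+1} χ_{Λ'} + Λ^{2m+2} 1(‖Δ‖ > R')`; integrate `leI_tfT_ge`
(`u^{m+1} χ` is bounded by `leI_tfT_ge` and `leI_bdd`), `LoopE` and continuity of `re`. -/
theorem momS_of_le (hf : IsFam n μ) (ht : TightS F n μ) (hle : LoopE F n μ) : MomS F n μ := by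
  intro m
  rcases m with _ | m
  · refine ⟨1, fun w hw Λ hΛ ε hε => Eventually.of_forall fun i => ?_⟩
    have := (hf i).1
    simp [hε.le]
  obtain ⟨C, hC⟩ := leI_tfT_ge m
  refine ⟨2 ^ (m + 4) * C, fun w hw Λ hΛ ε hε => ?_⟩
  have hL : 0 < Λ ^ (2 * (m + 1)) := by positivity
  obtain ⟨R, hR⟩ := TightS.sF_le hf ht hw (ε := ε / 2 / Λ ^ (2 * (m + 1))) (by positivity)
  have hR' : 0 < (|R| + Real.pi) ^ 2 := by have := Real.pi_pos; positivity
  have hdec := dec_tfT m hR'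
  have h1 := hle 0 w (fun _ => w) hw (fun _ => hw) _ hdec
  have h2 := (Complex.continuous_re.tendsto 0).comp h1
  have h3 := h2.eventually (gt_mem_nhds (show Complex.re 0 < ε / 2 / 2 ^ (m + 4) by
    rw [Complex.zero_re]; positivity))
  obtain ⟨D, hD⟩ := leI_bdd hw (fun _ => hw) hdec
  filter_upwards [hR, h3] with i hi hi'
  have := (hf i).1
  have hS : MeasurableSet {p : Conf (n i) | R < ‖sF p w‖} :=
    (isOpen_lt continuous_const (continuous_sF hw.ne').norm).measurableSet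
  have hI : Integrable (fun p : Conf (n i) => leI p w (fun _ : Fin (0 + 1) => w)
      fun v => tfT m ((|R| + Real.pi) ^ 2) (v 0)) (μ i) :=
    Integrable.of_bound (continuous_leI hw (fun _ => hw) hdec.1).aestronglyMeasurable D
      (Eventually.of_forall fun p => hD _ p)
  have hI1 := (hI.re.add (integrable_const (C / w.im ^ (2 * (m + 1))))).const_mul (2 ^ (m + 4))
  have hI2 := (integrable_const (μ := μ i) (Λ ^ (2 * (m + 1)))).indicator hS
  have key := integral_mono (CMom_int (μ i) hw hΛ (2 * (m + 1))) (hI1.add hI2) fun p => by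
    have a1 := hC _ hR' w hw _ p
    have a2 : 0 ≤ chiT m ((|R| + Real.pi) ^ 2) (sF p w) := by unfold chiT; positivity
    have a3 : 0 ≤ (‖sDel p w‖ ^ 2) ^ (m + 1) := by positivity
    have a0 : 0 ≤ min ‖sDel p w‖ Λ := le_min (norm_nonneg _) hΛ.le
    have a4 : (0 : ℝ) < 2 ^ (m + 3) := by positivity
    have a5 := mul_le_mul_of_nonneg_left a1 a4.le
    have a6 := mul_nonneg a4.le (mul_nonneg a3 a2)
    simp only [Pi.add_apply, RCLike.re_to_complex]
    rw [pow_succ (2 : ℝ) (m + 3)]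
    by_cases hp : R < ‖sF p w‖
    · rw [Set.indicator_of_mem (by exact hp)]
      have := pow_le_pow_left₀ a0 (min_le_right _ _) (2 * (m + 1))
      linarith
    · rw [Set.indicator_of_notMem (by exact hp)]
      have b1 : ‖sDel p w‖ ≤ |R| + Real.pi := by
        linarith [CMom_sDel_le p w, not_lt.1 hp, le_abs_self R]
      have b2 := mul_le_mul_of_nonneg_left (CMom_chi m hR' (s := sF p w)
        (pow_le_pow_left₀ (norm_nonneg _) b1 2)) a3
      have b3 := pow_le_pow_left₀ a0 (min_le_left _ _) (2 * (m + 1))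
      rw [pow_mul ‖sDel p w‖] at b3
      linarith
  refine key.trans ?_
  rw [integral_add' hI1 hI2, integral_const_mul, integral_add' hI.re (integrable_const _),
    integral_re hI, integral_indicator_const _ hS, integral_const]
  have c1 : (μ i).real {p : Conf (n i) | R < ‖sF p w‖} ≤ ε / 2 / Λ ^ (2 * (m + 1)) :=
    ENNReal.toReal_le_of_le_ofReal (by positivity) hi
  rw [le_div_iff₀ hL] at c1
  simp only [Function.comp_apply] at hi'
  rw [lt_div_iff₀ (by positivity)] at hi'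
  simp only [probReal_univ, smul_eq_mul, one_mul, RCLike.re_to_complex, mul_div_assoc]
  linarith

/-- Plan: Markov with `Λ = lam`: `lam^{2p} P(‖Δ‖ > lam) ≤ E min(‖Δ‖, lam)^{2p}`; if `lam y ≤ 1` the bound is trivial
for `C ≥ 1`, otherwise `(lam y)^{2p} ≥ (lam y)^p`. -/
theorem tailS_of_momS (hf : IsFam n μ) (hm : MomS F n μ) : TailS F n μ := by
  intro p
  obtain ⟨C, hC⟩ := hm p
  refine ⟨max C 1, fun w hw lam hl ε hε => ?_⟩
  have hly : 0 < lam * w.im := mul_pos hl hw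
  have hlp : 0 < (lam * w.im) ^ p := pow_pos hly p
  rcases le_total (lam * w.im) 1 with h1 | h1
  · refine Eventually.of_forall fun i => ?_
    have := (hf i).1
    refine prob_le_one.trans (ENNReal.one_le_ofReal.2 ?_)
    have h2 : 1 ≤ max C 1 / (lam * w.im) ^ p := by
      rw [le_div_iff₀ hlp, one_mul]
      exact (pow_le_one₀ hly.le h1).trans (le_max_right _ _)
    linarith
  · have hL : 0 < lam ^ (2 * p) := by positivity
    filter_upwards [hC w hw lam hl (ε * lam ^ (2 * p)) (by positivity)] with i hi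
    have := (hf i).1
    have h2 := mul_meas_ge_le_integral_of_nonneg (μ := μ i)
      (Eventually.of_forall fun q => pow_nonneg (le_min (norm_nonneg _) hl.le) _)
      (CMom_int (μ i) hw hl (2 * p)) (lam ^ (2 * p))
    have h3 : (μ i).real {q | lam < ‖sF q w - Real.pi * Complex.I‖} ≤
        (μ i).real {q | lam ^ (2 * p) ≤ min ‖sDel q w‖ lam ^ (2 * p)} :=
      measureReal_mono fun q hq => by
        have : min ‖sDel q w‖ lam = lam := min_eq_right (le_of_lt hq)
        simp only [Set.mem_ofPred_eq, this, le_refl]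
    rw [← ofReal_measureReal (measure_ne_top _ _)]
    refine ENNReal.ofReal_le_ofReal (h3.trans ?_)
    refine le_of_mul_le_mul_left (h2.trans (hi.trans ?_)) hL
    rw [mul_add, mul_comm ε]
    refine add_le_add ?_ le_rfl
    have hy : 0 < w.im ^ (2 * p) := by positivity
    rw [div_le_iff₀ hy]
    have e : lam ^ (2 * p) * (max C 1 / (lam * w.im) ^ p) * w.im ^ (2 * p) =
        max C 1 * (lam * w.im) ^ p := by
      field_simp
      ring
    rw [e]
    exact (le_max_left C 1).trans (le_mul_of_one_le_right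
      (zero_le_one.trans (le_max_right _ _)) (one_le_pow₀ h1))

theorem integrable_wt (hf : IsFam n μ) {w₁ : ℂ} (hw₁ : 0 < w₁.im) {B : ℝ} {ω : ∀ i, Conf (n i) → ℝ}
    (hω : Wt n w₁ B ω) (i : ι) {h : Conf (n i) → ℝ} (hm : Measurable h) {C : ℝ}
    (hC : ∀ p, |h p| ≤ C * (1 + ‖sF p w₁‖) ^ 4) : Integrable (fun p => h p * ω i p) (μ i) := by
  have := (hf i).1
  obtain ⟨B', hB'⟩ := hω.2.2
  refine Integrable.of_bound (hm.mul (hω.1 i)).aestronglyMeasurable (|C| * B')
    (Eventually.of_forall fun p => ?_)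
  have h0 := (hω.2.1 i p).1
  rw [norm_mul, Real.norm_of_nonneg h0, Real.norm_eq_abs]
  have h1 : |h p| ≤ |C| * (1 + ‖sF p w₁‖) ^ 4 :=
    (hC p).trans (mul_le_mul_of_nonneg_right (le_abs_self C) (by positivity))
  have h2 := mul_le_mul_of_nonneg_right h1 h0
  have h3 := mul_le_mul_of_nonneg_left (hB' i p) (abs_nonneg C)
  linarith

theorem CMom_pow1 {t : ℝ} (ht : 0 ≤ t) {q : ℕ} (hq : q ≤ 3) : t ^ q ≤ 1 + t ^ 4 := by
  rcases le_total t 1 with h | h
  · linarith [pow_le_one₀ ht h (n := q), pow_nonneg ht 4]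
  · linarith [pow_le_pow_right₀ h (show q ≤ 4 by omega)]

theorem CMom_pow2 {t : ℝ} (ht : 0 ≤ t) {q : ℕ} (hq : q ≤ 3) : t ^ q ≤ (1 + t) ^ 3 :=
  (pow_le_pow_left₀ ht (by linarith) q).trans (pow_le_pow_right₀ (by linarith) hq)

/-- Plan: `‖Δ(w)‖ ≤ C₁ (1 + ‖s(w₁)‖)` (`sF_bound`).  On `‖s(w₁)‖ ≤ R`: `‖Δ‖ ≤ Λ_R`, and `t^q ≤ 1 + t⁴` gives
`(y‖Δ‖)^q ω ≤ B (1 + y⁴ min(‖Δ‖, Λ_R)⁴)`; on `‖s(w₁)‖ > R`: `(y‖Δ‖)^q ω ≤ (1 + y C₁)³ B'/(1 + R)`.  `MomS` with `m = 2`. -/
theorem mom_wt (hf : IsFam n μ) (hm : MomS F n μ) : ∃ C : ℝ, 0 ≤ C ∧ ∀ (q : ℕ), q ≤ 3 → ∀ (w w₁ : ℂ),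
    0 < w.im → 0 < w₁.im → ∀ (B : ℝ) (ω : ∀ i, Conf (n i) → ℝ), Wt n w₁ B ω → ∀ ε : ℝ, 0 < ε →
      ∀ᶠ i in F, ∫ p, (w.im * ‖sDel p w‖) ^ q * ω i p ∂(μ i) ≤ B * C + ε := by
  obtain ⟨C₂, hC₂⟩ := hm 2
  refine ⟨1 + |C₂|, by positivity, fun q hq w w₁ hw hw₁ B ω hω ε hε => ?_⟩
  obtain ⟨C, hC0, hC⟩ := sF_bound hw₁ hw
  obtain ⟨B', hB'⟩ := hω.2.2
  have hπ := Real.pi_pos
  obtain ⟨C₁, hC₁, h1⟩ : ∃ C₁ : ℝ, 0 < C₁ ∧ ∀ (N : ℕ) (p : Conf N),
      ‖sDel p w‖ ≤ C₁ * (1 + ‖sF p w₁‖) := ⟨C + Real.pi, by positivity, fun N p => by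
    nlinarith [CMom_sDel_le p w, (hC N p).1, norm_nonneg (sF p w₁)]⟩
  obtain ⟨R, hR0, hR⟩ : ∃ R : ℝ, 0 ≤ R ∧ (1 + w.im * C₁) ^ 3 * |B'| ≤ ε / 2 * (1 + R) :=
    ⟨(1 + w.im * C₁) ^ 3 * |B'| / (ε / 2), by positivity, by
      rw [mul_add, mul_div_cancel₀ _ (by positivity)]; linarith⟩
  have hΛ : 0 < C₁ * (1 + R) := by positivity
  have hy4 : 0 < w.im ^ (2 * 2) := by positivity
  filter_upwards [hC₂ w hw _ hΛ (ε / 2 / (|B| * w.im ^ (2 * 2) + 1)) (by positivity)] with i hi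
  have := (hf i).1
  have hB : 0 ≤ B := (hω.2.1 i (0, 0)).1.trans (hω.2.1 i (0, 0)).2
  have hI := CMom_int (μ i) hw hΛ (2 * 2)
  have key := integral_mono_of_nonneg (μ := μ i)
    (f := fun p => (w.im * ‖sDel p w‖) ^ q * ω i p)
    (Eventually.of_forall fun p => mul_nonneg (by positivity) (hω.2.1 i p).1)
    ((hI.const_mul (B * w.im ^ (2 * 2))).add (integrable_const (B + ε / 2)))
    (Eventually.of_forall fun p => by
      have a0 := hω.2.1 i p
      have a1 : 0 ≤ w.im * ‖sDel p w‖ := by positivity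
      have a2 := h1 _ p
      simp only [Pi.add_apply]
      rcases le_total ‖sF p w₁‖ R with hp | hp
      · rw [min_eq_left (a2.trans (mul_le_mul_of_nonneg_left (by linarith) hC₁.le))]
        have := mul_le_mul (CMom_pow1 a1 hq) a0.2 a0.1 (by positivity)
        linarith
      · have hs := norm_nonneg (sF p w₁)
        have b1 : 1 + w.im * ‖sDel p w‖ ≤ (1 + w.im * C₁) * (1 + ‖sF p w₁‖) := by
          nlinarith [mul_le_mul_of_nonneg_left a2 hw.le]
        have b2 := (CMom_pow2 a1 hq).trans (pow_le_pow_left₀ (by linarith) b1 3)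
        have b3 := mul_le_mul_of_nonneg_right b2 a0.1
        have b4 : ((1 + w.im * C₁) * (1 + ‖sF p w₁‖)) ^ 3 * ω i p ≤ ε / 2 := by
          refine le_of_mul_le_mul_right ?_ (show 0 < 1 + ‖sF p w₁‖ by linarith)
          have c1 := mul_le_mul_of_nonneg_left ((hB' i p).trans (le_abs_self B'))
            (show 0 ≤ (1 + w.im * C₁) ^ 3 by positivity)
          have c2 := mul_le_mul_of_nonneg_left (show 1 + R ≤ 1 + ‖sF p w₁‖ by linarith)
            (show 0 ≤ ε / 2 by linarith)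
          linarith
        have b5 : 0 ≤ B * w.im ^ (2 * 2) * min ‖sDel p w‖ (C₁ * (1 + R)) ^ (2 * 2) :=
          mul_nonneg (by positivity) (pow_nonneg (le_min (norm_nonneg _) hΛ.le) _)
        exact (b3.trans b4).trans (le_add_of_nonneg_of_le b5 (by linarith)))
  refine key.trans ?_
  rw [integral_add' (hI.const_mul _) (integrable_const _), integral_const_mul, integral_const,
    probReal_univ, one_smul]
  have d1 := mul_le_mul_of_nonneg_left hi (mul_nonneg hB hy4.le)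
  have d2 : B * w.im ^ (2 * 2) * (C₂ / w.im ^ (2 * 2)) = B * C₂ := by field_simp
  have d3 : B * w.im ^ (2 * 2) * (ε / 2 / (|B| * w.im ^ (2 * 2) + 1)) ≤ ε / 2 := by
    rw [abs_of_nonneg hB, ← mul_div_assoc, div_le_iff₀ (by positivity)]
    linarith
  have d4 := mul_le_mul_of_nonneg_left (le_abs_self C₂) hB
  linarith

end

end Crest.Agent.R166
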