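import Crest.Agent.R166.C.Obs0

/-! # Row 166, part C: the cut-off observable -/

set_option autoImplicit false
set_option linter.unusedVariables false
set_option linter.unusedSectionVars false

open MeasureTheory ProbabilityTheory Filter Topology Matrix
open scoped ENNReal BoundedContinuousFunction ComplexConjugate

namespace Crest.Agent.R166

noncomputable section

variable {k : ℕ} {φ : (Fin k → ℂ) → ℂ}

theorem CObs_entry {k : ℕ} (Z : Fin k → Jet 2) (j : Fin k) (b c : Fin 2) :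
    ‖(Z j).1 b c‖ ≤ √(nJ Z) ∧ ‖(Z j).2.1 b c‖ ≤ √(nJ Z) := by
  have n0 : ∀ j b c, 0 ≤ Complex.normSq ((Z j).1 b c) + Complex.normSq ((Z j).2.1 b c) :=
    fun j b c => add_nonneg (Complex.normSq_nonneg _) (Complex.normSq_nonneg _)
  have h : Complex.normSq ((Z j).1 b c) + Complex.normSq ((Z j).2.1 b c) ≤ nJ Z := by
    refine le_trans ?_ (Finset.single_le_sum (f := fun j => ∑ b, ∑ c,
      (Complex.normSq ((Z j).1 b c) + Complex.normSq ((Z j).2.1 b c)))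
      (fun j _ => Finset.sum_nonneg fun b _ => Finset.sum_nonneg fun c _ => n0 j b c)
      (Finset.mem_univ j))
    refine le_trans ?_ (Finset.single_le_sum (f := fun b => ∑ c,
      (Complex.normSq ((Z j).1 b c) + Complex.normSq ((Z j).2.1 b c)))
      (fun b _ => Finset.sum_nonneg fun c _ => n0 j b c) (Finset.mem_univ b))
    exact Finset.single_le_sum (f := fun c =>
      (Complex.normSq ((Z j).1 b c) + Complex.normSq ((Z j).2.1 b c)))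
      (fun c _ => n0 j b c) (Finset.mem_univ c)
  rw [Complex.normSq_eq_norm_sq, Complex.normSq_eq_norm_sq] at h
  exact ⟨Real.le_sqrt_of_sq_le (by nlinarith [sq_nonneg ‖(Z j).2.1 b c‖]),
    Real.le_sqrt_of_sq_le (by nlinarith [sq_nonneg ‖(Z j).1 b c‖])⟩

theorem CObs_sg (e : Fin 2) : ‖sg2 e‖ = 1 := by
  unfold sg2
  split_ifs <;> simp

theorem CObs_div_pi (z : ℂ) : ‖z / (Real.pi : ℂ)‖ ≤ ‖z‖ / 2 := by
  rw [norm_div, Complex.norm_real, Real.norm_of_nonneg Real.pi_pos.le]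
  exact div_le_div_of_nonneg_left (norm_nonneg _) two_pos Real.two_le_pi

theorem CObs_flow {Y : Jet 2} {t : ℝ} (ht : 0 ≤ t)
    (h : ∀ b c, ‖Y.1 b c‖ ≤ t ∧ ‖Y.2.1 b c‖ ≤ t) :
    (∀ b c, ‖(flowV Y).1 b c‖ ≤ 4 * (1 + t ^ 2) ∧ ‖(flowV Y).2.1 b c‖ ≤ 4 * (1 + t ^ 2)) ∧
      ‖(flowV Y).2.2‖ ≤ t := by
  have hm : ∀ (x y : ℂ) (e : Fin 2), ‖x‖ ≤ t → ‖y‖ ≤ t → ‖x * sg2 e * y‖ ≤ t ^ 2 := by
    intro x y e hx hy
    rw [norm_mul, norm_mul, CObs_sg, mul_one, sq]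
    exact mul_le_mul hx hy (norm_nonneg _) ht
  refine ⟨fun b c => ⟨?_, ?_⟩, ?_⟩
  · have h1 : ‖(Real.pi : ℂ) * (if b = c then sg2 b else 0)‖ ≤ 4 := by
      rw [norm_mul, Complex.norm_real, Real.norm_of_nonneg Real.pi_pos.le]
      split_ifs
      · rw [CObs_sg, mul_one]; exact Real.pi_le_four
      · simp
    have h2 : ‖∑ e, Y.1 b e * sg2 e * Y.1 e c‖ ≤ 2 * t ^ 2 := by
      rw [Fin.sum_univ_two]
      have := hm _ _ 0 (h b 0).1 (h 0 c).1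
      have := hm _ _ 1 (h b 1).1 (h 1 c).1
      refine (norm_add_le _ _).trans (by linarith)
    have h3 := CObs_div_pi (∑ e, Y.1 b e * sg2 e * Y.1 e c)
    refine (norm_add_le _ _).trans ?_
    nlinarith [sq_nonneg t]
  · have h2 : ‖∑ e, (Y.1 e b * sg2 e * Y.2.1 e c + Y.2.1 b e * sg2 e * Y.1 e c)‖
        ≤ 4 * t ^ 2 := by
      rw [Fin.sum_univ_two]
      have := hm _ _ 0 (h 0 b).1 (h 0 c).2
      have := hm _ _ 0 (h b 0).2 (h 0 c).1
      have := hm _ _ 1 (h 1 b).1 (h 1 c).2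
      have := hm _ _ 1 (h b 1).2 (h 1 c).1
      refine ((norm_add_le _ _).trans (add_le_add (norm_add_le _ _) (norm_add_le _ _))).trans ?_
      linarith
    refine (CObs_div_pi _).trans ?_
    nlinarith [sq_nonneg t]
  · have h2 : ‖∑ e, sg2 e * Y.2.1 e e‖ ≤ 2 * t := by
      rw [Fin.sum_univ_two]
      refine (norm_add_le _ _).trans ?_
      rw [norm_mul, norm_mul, CObs_sg, CObs_sg]
      linarith [(h 0 0).2, (h 1 1).2]
    refine (CObs_div_pi _).trans ?_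
    linarith

/-- Plan: every entry of `M`, `M'` has norm `≤ √N` (`N = nJ Z`), every entry of `flowV` has norm `≤ 4 (1 + N)`. -/
theorem obs_aux (k : ℕ) : ∃ C : ℝ, 0 ≤ C ∧ ∀ Z : Fin (k + 1) → Jet 2,
    ‖(Z 0).1 0 0‖ ≤ 1 + nJ Z ∧ ‖(flowV (Z 0)).1 0 0‖ ≤ C * (1 + nJ Z) ∧
    ‖(Z 0).1 0 0‖ * ‖fun j : Fin k => (flowV (Z j.succ)).2.2‖ ≤ C * (1 + nJ Z) ∧
    ‖(Z 0).1 0 0‖ * |nJ' Z| ≤ C * (1 + nJ Z) ^ 2 := by
  refine ⟨64 * (k + 1), by positivity, fun Z => ?_⟩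
  have hN := nJ_nonneg Z
  have he := CObs_entry Z
  have hsq := Real.sq_sqrt hN
  have ht := Real.sqrt_nonneg (nJ Z)
  generalize √(nJ Z) = t at he hsq ht
  have hf := fun j => CObs_flow ht (he j)
  rw [hsq] at hf
  have hk : (0 : ℝ) ≤ k := Nat.cast_nonneg k
  have h0 := (he 0 0 0).1
  refine ⟨by nlinarith [sq_nonneg (t - 1)], ((hf 0).1 0 0).1.trans ?_, ?_, ?_⟩
  · exact mul_le_mul_of_nonneg_right (by linarith) (by linarith)
  · have h1 : ‖fun j : Fin k => (flowV (Z j.succ)).2.2‖ ≤ t :=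
      (pi_norm_le_iff_of_nonneg ht).2 fun j => (hf j.succ).2
    refine (mul_le_mul h0 h1 (norm_nonneg _) ht).trans ?_
    nlinarith
  · have hre : ∀ x y : ℂ, ‖x‖ ≤ t → ‖y‖ ≤ 4 * (1 + nJ Z) →
        |(conj x * y).re| ≤ t * (4 * (1 + nJ Z)) := fun x y hx hy => by
      refine (Complex.abs_re_le_norm _).trans ?_
      rw [norm_mul, Complex.norm_conj]
      exact mul_le_mul hx hy (norm_nonneg _) ht
    have h1 : |nJ' Z| ≤ ∑ _j : Fin (k + 1), ∑ _b : Fin 2, ∑ _c : Fin 2, 16 * (t * (1 + nJ Z)) := by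
      refine (Finset.abs_sum_le_sum_abs _ _).trans (Finset.sum_le_sum fun j _ => ?_)
      refine (Finset.abs_sum_le_sum_abs _ _).trans (Finset.sum_le_sum fun b _ => ?_)
      refine (Finset.abs_sum_le_sum_abs _ _).trans (Finset.sum_le_sum fun c _ => ?_)
      have a1 := hre _ _ (he j b c).1 ((hf j).1 b c).1
      have a2 := hre _ _ (he j b c).2 ((hf j).1 b c).2
      have a3 := abs_add_le (conj ((Z j).1 b c) * (flowV (Z j)).1 b c).re
        (conj ((Z j).2.1 b c) * (flowV (Z j)).2.1 b c).re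
      rw [abs_mul, abs_two]
      linarith
    simp only [Finset.sum_const, Finset.card_univ, Fintype.card_fin, nsmul_eq_mul] at h1
    refine (mul_le_mul h0 h1 (abs_nonneg _) ht).trans ?_
    push_cast
    have h2 : t * ((k + 1) * (2 * (2 * (16 * (t * (1 + nJ Z))))))
        = 64 * (k + 1) * (t ^ 2 * (1 + nJ Z)) := by ring
    rw [h2, hsq]
    exact mul_le_mul_of_nonneg_left (by nlinarith) (by positivity)

theorem CObs_obs0 (k : ℕ) : ∃ C : ℝ, 0 ≤ C ∧ ∀ (φ : (Fin k → ℂ) → ℂ) (Z : Fin (k + 1) → Jet 2),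
    ‖obs0' φ Z‖ ≤ C * (1 + nJ Z) * (‖φ (svJ Z)‖ + ‖fderiv ℝ φ (svJ Z)‖) := by
  obtain ⟨C, hC, h⟩ := obs_aux k
  refine ⟨C, hC, fun φ Z => ?_⟩
  obtain ⟨-, h1, h2, -⟩ := h Z
  refine (norm_add_le _ _).trans ?_
  rw [norm_mul, norm_mul, mul_add]
  refine add_le_add (mul_le_mul_of_nonneg_right h1 (norm_nonneg _)) ?_
  refine (mul_le_mul_of_nonneg_left ((fderiv ℝ φ (svJ Z)).le_opNorm _) (norm_nonneg _)).trans ?_
  rw [mul_comm ‖fderiv ℝ φ (svJ Z)‖, ← mul_assoc]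
  exact mul_le_mul_of_nonneg_right h2 (norm_nonneg _)

theorem obs_bdd (hφ : Dec φ) {Λ : ℝ} (hΛ : 1 ≤ Λ) :
    ∃ C : ℝ, ∀ Z, ‖obs φ Λ Z‖ ≤ C ∧ ‖obs' φ Λ Z‖ ≤ C := by
  obtain ⟨-, B, hB⟩ := hφ
  have hB' : ∀ s, ‖φ s‖ + ‖fderiv ℝ φ s‖ ≤ B := fun s =>
    (le_mul_of_one_le_right (by positivity)
      (one_le_pow₀ (le_add_of_nonneg_right (norm_nonneg s)))).trans (hB s)
  have hB0 : 0 ≤ B := le_trans (by positivity) (hB' 0)
  obtain ⟨C, hC, h⟩ := obs_aux k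
  obtain ⟨C', hC', h'⟩ := CObs_obs0 k
  have hΛ0 : 0 < Λ := by linarith
  refine ⟨(1 + C' + C) * Λ * B, fun Z => ?_⟩
  obtain ⟨h1, -, -, h2⟩ := h Z
  have h3 := h' φ Z
  have hN := nJ_nonneg Z
  have hφ1 : ‖φ (svJ Z)‖ ≤ B := (le_add_of_nonneg_right (norm_nonneg _)).trans (hB' _)
  have hu : 0 < 1 + nJ Z / Λ := by positivity
  have hq : 1 + nJ Z ≤ Λ * (1 + nJ Z / Λ) := by
    rw [mul_add, mul_div_cancel₀ _ hΛ0.ne']
    linarith
  unfold obs obs'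
  generalize 1 + nJ Z / Λ = u at hu hq ⊢
  have p1 : 0 ≤ C * Λ * B := by positivity
  have p2 : 0 ≤ C' * Λ * B := by positivity
  have p3 : 0 ≤ Λ * B := by positivity
  constructor
  · have : ‖(Z 0).1 0 0 * φ (svJ Z) / (u : ℂ)‖ ≤ Λ * B := by
      rw [norm_div, norm_mul, Complex.norm_real, Real.norm_of_nonneg hu.le, div_le_iff₀ hu]
      refine (mul_le_mul (h1.trans hq) hφ1 (norm_nonneg _) (by positivity)).trans (le_of_eq ?_)
      ring
    linarith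
  · have a1 : ‖obs0' φ Z / (u : ℂ)‖ ≤ C' * Λ * B := by
      rw [norm_div, Complex.norm_real, Real.norm_of_nonneg hu.le, div_le_iff₀ hu]
      refine (h3.trans (mul_le_mul (mul_le_mul_of_nonneg_left hq hC') (hB' _) (by positivity)
        (by positivity))).trans (le_of_eq ?_)
      ring
    have a2 : ‖(Z 0).1 0 0 * φ (svJ Z) * ((nJ' Z / Λ / u ^ 2 : ℝ) : ℂ)‖ ≤ C * Λ * B := by
      rw [norm_mul, norm_mul, Complex.norm_real, Real.norm_eq_abs, abs_div, abs_div,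
        abs_of_pos hΛ0, abs_of_pos (pow_pos hu 2), div_div, ← mul_div_assoc,
        div_le_iff₀ (by positivity), mul_right_comm]
      have a3 : C * (1 + nJ Z) ^ 2 ≤ C * (Λ * u) ^ 2 := by gcongr
      refine (mul_le_mul (h2.trans a3) hφ1 (norm_nonneg _) (by positivity)).trans (le_of_eq ?_)
      ring
    refine (norm_sub_le _ _).trans ?_
    linarith

theorem norm_obs0'_le (k : ℕ) : ∃ C : ℝ, 0 ≤ C ∧ ∀ (φ : (Fin k → ℂ) → ℂ) (Z : Fin (k + 1) → Jet 2),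
    ‖obs0' φ Z‖ ≤ C * (1 + nJ Z) * (‖φ (svJ Z)‖ + ‖fderiv ℝ φ (svJ Z)‖) :=
  CObs_obs0 k

/-- `|1/(1+u) - 1| ≤ u` -/
theorem norm_obs'_sub_le (k : ℕ) : ∃ C : ℝ, 0 ≤ C ∧ ∀ (φ : (Fin k → ℂ) → ℂ) (Λ : ℝ), 0 < Λ →
    ∀ Z : Fin (k + 1) → Jet 2, ‖obs' φ Λ Z - obs0' φ Z‖ ≤
      C / Λ * (1 + nJ Z) ^ 2 * (‖φ (svJ Z)‖ + ‖fderiv ℝ φ (svJ Z)‖) := by
  obtain ⟨C, hC, h⟩ := obs_aux k
  obtain ⟨C', hC', h'⟩ := CObs_obs0 k
  refine ⟨C' + C, by positivity, fun φ Λ hΛ Z => ?_⟩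
  obtain ⟨-, -, -, h2⟩ := h Z
  have h3 := h' φ Z
  have hN := nJ_nonneg Z
  have hv : 0 ≤ nJ Z / Λ := by positivity
  have hq : nJ Z / Λ ≤ (1 + nJ Z) / Λ := by gcongr; linarith
  have hφ1 : ‖φ (svJ Z)‖ ≤ ‖φ (svJ Z)‖ + ‖fderiv ℝ φ (svJ Z)‖ :=
    le_add_of_nonneg_right (norm_nonneg _)
  have hA : 0 ≤ ‖φ (svJ Z)‖ + ‖fderiv ℝ φ (svJ Z)‖ := by positivity
  unfold obs'
  generalize ‖φ (svJ Z)‖ + ‖fderiv ℝ φ (svJ Z)‖ = A at h3 hφ1 hA ⊢
  generalize nJ Z / Λ = v at hv hq ⊢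
  have hu : 0 < 1 + v := by positivity
  have a1 : ‖obs0' φ Z / ((1 + v : ℝ) : ℂ) - obs0' φ Z‖ ≤ C' / Λ * (1 + nJ Z) ^ 2 * A := by
    have e : obs0' φ Z / ((1 + v : ℝ) : ℂ) - obs0' φ Z
        = - (obs0' φ Z * ((v / (1 + v) : ℝ) : ℂ)) := by
      have : ((1 + v : ℝ) : ℂ) ≠ 0 := Complex.ofReal_ne_zero.2 hu.ne'
      rw [Complex.ofReal_div]
      field_simp
      push_cast
      ring
    have b : v / (1 + v) ≤ (1 + nJ Z) / Λ := (div_le_self hv (by linarith)).trans hq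
    rw [e, norm_neg, norm_mul, Complex.norm_real, Real.norm_of_nonneg (by positivity)]
    refine (mul_le_mul h3 b (by positivity) (by positivity)).trans (le_of_eq ?_)
    ring
  have a2 : ‖(Z 0).1 0 0 * φ (svJ Z) * ((nJ' Z / Λ / (1 + v) ^ 2 : ℝ) : ℂ)‖
      ≤ C / Λ * (1 + nJ Z) ^ 2 * A := by
    have b : |nJ' Z / Λ / (1 + v) ^ 2| ≤ |nJ' Z| / Λ := by
      rw [abs_div, abs_div, abs_of_pos hΛ, abs_of_pos (pow_pos hu 2)]
      exact div_le_self (by positivity) (one_le_pow₀ (by linarith))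
    rw [norm_mul, norm_mul, Complex.norm_real, Real.norm_eq_abs]
    refine (mul_le_mul_of_nonneg_left b (by positivity)).trans ?_
    rw [← mul_div_assoc, mul_right_comm]
    refine (div_le_div_of_nonneg_right
      (mul_le_mul h2 hφ1 (norm_nonneg _) (by positivity)) hΛ.le).trans (le_of_eq ?_)
    ring
  rw [sub_right_comm]
  refine ((norm_sub_le _ _).trans (add_le_add a1 a2)).trans (le_of_eq ?_)
  ring

end

end Crest.Agent.R166
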