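import Crest.Agent.R166.C.Flow

/-! # Row 166, part C: the cut-off observable -/

set_option autoImplicit false
set_option linter.unusedVariables false
set_option linter.unusedSectionVars false

open MeasureTheory ProbabilityTheory Filter Topology Matrix
open scoped ENNReal BoundedContinuousFunction ComplexConjugate

namespace Crest.Agent.R166

noncomputable section

variable {k : ℕ} {φ : (Fin k → ℂ) → ℂ}

theorem nJ_nonneg {k : ℕ} (Z : Fin k → Jet 2) : 0 ≤ nJ Z := by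
  unfold nJ
  exact Finset.sum_nonneg fun j _ => Finset.sum_nonneg fun b _ => Finset.sum_nonneg fun c _ =>
    add_nonneg (Complex.normSq_nonneg _) (Complex.normSq_nonneg _)

theorem CObs0_normSq {f : ℝ → ℂ} {f' : ℂ} {x : ℝ} (hf : HasDerivAt f f' x) :
    HasDerivAt (fun ψ => Complex.normSq (f ψ)) (2 * (conj (f x) * f').re) x := by
  have h1 : HasDerivAt (fun ψ => (f ψ).re) f'.re x := Complex.reCLM.hasFDerivAt.comp_hasDerivAt x hf
  have h2 : HasDerivAt (fun ψ => (f ψ).im) f'.im x := Complex.imCLM.hasFDerivAt.comp_hasDerivAt x hf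
  simp only [Complex.normSq_apply]
  refine ((h1.fun_mul h1).fun_add (h2.fun_mul h2)).congr_deriv ?_
  simp only [Complex.mul_re, Complex.conj_re, Complex.conj_im]
  ring

theorem CObs0_den_pos {k : ℕ} {Λ : ℝ} (hΛ : 0 < Λ) (Z : Fin k → Jet 2) : 0 < 1 + nJ Z / Λ := by
  have := nJ_nonneg Z
  positivity

theorem CObs0_curve (hφ : ContDiff ℝ 1 φ) {Λ : ℝ} (hΛ : 0 < Λ) (γ : ℝ → Fin (k + 1) → Jet 2)
    (Z : Fin (k + 1) → Jet 2) (h0 : γ 0 = Z)
    (hγ : ∀ j, HasDerivAt (fun ψ => γ ψ j) (flowV (Z j)) 0) :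
    HasDerivAt (fun ψ : ℝ => obs φ Λ (γ ψ)) (obs' φ Λ Z) 0 := by
  have h1 : ∀ j b c, HasDerivAt (fun ψ => (γ ψ j).1 b c) ((flowV (Z j)).1 b c) 0 := fun j b c =>
    hasDerivAt_pi.1 (hasDerivAt_pi.1
      ((ContinuousLinearMap.fst ℝ _ _).hasFDerivAt.comp_hasDerivAt 0 (hγ j)) b) c
  have h2' : ∀ j, HasDerivAt (fun ψ => (γ ψ j).2) ((flowV (Z j)).2) 0 := fun j =>
    (ContinuousLinearMap.snd ℝ (Fin 2 → Fin 2 → ℂ) ((Fin 2 → Fin 2 → ℂ) × ℂ)).hasFDerivAt.comp_hasDerivAt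
      0 (hγ j)
  have h2 : ∀ j b c, HasDerivAt (fun ψ => (γ ψ j).2.1 b c) ((flowV (Z j)).2.1 b c) 0 :=
    fun j b c => hasDerivAt_pi.1 (hasDerivAt_pi.1
      ((ContinuousLinearMap.fst ℝ _ _).hasFDerivAt.comp_hasDerivAt 0 (h2' j)) b) c
  have h3 : ∀ j, HasDerivAt (fun ψ => (γ ψ j).2.2) ((flowV (Z j)).2.2) 0 := fun j =>
    (ContinuousLinearMap.snd ℝ (Fin 2 → Fin 2 → ℂ) ℂ).hasFDerivAt.comp_hasDerivAt 0 (h2' j)
  have hs : HasDerivAt (fun ψ => svJ (γ ψ)) (fun j => (flowV (Z j.succ)).2.2) 0 :=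
    hasDerivAt_pi.2 fun j => h3 j.succ
  have hφ' : HasDerivAt (fun ψ => φ (svJ (γ ψ)))
      (fderiv ℝ φ (svJ Z) fun j => (flowV (Z j.succ)).2.2) 0 := by
    have hd : HasFDerivAt φ (fderiv ℝ φ (svJ Z)) (svJ (γ 0)) := by
      rw [h0]; exact (hφ.differentiable one_ne_zero _).hasFDerivAt
    exact hd.comp_hasDerivAt 0 hs
  have hn : HasDerivAt (fun ψ => nJ (γ ψ)) (nJ' Z) 0 := by
    unfold nJ nJ'
    refine HasDerivAt.fun_sum fun j _ => HasDerivAt.fun_sum fun b _ =>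
      HasDerivAt.fun_sum fun c _ => ?_
    refine ((CObs0_normSq (h1 j b c)).fun_add (CObs0_normSq (h2 j b c))).congr_deriv ?_
    rw [h0]; ring
  have hden : HasDerivAt (fun ψ => ((1 + nJ (γ ψ) / Λ : ℝ) : ℂ)) ((nJ' Z / Λ : ℝ) : ℂ) 0 :=
    ((hn.div_const Λ).const_add 1).ofReal_comp
  have hne : ((1 + nJ Z / Λ : ℝ) : ℂ) ≠ 0 := Complex.ofReal_ne_zero.2 (CObs0_den_pos hΛ Z).ne'
  unfold obs
  refine (((h1 0 0 0).fun_mul hφ').fun_div hden (by rw [h0]; exact hne)).congr_deriv ?_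
  rw [h0]
  unfold obs' obs0'
  rw [Complex.ofReal_div (nJ' Z / Λ), Complex.ofReal_pow]
  field_simp

/-- Plan: `hasDerivAt_mob_rotD` for every `j`, composed with the coordinate projections; chain rule for `φ`
(`HasFDerivAt.comp_hasDerivAt`, `mob (rotD 0 0) Z = Z`), `normSq z = z.re² + z.im²`, quotient rule. -/
theorem hasDerivAt_obs (hφ : ContDiff ℝ 1 φ) {Λ : ℝ} (hΛ : 0 < Λ) (Z : Fin (k + 1) → Jet 2) :
    HasDerivAt (fun ψ : ℝ => obs φ Λ fun j => mob (rotD 0 ψ) (Z j)) (obs' φ Λ Z) 0 := by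
  refine CObs0_curve hφ hΛ (fun ψ j => mob (rotD 0 ψ) (Z j)) Z ?_ fun j => hasDerivAt_mob_rotD (Z j)
  funext j
  simp only [rotD_zero, mob_one]

theorem CObs0_cont_nJ {k : ℕ} : Continuous (nJ (k := k)) := by
  unfold nJ
  fun_prop

theorem CObs0_cont_flowV : Continuous flowV := by
  unfold flowV
  fun_prop

theorem CObs0_cont_nJ' {k : ℕ} : Continuous (nJ' (k := k)) := by
  have := CObs0_cont_flowV
  unfold nJ'
  fun_prop

theorem CObs0_cont_svJ {k : ℕ} : Continuous (svJ (k := k)) := by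
  unfold svJ
  fun_prop

theorem continuous_obs (hφ : ContDiff ℝ 1 φ) {Λ : ℝ} (hΛ : 0 < Λ) : Continuous (obs φ Λ) := by
  have h1 := hφ.continuous
  have h2 := CObs0_cont_nJ (k := k + 1)
  have h3 := CObs0_cont_svJ (k := k)
  unfold obs
  refine Continuous.div (by fun_prop) (by fun_prop) fun Z => ?_
  exact Complex.ofReal_ne_zero.2 (CObs0_den_pos hΛ Z).ne'

theorem continuous_obs0' (hφ : ContDiff ℝ 1 φ) : Continuous (obs0' φ) := by
  have h1 := hφ.continuous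
  have h2 : Continuous (fderiv ℝ φ) := hφ.continuous_fderiv one_ne_zero
  have h3 := CObs0_cont_svJ (k := k)
  have h4 := CObs0_cont_flowV
  unfold obs0'
  refine Continuous.add (by fun_prop) (Continuous.mul (by fun_prop) ?_)
  exact (h2.comp h3).clm_apply (by fun_prop)

theorem continuous_obs' (hφ : ContDiff ℝ 1 φ) {Λ : ℝ} (hΛ : 0 < Λ) : Continuous (obs' φ Λ) := by
  have h1 := hφ.continuous
  have h2 := CObs0_cont_nJ (k := k + 1)
  have h2' := CObs0_cont_nJ' (k := k + 1)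
  have h3 := CObs0_cont_svJ (k := k)
  have h4 := continuous_obs0' hφ
  unfold obs'
  refine Continuous.sub (Continuous.div h4 (by fun_prop) fun Z => ?_)
    (Continuous.mul (by fun_prop) (Complex.continuous_ofReal.comp
      (Continuous.div (by fun_prop) (by fun_prop) fun Z => ?_)))
  · exact Complex.ofReal_ne_zero.2 (CObs0_den_pos hΛ Z).ne'
  · exact pow_ne_zero _ (CObs0_den_pos hΛ Z).ne'

end

end Crest.Agent.R166
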