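import Crest.Agent.R166.C.Restr0

/-! # Row 166, part C: restriction to fewer channels, rank-one steps -/

set_option autoImplicit false
set_option linter.unusedVariables false
set_option linter.unusedSectionVars false

open MeasureTheory ProbabilityTheory Filter Topology Matrix
open scoped ENNReal BoundedContinuousFunction ComplexConjugate

namespace Crest.Agent.R166

noncomputable section

/-- Plan: `j` is the identity except for row `0`, which is `cos ψ (δ_{0c} + κ M_{0c})`, `κ = -tan ψ/π`; its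
inverse is explicit: `j⁻¹ 0 0 = 1/(cos ψ (1 + κ M₀₀))`, `j⁻¹ 0 c = -κ M_{0c}/(1 + κ M₀₀)` for `c ≠ 0`, other rows
are rows of the identity (`Matrix.inv_eq_right_inv`, `Mob3_ne`, `Fin.sum_univ_succ`); use the symmetry of `M`. -/
theorem restr_mob_step {r : ℕ} {ψ : ℝ} (hc : Real.cos ψ ≠ 0) {Z : Jet (r + 1)}
    (hZ : Z ∈ Sieg (r + 1)) :
    restr Fin.succ (mob (rotQ fun b => if b = 0 then ψ else 0) Z)
      = stepJ (-(Real.tan ψ / Real.pi)) Z := by
  have hd := Mob3_ne (-(Real.tan ψ / Real.pi)) hZ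
  obtain ⟨κ, hκ⟩ : ∃ κ : ℝ, κ = -(Real.tan ψ / Real.pi) := ⟨_, rfl⟩
  rw [← hκ] at hd ⊢
  have hc' : (Real.cos ψ : ℂ) ≠ 0 := Complex.ofReal_ne_zero.2 hc
  have hs : -(Real.sin ψ / Real.pi) = Real.cos ψ * κ := by
    rw [hκ, Real.tan_eq_sin_div_cos]
    field_simp
  obtain ⟨q, hq⟩ : ∃ q : Quad (r + 1), q = rotQ fun b => if b = 0 then ψ else 0 := ⟨_, rfl⟩
  rw [← hq]
  have hA : cx q.A = diagonal fun b => if b = 0 then (Real.cos ψ : ℂ) else 1 := by
    ext b e
    simp only [hq, rotQ, cx, map_apply, diagonal_apply]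
    split_ifs <;> simp
  have hD : cx q.D = diagonal fun b => if b = 0 then (Real.cos ψ : ℂ) else 1 := by
    rw [← hA, hq]
    rfl
  have hB : ∀ (b : Fin r) e, cx q.B b.succ e = 0 := fun b e => by
    simp [hq, rotQ, cx, diagonal_apply]
  have hC : cx q.C = diagonal fun b => if b = 0 then (Real.cos ψ * κ : ℂ) else 0 := by
    ext b e
    rw [← Complex.ofReal_mul, ← hs]
    simp only [hq, rotQ, cx, map_apply, diagonal_apply]
    split_ifs <;> simp
  obtain ⟨J, hJ⟩ : ∃ J : Matrix (Fin (r + 1)) (Fin (r + 1)) ℂ, J = Matrix.of fun b e =>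
      if b = 0 then (if e = 0 then 1 / (Real.cos ψ * (1 + κ * Z.1 0 0))
        else -(κ * Z.1 0 e) / (1 + κ * Z.1 0 0)) else if b = e then 1 else 0 := ⟨_, rfl⟩
  have hR : ∀ (X : Matrix (Fin (r + 1)) (Fin (r + 1)) ℂ) a (e : Fin r), (X * J) a e.succ =
      X a 0 * (-(κ * Z.1 0 e.succ) / (1 + κ * Z.1 0 0)) + X a e.succ := fun X a e => by
    simp [mul_apply, Fin.sum_univ_succ, hJ]
  have hR0 : ∀ (X : Matrix (Fin (r + 1)) (Fin (r + 1)) ℂ) a, (X * J) a 0 =
      X a 0 * (1 / (Real.cos ψ * (1 + κ * Z.1 0 0))) := fun X a => by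
    simp [mul_apply, Fin.sum_univ_succ, hJ]
  have hL : ∀ (X : Matrix (Fin (r + 1)) (Fin (r + 1)) ℂ) a (e : Fin r), (Jᵀ * X) e.succ a =
      X 0 a * (-(κ * Z.1 0 e.succ) / (1 + κ * Z.1 0 0)) + X e.succ a := fun X a e => by
    have h := hR Xᵀ a e
    rwa [← transpose_apply (Xᵀ * J), transpose_mul, transpose_transpose] at h
  have hinv : (jfac q Z)⁻¹ = J := by
    refine Matrix.inv_eq_right_inv ?_
    ext b e
    refine Fin.cases ?_ (fun e => ?_) e
    · rw [hR0, jfac, hC, hD]
      refine Fin.cases ?_ (fun b => ?_) b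
      · simp only [Matrix.add_apply, diagonal_mul, of_apply, diagonal_apply_eq, if_true,
          one_apply_eq]
        field_simp
        ring
      · simp
    · rw [hR, jfac, hC, hD]
      refine Fin.cases ?_ (fun b => ?_) b
      · simp only [Matrix.add_apply, diagonal_mul, of_apply, diagonal_apply_eq, if_true,
          diagonal_apply_ne _ (Fin.succ_ne_zero e).symm, one_apply_ne (Fin.succ_ne_zero e).symm]
        field_simp
        ring
      · simp [diagonal_apply, one_apply]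
  have hsym : ∀ b, Z.1 b 0 = Z.1 0 b := fun b => hZ.1.apply 0 b
  refine Prod.ext ?_ (Prod.ext ?_ ?_)
  · funext b e
    simp only [restr, mob, stepJ, hinv, of_symm_apply, hR, hA, Matrix.add_apply, diagonal_mul,
      hB, of_apply, Fin.succ_ne_zero, if_false]
    ring
  · funext b e
    simp only [restr, mob, stepJ, hinv, of_symm_apply, hR, hL, of_apply, hsym]
    field_simp
    ring
  · simp only [restr, mob, stepJ, hinv, hC]
    rw [Matrix.mul_assoc, trace_mul_comm, trace, Fin.sum_univ_succ]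
    simp only [diag_apply, hR, hR0, diagonal_mul, of_apply, Fin.succ_ne_zero, if_false, if_true,
      zero_mul, add_zero, Finset.sum_const_zero]
    field_simp

/-- Plan: `ψ = arctan (-(π κ))`, `rotD r ψ = (rotQ (single 1 (-ψ))).mul (rotQ (single 0 ψ))` (`rotQ_mul`),
`mob_mul`, `restr (succ ∘ succ) = restr succ ∘ restr succ`, `restr_mob_rotQ` with `e = Fin.succ`,
`restr_mob_step` twice. -/
theorem step_step {r : ℕ} (κ : ℝ) {Z : Jet (r + 2)} (hZ : Z ∈ Sieg (r + 2)) :
    stepJ (-κ) (stepJ κ Z)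
      = restr (fun b : Fin r => b.succ.succ) (mob (rotD r (Real.arctan (-(Real.pi * κ)))) Z) := by
  obtain ⟨ψ, hψ⟩ : ∃ ψ, ψ = Real.arctan (-(Real.pi * κ)) := ⟨_, rfl⟩
  rw [← hψ]
  have hc : Real.cos ψ ≠ 0 := hψ ▸ (Real.cos_arctan_pos _).ne'
  have ht : -(Real.tan ψ / Real.pi) = κ := by
    rw [hψ, Real.tan_arctan]
    field_simp
  have ht' : -(Real.tan (-ψ) / Real.pi) = -κ := by rw [Real.tan_neg, ← ht]; ring
  have e1 : rotD r ψ = (rotQ fun b => if b = 1 then -ψ else 0).mul
      (rotQ fun b => if b = 0 then ψ else 0) := by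
    rw [rotQ_mul, rotD]
    congr 1
    funext b
    by_cases h : b = 0
    · simp [h]
    · simp [h]
  have hZ1 := mob_mem_Sieg (rotQ_isSymp fun b : Fin (r + 2) => if b = 0 then ψ else 0) hZ
  have e2 := restr_mob_rotQ (Fin.succ_injective (r + 1))
    (fun b : Fin (r + 2) => if b = 1 then -ψ else 0) (fun b hb => by
      rw [if_neg]
      rintro rfl
      exact hb ⟨0, rfl⟩) hZ1
  have e3 : ((fun b : Fin (r + 2) => if b = 1 then -ψ else 0) ∘ Fin.succ) =
      fun b : Fin (r + 1) => if b = 0 then -ψ else 0 := by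
    funext b
    have : b.succ = 1 ↔ b = 0 := by rw [← Fin.succ_zero_eq_one, Fin.succ_inj]
    simp only [Function.comp_apply, this]
  rw [e3, restr_mob_step hc hZ, ht] at e2
  have e4 := restr_mob_step (ψ := -ψ) (by rwa [Real.cos_neg]) (stepJ_mem_Sieg κ hZ)
  rw [ht', ← e2] at e4
  rw [e1, mob_mul (rotQ_isSymp _) (rotQ_isSymp _) hZ, ← e4]
  rfl

end

end Crest.Agent.R166
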