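import Crest.Agent.R166.C.Group

/-! # Row 166, part C: restriction to fewer channels, rank-one steps -/

set_option autoImplicit false
set_option linter.unusedVariables false
set_option linter.unusedSectionVars false

open MeasureTheory ProbabilityTheory Filter Topology Matrix
open scoped ENNReal BoundedContinuousFunction ComplexConjugate

namespace Crest.Agent.R166

noncomputable section

theorem continuous_restr {r r' : ℕ} (e : Fin r → Fin r') : Continuous (restr e) := by
  unfold restr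
  fun_prop

/-- `Matrix.PosDef.submatrix` -/
theorem restr_mem_Sieg {r r' : ℕ} {e : Fin r → Fin r'} (he : Function.Injective e) {Z : Jet r'}
    (hZ : Z ∈ Sieg r') : restr e Z ∈ Sieg r := by
  obtain ⟨h1, h2, h3⟩ := hZ
  refine ⟨?_, ?_, ?_⟩
  · ext b c; exact congrFun (congrFun h1 (e b)) (e c)
  · ext b c; exact congrFun (congrFun h2 (e b)) (e c)
  · exact h3.submatrix he

/-- `gpi_map_inj` with `Prod.map e id`, `integral_map` -/
theorem EG_restr {N r r' k : ℕ} (ν : Measure (Conf N)) {e : Fin r → Fin r'}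
    (he : Function.Injective e) {w : Fin k → ℂ} (hw : ∀ j, 0 < (w j).im)
    {φ : (Fin k → Jet r) → ℝ} (hφ : Measurable φ) :
    EG ν r' w (fun Z => φ fun j => restr e (Z j)) = EG ν r w φ := by
  unfold EG
  refine integral_congr_ae (Eventually.of_forall fun p => ?_)
  have hinj : Function.Injective (Prod.map e (id : Fin N → Fin N)) :=
    he.prodMap Function.injective_id
  have hm : Measurable fun (g : Fin r' × Fin N → ℝ) (a : Fin r × Fin N) => g (Prod.map e id a) := by
    fun_prop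
  have hc : Measurable fun g : Fin r × Fin N → ℝ => φ fun j => jetG p g (w j) := by
    refine hφ.comp (measurable_pi_lambda _ fun j => ?_)
    exact ((continuous_jetG (hw j)).comp (Continuous.prodMk_right p)).measurable
  show ∫ g, _ ∂_ = ∫ g, _ ∂_
  rw [← gpi_map_inj (Prod.map e (id : Fin N → Fin N)) hinj, integral_map hm.aemeasurable
    hc.aestronglyMeasurable]
  refine integral_congr_ae (Eventually.of_forall fun g => ?_)
  show φ _ = φ _
  congr 1
  funext j
  simp only [restr, jetG, jetV, Prod.map, id, he.eq_iff]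

/-- inclusion matrix -/
def rsE {r r' : ℕ} (e : Fin r → Fin r') : Matrix (Fin r') (Fin r) ℂ :=
  (1 : Matrix (Fin r') (Fin r') ℂ).submatrix id e

theorem rsE_conj {r r' : ℕ} (e : Fin r → Fin r') (X : Matrix (Fin r') (Fin r') ℂ) :
    (rsE e)ᵀ * X * rsE e = X.submatrix e e := by
  ext b c
  simp [rsE, Matrix.mul_apply, Matrix.one_apply]

theorem rsE_diag {r r' : ℕ} {e : Fin r → Fin r'} (he : Function.Injective e) (d : Fin r' → ℝ) :
    cx (diagonal d) * rsE e = rsE e * cx (diagonal fun a => d (e a)) := by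
  ext b c
  simp only [rsE, Matrix.mul_apply, Matrix.one_apply, cx_apply, Matrix.submatrix_apply, id,
    Matrix.diagonal_apply]
  rw [Finset.sum_eq_single (e c), Finset.sum_eq_single c]
  · by_cases h : b = e c <;> simp [h]
  · intro a _ ha; simp [ha]
  · simp
  · intro a _ ha; simp [ha]
  · simp

theorem rsE_diagT {r r' : ℕ} {e : Fin r → Fin r'} (he : Function.Injective e) (d : Fin r' → ℝ) :
    (rsE e)ᵀ * cx (diagonal d) = cx (diagonal fun a => d (e a)) * (rsE e)ᵀ := by
  have := congrArg Matrix.transpose (rsE_diag he d)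
  simpa only [Matrix.transpose_mul, ← cx_transpose, diagonal_transpose] using this

theorem rsE_supp {r r' : ℕ} {e : Fin r → Fin r'} (he : Function.Injective e) (d : Fin r' → ℝ)
    (hd : ∀ b, b ∉ Set.range e → d b = 0) :
    cx (diagonal d) = rsE e * cx (diagonal fun a => d (e a)) * (rsE e)ᵀ := by
  rw [← rsE_diag he]
  ext b c
  by_cases hb : b ∈ Set.range e
  · obtain ⟨a, rfl⟩ := hb
    simp only [rsE, Matrix.mul_apply, Matrix.one_apply, cx_apply, Matrix.submatrix_apply, id,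
      Matrix.diagonal_apply, Matrix.transpose_apply]
    rw [Finset.sum_eq_single a]
    · rw [Finset.sum_eq_single (e a)]
      · by_cases h : c = e a
        · simp [h]
        · simp [h, Ne.symm h]
      · intro x _ hx; simp [hx]
      · simp
    · intro x _ hx
      rw [Finset.sum_eq_single (e a)]
      · simp [he.eq_iff, Ne.symm hx]
      · intro y _ hy; simp [Ne.symm hy]
      · simp
    · simp
  · have h0 : ∀ x, cx (diagonal d) b x = 0 := by
      intro x
      by_cases h : b = x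
      · subst h; simp [hd b hb]
      · simp [h]
    simp only [Matrix.mul_apply, h0, zero_mul, Finset.sum_const_zero]

theorem rsE_orth {r r' : ℕ} {e : Fin r → Fin r'} (he : Function.Injective e) :
    (rsE e)ᵀ * rsE e = 1 := by
  have := rsE_conj e 1
  rw [Matrix.mul_one] at this
  rw [this, Matrix.submatrix_one _ he]

/-- Plan: `j = jfac (rotQ θ) Z` has entries `-(sin θ_b/π) M_{bc} + cos θ_b δ_{bc}`; its rows off the range of `e`
are rows of the identity.  Put `E = (1 : Matrix _ _ ℂ).submatrix id e` (the `r' × r` inclusion matrix),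
`j₀ = jfac (rotQ (θ ∘ e)) (restr e Z) = Eᵀ j E`; then `j E = E j₀`, hence `j⁻¹ E = E j₀⁻¹` (both determinants are
units by `jfac_isUnit`), and `C = E C₀ Eᵀ`; the three components follow (`trace_mul_comm`). -/
theorem restr_mob_rotQ {r r' : ℕ} {e : Fin r → Fin r'} (he : Function.Injective e)
    (θ : Fin r' → ℝ) (hθ : ∀ b, b ∉ Set.range e → θ b = 0) {Z : Jet r'} (hZ : Z ∈ Sieg r') :
    restr e (mob (rotQ θ) Z) = mob (rotQ (θ ∘ e)) (restr e Z) := by
  set E := rsE e with hE
  set j := jfac (rotQ θ) Z with hj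
  set j₀ := jfac (rotQ (θ ∘ e)) (restr e Z) with hj₀
  have hu : IsUnit j.det := jfac_isUnit (rotQ_isSymp θ) hZ
  have hu₀ : IsUnit j₀.det := jfac_isUnit (rotQ_isSymp _) (restr_mem_Sieg he hZ)
  have hM : Matrix.of (restr e Z).1 = Eᵀ * Matrix.of Z.1 * E := by rw [rsE_conj]; rfl
  have hM' : Matrix.of (restr e Z).2.1 = Eᵀ * Matrix.of Z.2.1 * E := by rw [rsE_conj]; rfl
  have hC : cx (rotQ θ).C = E * cx (rotQ (θ ∘ e)).C * Eᵀ :=
    rsE_supp he _ fun b hb => by simp [hθ b hb]
  have hD : cx (rotQ θ).D * E = E * cx (rotQ (θ ∘ e)).D := rsE_diag he _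
  have hA : Eᵀ * cx (rotQ θ).A = cx (rotQ (θ ∘ e)).A * Eᵀ := rsE_diagT he _
  have hB : Eᵀ * cx (rotQ θ).B = cx (rotQ (θ ∘ e)).B * Eᵀ := rsE_diagT he _
  have hEE : Eᵀ * E = 1 := rsE_orth he
  have hjE : j * E = E * j₀ := by
    rw [hj, hj₀, jfac, jfac, Matrix.add_mul, Matrix.mul_add, hD, hC, hM]
    simp only [Matrix.mul_assoc]
  have hinv : j⁻¹ * E = E * j₀⁻¹ := by
    calc j⁻¹ * E = j⁻¹ * E * (j₀ * j₀⁻¹) := by rw [Matrix.mul_nonsing_inv _ hu₀, Matrix.mul_one]
      _ = j⁻¹ * (E * j₀) * j₀⁻¹ := by simp only [Matrix.mul_assoc]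
      _ = (j⁻¹ * j) * E * j₀⁻¹ := by rw [← hjE]; simp only [Matrix.mul_assoc]
      _ = E * j₀⁻¹ := by rw [Matrix.nonsing_inv_mul _ hu, Matrix.one_mul]
  refine Prod.ext ?_ (Prod.ext ?_ ?_)
  · have h1 : ((cx (rotQ θ).A * Matrix.of Z.1 + cx (rotQ θ).B) * j⁻¹).submatrix e e =
        (cx (rotQ (θ ∘ e)).A * Matrix.of (restr e Z).1 + cx (rotQ (θ ∘ e)).B) * j₀⁻¹ := by
      rw [← rsE_conj, ← hE, Matrix.mul_assoc, Matrix.mul_assoc, hinv, hM, ← Matrix.mul_assoc,
        ← Matrix.mul_assoc, Matrix.mul_add, ← Matrix.mul_assoc, hA, hB, Matrix.add_mul,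
        Matrix.mul_assoc (cx (rotQ (θ ∘ e)).B), hEE, Matrix.mul_one]
      simp only [Matrix.mul_assoc]
    funext b c
    exact congrFun (congrFun h1 b) c
  · have h1 : ((j⁻¹)ᵀ * Matrix.of Z.2.1 * j⁻¹).submatrix e e =
        (j₀⁻¹)ᵀ * Matrix.of (restr e Z).2.1 * j₀⁻¹ := by
      have h2 : Eᵀ * (j⁻¹)ᵀ = (j₀⁻¹)ᵀ * Eᵀ := by
        rw [← Matrix.transpose_mul, hinv, Matrix.transpose_mul]
      rw [← rsE_conj, ← hE, hM']
      calc Eᵀ * ((j⁻¹)ᵀ * Matrix.of Z.2.1 * j⁻¹) * E
          = (Eᵀ * (j⁻¹)ᵀ) * Matrix.of Z.2.1 * (j⁻¹ * E) := by simp only [Matrix.mul_assoc]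
        _ = _ := by rw [h2, hinv]; simp only [Matrix.mul_assoc]
    funext b c
    exact congrFun (congrFun h1 b) c
  · show Z.2.2 - Matrix.trace (j⁻¹ * cx (rotQ θ).C * Matrix.of Z.2.1) =
      Z.2.2 - Matrix.trace (j₀⁻¹ * cx (rotQ (θ ∘ e)).C * Matrix.of (restr e Z).2.1)
    congr 1
    rw [hC, hM']
    calc Matrix.trace (j⁻¹ * (E * cx (rotQ (θ ∘ e)).C * Eᵀ) * Matrix.of Z.2.1)
        = Matrix.trace ((j⁻¹ * E) * (cx (rotQ (θ ∘ e)).C * Eᵀ * Matrix.of Z.2.1)) := by
          simp only [Matrix.mul_assoc]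
      _ = Matrix.trace (E * (j₀⁻¹ * (cx (rotQ (θ ∘ e)).C * Eᵀ * Matrix.of Z.2.1))) := by
          rw [hinv, Matrix.mul_assoc]
      _ = _ := by rw [Matrix.trace_mul_comm]; simp only [Matrix.mul_assoc]

end

end Crest.Agent.R166
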