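import Crest.Agent.R166.C.Inv
import Crest.Agent.R166.C.Restr

/-! # Row 166, part C: invariance under all rotD, stationarity -/

set_option autoImplicit false
set_option linter.unusedVariables false
set_option linter.unusedSectionVars false

open MeasureTheory ProbabilityTheory Filter Topology Matrix
open scoped ENNReal BoundedContinuousFunction ComplexConjugate

namespace Crest.Agent.R166

noncomputable section

variable {ι : Type} {F : Filter ι} {n : ι → ℕ} {μ : ∀ i, Measure (Conf (n i))}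

theorem CStat_bcl (κ : ℝ) (T : ℕ) {k : ℕ} (f : (Fin k → ℂ) →ᵇ ℝ) :
    Bcl fun Z : Fin k → Jet (ch T) => f fun j => chainJ κ T (Z j) :=
  ⟨f.continuous.measurable.comp (measurable_pi_lambda _ fun j =>
      (measurable_chainJ κ T).comp (measurable_pi_apply j)),
    ⟨‖f‖, fun Z => f.norm_coe_le_norm _⟩,
    f.continuous.comp_continuousOn (continuousOn_pi.2 fun j =>
      (continuousOn_chainJ κ T).comp (continuous_apply j).continuousOn fun Z hZ => hZ j)⟩

theorem Bcl.comp_restr {r r' k : ℕ} {φ : (Fin k → Jet r) → ℝ} (hφ : Bcl φ) {e : Fin r → Fin r'}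
    (he : Function.Injective e) : Bcl fun Z : Fin k → Jet r' => φ fun j => restr e (Z j) := by
  obtain ⟨C, hC⟩ := hφ.bdd
  have hc : Continuous fun (Z : Fin k → Jet r') j => restr e (Z j) :=
    continuous_pi fun j => (continuous_restr e).comp (continuous_apply j)
  have hm : Measurable (restr e) := by
    unfold restr
    fun_prop
  exact ⟨hφ.meas.comp (measurable_pi_lambda _ fun j => hm.comp (measurable_pi_apply j)), ⟨C, fun Z => hC _⟩,
    hφ.cont.comp hc.continuousOn fun Z hZ j => restr_mem_Sieg he (hZ j)⟩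

/-- `EG_restr` (twice), `restr_mob_rotQ` on `SiegK`, `EG_congr_Sieg` -/
theorem InvQ.restr (hf : IsFam n μ) (ht : TightS F n μ) {r r' : ℕ} {e : Fin r → Fin r'}
    (he : Function.Injective e) (θ : Fin r' → ℝ) (hθ : ∀ b, b ∉ Set.range e → θ b = 0)
    (h : InvQ F n μ r' (rotQ θ)) : InvQ F n μ r (rotQ (θ ∘ e)) := by
  refine ⟨rotQ_isSymp _, fun k w hw φ hφ => ?_⟩
  obtain ⟨C, hC⟩ := hφ.bdd
  have b1 := hφ.comp_mob (rotQ_isSymp (θ ∘ e))
  have t1 := h.2 k w hw _ (hφ.comp_restr he)
  have t2 := EG_congr_Sieg hf ht hw (b1.comp_restr he).meas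
    ((hφ.comp_restr he).comp_mob (rotQ_isSymp θ)).meas (fun Z => hC _) (fun Z => hC _)
    fun Z hZ => by simp only [fun j => restr_mob_rotQ he θ hθ (hZ j)]
  have t3 := t2.add t1
  rw [add_zero] at t3
  refine t3.congr fun i => ?_
  rw [EG_restr (μ i) he hw hφ.meas, EG_restr (μ i) he hw b1.meas]
  ring

/-- Plan: `H1` with `r₀ = r + 1`, `inv_of_testFn`, `group_rotD` with `P = InvQ F n μ _`, then
`InvQ.restr` along `Fin.castLE`. -/
theorem inv_rotD (hf : IsFam n μ) (ht : TightS F n μ) {θ : ℝ} (hθ : Real.sin θ ≠ 0)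
    (h1 : H1 F n μ θ) (r : ℕ) (ψ : ℝ) : InvQ F n μ (r + 2) (rotD r ψ) := by
  obtain ⟨r', hr', h⟩ := h1 (r + 1)
  obtain ⟨s, rfl⟩ : ∃ s, r' = s + 1 := ⟨r' - 1, by omega⟩
  have k1 : InvQ F n μ (s + 1 + 2) (rotD (s + 1) ψ) :=
    group_rotD s (InvQ F n μ (s + 1 + 2)) (fun q q' => InvQ.mul hf ht) (fun O => inv_orth) hθ
      (inv_of_testFn hf ht (rotQ_isSymp _) h) ψ
  have hle : r + 2 ≤ s + 1 + 2 := by omega
  have e0 : ∀ b : Fin (r + 2), Fin.castLE hle b = 0 ↔ b = 0 := fun b => by
    simp only [Fin.ext_iff, Fin.val_castLE, Fin.val_zero]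
  have e1 : ∀ b : Fin (r + 2), Fin.castLE hle b = 1 ↔ b = 1 := fun b => by
    simp only [Fin.ext_iff, Fin.val_castLE, Fin.val_one]
  have k2 := InvQ.restr hf ht (Fin.castLE_injective hle) _ (fun b hb => by
    rw [if_neg fun e => hb ⟨0, ((e0 0).2 rfl).trans e.symm⟩,
      if_neg fun e => hb ⟨1, ((e1 1).2 rfl).trans e.symm⟩]) k1
  have e : rotD r ψ = rotQ ((fun b : Fin (s + 1 + 2) =>
      if b = 0 then ψ else if b = 1 then -ψ else 0) ∘ Fin.castLE hle) := by
    unfold rotD
    congr 1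
    funext b
    simp only [Function.comp, e0, e1]
  rw [e]
  exact k2

/-- Plan: induction on `T`.  `T = 0`: the inner integral is constant.  Step: `Φ = f ∘ chainJ κ T` is `Bcl`
(`continuousOn_chainJ`, `measurable_chainJ`); on `SiegK`, `f ∘ chainJ κ (T+1) = Φ ∘ restr ∘ mob (rotD ..)`
(`step_step`); `EG_congr_Sieg`, invariance, `EG_restr`. -/
theorem statS_of_inv (hf : IsFam n μ) (ht : TightS F n μ)
    (hinv : ∀ r ψ, InvQ F n μ (r + 2) (rotD r ψ)) (κ : ℝ) : StatS F n μ κ := by
  intro T k w hw f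
  induction T with
  | zero =>
    refine tendsto_const_nhds.congr fun i => ?_
    simp [EG, chainJ, jetG, jetV]
  | succ T ih =>
    have he : Function.Injective fun b : Fin (ch T) => b.succ.succ :=
      (Fin.succ_injective _).comp (Fin.succ_injective _)
    have b1 := (CStat_bcl κ T f).comp_restr he
    have hi := hinv (ch T) (Real.arctan (-(Real.pi * κ)))
    have t1 := hi.2 k w hw _ b1
    have t2 := EG_congr_Sieg hf ht hw (CStat_bcl κ (T + 1) f).meas (b1.comp_mob hi.1).meas
      (fun Z => f.norm_coe_le_norm _) (fun Z => f.norm_coe_le_norm _) fun Z hZ => by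
        congr 1
        funext j
        exact congrArg (chainJ κ T) (step_step κ (hZ j))
    have t3 := (t2.add t1).add ih
    rw [add_zero, add_zero] at t3
    refine t3.congr fun i => ?_
    rw [EG_restr (μ i) he hw (CStat_bcl κ T f).meas]
    exact (fun a b c d : ℝ => (by ring : a - b + (b - c) + (c - d) = a - d)) _ _ _ _

end

end Crest.Agent.R166
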