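import Crest.Agent.R166.C.TestT0

/-! # Row 166, part C: the test function for the moment bounds -/

set_option autoImplicit false
set_option linter.unusedVariables false
set_option linter.unusedSectionVars false

open MeasureTheory ProbabilityTheory Filter Topology Matrix
open scoped ENNReal BoundedContinuousFunction ComplexConjugate

namespace Crest.Agent.R166

noncomputable section

theorem CTestT_norm (m : ℕ) {Λ : ℝ} (hΛ : 0 < Λ) (s : ℂ) :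
    ‖tfT m Λ s‖ = ‖(Real.pi : ℂ) ^ 2 + s ^ 2‖ / (‖s‖ ^ 2 + Real.pi ^ 2) *
      ((‖s - Real.pi * Complex.I‖ ^ 2) ^ m * chiT m Λ s) := by
  have h := (chiT_pos m hΛ s).1
  rw [tfT, norm_mul, norm_div, Complex.norm_conj, Complex.norm_real, Complex.norm_real,
    Real.norm_of_nonneg (by positivity), Real.norm_of_nonneg (by positivity)]

theorem CTestT_fac (s : ℂ) :
    (Real.pi : ℂ) ^ 2 + s ^ 2 = (s - Real.pi * Complex.I) * (s + Real.pi * Complex.I) := by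
  linear_combination (Real.pi : ℂ) ^ 2 * Complex.I_sq

theorem CTestT_pi : ‖(Real.pi : ℂ) * Complex.I‖ = Real.pi := by
  simp [Real.pi_pos.le]

theorem CTestT_fderiv (m : ℕ) {Λ : ℝ} (hΛ : 0 < Λ) (v u : Fin (0 + 1) → ℂ) :
    fderiv ℝ (fun v : Fin (0 + 1) → ℂ => tfT m Λ (v 0)) v u = fderiv ℝ (tfT m Λ) (v 0) (u 0) := by
  have h0 : HasFDerivAt (𝕜 := ℝ) (fun v : Fin (0 + 1) → ℂ => v 0) (ContinuousLinearMap.proj 0) v :=
    hasFDerivAt_apply 0 v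
  have h1 := HasFDerivAt.comp (g := tfT m Λ) v
    ((contDiff_tfT m hΛ).differentiable one_ne_zero (v 0)).hasFDerivAt h0
  exact congrArg (fun L : (Fin (0 + 1) → ℂ) →L[ℝ] ℂ => L u) h1.fderiv

theorem CTestT_theta (m : ℕ) {Λ : ℝ} (hΛ : 0 < Λ) (s : ℂ) :
    (‖s - Real.pi * Complex.I‖ ^ 2) ^ m * chiT m Λ s * (1 + ‖s‖) ^ 4 ≤
      Λ ^ m * (2 * (1 + Real.pi) ^ 2 + 2 * Λ) ^ 2 := by
  have hp := Real.pi_pos
  have h0 : ‖s‖ ≤ ‖s - Real.pi * Complex.I‖ + Real.pi := by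
    have := norm_add_le (s - Real.pi * Complex.I) (Real.pi * Complex.I)
    rwa [sub_add_cancel, CTestT_pi] at this
  rw [chiT]
  set t := ‖s - Real.pi * Complex.I‖ with ht
  have ht0 : 0 ≤ t := norm_nonneg _
  set q := 1 + t ^ 2 / Λ with hq
  have hq1 : 1 ≤ q := le_add_of_nonneg_right (by positivity)
  have e : Λ * q = Λ + t ^ 2 := by rw [hq]; field_simp
  have h1 : (t ^ 2) ^ m ≤ (Λ * q) ^ m := pow_le_pow_left₀ (by positivity) (by linarith) m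
  have h2 : (1 + ‖s‖) ^ 2 ≤ (2 * (1 + Real.pi) ^ 2 + 2 * Λ) * q := by
    have h3 : (1 + ‖s‖) ^ 2 ≤ ((1 + Real.pi) + t) ^ 2 :=
      pow_le_pow_left₀ (by positivity) (by linarith) 2
    have h4 : (1 + Real.pi) ^ 2 ≤ (1 + Real.pi) ^ 2 * q := le_mul_of_one_le_right (by positivity) hq1
    nlinarith [sq_nonneg (1 + Real.pi - t)]
  have h5 : (1 + ‖s‖) ^ 4 ≤ (2 * (1 + Real.pi) ^ 2 + 2 * Λ) ^ 2 * q ^ 3 := by
    calc (1 + ‖s‖) ^ 4 = ((1 + ‖s‖) ^ 2) ^ 2 := by ring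
      _ ≤ ((2 * (1 + Real.pi) ^ 2 + 2 * Λ) * q) ^ 2 := pow_le_pow_left₀ (by positivity) h2 2
      _ = (2 * (1 + Real.pi) ^ 2 + 2 * Λ) ^ 2 * q ^ 2 := mul_pow _ _ _
      _ ≤ _ := mul_le_mul_of_nonneg_left (pow_le_pow_right₀ hq1 (by norm_num)) (by positivity)
  calc _ ≤ (Λ * q) ^ m * (1 / q ^ (m + 3)) * ((2 * (1 + Real.pi) ^ 2 + 2 * Λ) ^ 2 * q ^ 3) := by
        gcongr
    _ = _ := by
        rw [mul_pow, pow_add]
        field_simp

/-- Plan: `Θ(u) (1 + ‖s‖)⁴` is bounded since `Θ(u) ≤ Λ^m (1 + u/Λ)^{-3}`; for `‖s‖ ≥ 1` use `norm_fderiv_tfT`, for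
`‖s‖ ≤ 1` continuity of `fderiv` on a compact ball; `fderiv` of `tfT ∘ (· 0)` is `fderiv tfT ∘L proj 0`, `‖v‖ = ‖v 0‖`. -/
theorem dec_tfT (m : ℕ) {Λ : ℝ} (hΛ : 0 < Λ) : Dec fun v : Fin (0 + 1) → ℂ => tfT m Λ (v 0) := by
  have hT := contDiff_tfT m hΛ
  refine ⟨hT.comp (contDiff_apply ℝ ℂ 0), ?_⟩
  have hc : Continuous fun s : ℂ => (‖tfT m Λ s‖ + ‖fderiv ℝ (tfT m Λ) s‖) * (1 + ‖s‖) ^ 4 :=
    (hT.continuous.norm.add (hT.continuous_fderiv one_ne_zero).norm).mul (by fun_prop)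
  obtain ⟨C₁, hC₁⟩ := (isCompact_closedBall (0 : ℂ) 1).exists_bound_of_continuousOn hc.continuousOn
  refine ⟨max C₁ ((1 + (4 + 3 * (2 * m + 3))) * (Λ ^ m * (2 * (1 + Real.pi) ^ 2 + 2 * Λ) ^ 2)),
    fun v => ?_⟩
  have h1 : ‖v‖ ≤ ‖v 0‖ := (pi_norm_le_iff_of_nonneg (norm_nonneg _)).2 fun j => by
    rw [Subsingleton.elim (α := Fin 1) j 0]
  have h2 : ‖fderiv ℝ (fun v : Fin (0 + 1) → ℂ => tfT m Λ (v 0)) v‖ ≤ ‖fderiv ℝ (tfT m Λ) (v 0)‖ := by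
    refine ContinuousLinearMap.opNorm_le_bound _ (norm_nonneg _) fun u => ?_
    rw [CTestT_fderiv m hΛ]
    exact (ContinuousLinearMap.le_opNorm _ _).trans
      (mul_le_mul_of_nonneg_left (norm_le_pi_norm u 0) (norm_nonneg _))
  refine le_trans (b := (‖tfT m Λ (v 0)‖ + ‖fderiv ℝ (tfT m Λ) (v 0)‖) * (1 + ‖v 0‖) ^ 4)
    (by gcongr) ?_
  generalize v 0 = s
  rcases le_total ‖s‖ 1 with h | h
  · exact ((le_abs_self _).trans (hC₁ s (by simpa using h))).trans (le_max_left _ _)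
  refine le_trans ?_ (le_max_right _ _)
  have hχ := (chiT_pos m hΛ s).1
  have h3 : ‖tfT m Λ s‖ ≤ (‖s - Real.pi * Complex.I‖ ^ 2) ^ m * chiT m Λ s := by
    rw [CTestT_norm m hΛ]
    refine mul_le_of_le_one_left (by positivity) (div_le_one_of_le₀ ?_ (by positivity))
    refine (norm_add_le _ _).trans (le_of_eq ?_)
    rw [norm_pow, norm_pow, Complex.norm_real, Real.norm_of_nonneg Real.pi_pos.le, add_comm]
  have h4 := (le_mul_of_one_le_left (norm_nonneg (fderiv ℝ (tfT m Λ) s)) h).trans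
    (norm_fderiv_tfT m hΛ s)
  refine le_trans ?_ (mul_le_mul_of_nonneg_left (CTestT_theta m hΛ s) (by positivity))
  rw [← mul_assoc]
  exact mul_le_mul_of_nonneg_right (by linarith) (by positivity)

/-- `π² + s² = (s - iπ)(s + iπ)`, `|s + iπ|² = |s|² + π² + 2π Im s` -/
theorem tfT_main (m : ℕ) {Λ : ℝ} (hΛ : 0 < Λ) {s : ℂ} (hs : 0 ≤ s.im) :
    (‖s - Real.pi * Complex.I‖ ^ 2) ^ (m + 1) * chiT m Λ s ≤
      (((Real.pi : ℂ) ^ 2 + s ^ 2) * tfT m Λ s).re := by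
  have hχ := (chiT_pos m hΛ s).1
  have hp := Real.pi_pos
  have e : ((Real.pi : ℂ) ^ 2 + s ^ 2) * tfT m Λ s =
      ((‖(Real.pi : ℂ) ^ 2 + s ^ 2‖ ^ 2 / (‖s‖ ^ 2 + Real.pi ^ 2) *
        ((‖s - Real.pi * Complex.I‖ ^ 2) ^ m * chiT m Λ s) : ℝ) : ℂ) := by
    rw [tfT, ← mul_assoc, ← mul_div_assoc, Complex.mul_conj, Complex.normSq_eq_norm_sq,
      ← Complex.ofReal_div, ← Complex.ofReal_mul]
  have e2 : ‖s + Real.pi * Complex.I‖ ^ 2 = ‖s‖ ^ 2 + Real.pi ^ 2 + 2 * Real.pi * s.im := by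
    rw [← Complex.normSq_eq_norm_sq, ← Complex.normSq_eq_norm_sq, Complex.normSq_apply,
      Complex.normSq_apply]
    simp
    ring
  rw [e, Complex.ofReal_re, CTestT_fac, norm_mul, mul_pow, e2, pow_succ', mul_assoc]
  refine mul_le_mul_of_nonneg_right ?_ (by positivity)
  rw [le_div_iff₀ (by positivity)]
  exact mul_le_mul_of_nonneg_left (le_add_of_nonneg_right (by positivity)) (by positivity)

theorem norm_tfT (m : ℕ) {Λ : ℝ} (hΛ : 0 < Λ) (s : ℂ) :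
    ‖s‖ * ‖tfT m Λ s‖ ≤
      2 * ‖s - Real.pi * Complex.I‖ * ((‖s - Real.pi * Complex.I‖ ^ 2) ^ m * chiT m Λ s) := by
  have hχ := (chiT_pos m hΛ s).1
  have hp := Real.pi_pos
  rw [CTestT_norm m hΛ, ← mul_assoc, CTestT_fac, norm_mul]
  refine mul_le_mul_of_nonneg_right ?_ (by positivity)
  have h1 : ‖s + Real.pi * Complex.I‖ ≤ ‖s‖ + Real.pi := by
    have := norm_add_le s (Real.pi * Complex.I)
    rwa [CTestT_pi] at this
  have h2 : ‖s‖ * ‖s + Real.pi * Complex.I‖ ≤ 2 * (‖s‖ ^ 2 + Real.pi ^ 2) := by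
    have := mul_le_mul_of_nonneg_left h1 (norm_nonneg s)
    nlinarith [sq_nonneg (‖s‖ - Real.pi), sq_nonneg ‖s‖, sq_nonneg Real.pi]
  rw [← mul_div_assoc, div_le_iff₀ (by positivity)]
  have := mul_le_mul_of_nonneg_left h2 (norm_nonneg (s - Real.pi * Complex.I))
  linarith

theorem CTestT_real (m : ℕ) {A : ℝ} (hA : 0 ≤ A) {χ t y : ℝ} (h0 : 0 ≤ χ) (h1 : χ ≤ 1) (ht : 0 ≤ t)
    (hy : 0 < y) : (2 * t / y + 2 * A / y ^ 2) * ((t ^ 2) ^ m * χ) ≤ (t ^ 2) ^ (m + 1) * χ / 2 +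
      ((4 + 2 * A) ^ 2) ^ m * (2 * (4 + 2 * A) + 2 * A) / y ^ (2 * (m + 1)) := by
  have hx : 0 ≤ t * y := by positivity
  have key : (2 * (t * y) + 2 * A) * (((t * y) ^ 2) ^ m * χ) ≤ ((t * y) ^ 2) ^ (m + 1) * χ / 2 +
      ((4 + 2 * A) ^ 2) ^ m * (2 * (4 + 2 * A) + 2 * A) := by
    generalize t * y = x at hx
    rcases le_total x (4 + 2 * A) with h | h
    · refine le_trans ?_ (le_add_of_nonneg_left (by positivity))
      rw [mul_comm]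
      refine mul_le_mul ((mul_le_of_le_one_right (by positivity) h1).trans (by gcongr))
        (by linarith) (by positivity) (by positivity)
    · refine le_trans ?_ (le_add_of_nonneg_right (by positivity))
      have h2 : 2 * x + 2 * A ≤ x ^ 2 / 2 := by nlinarith
      refine (mul_le_mul_of_nonneg_right h2 (by positivity)).trans (le_of_eq ?_)
      ring
  have e1 : (2 * t / y + 2 * A / y ^ 2) * ((t ^ 2) ^ m * χ) =
      (2 * (t * y) + 2 * A) * (((t * y) ^ 2) ^ m * χ) / y ^ (2 * (m + 1)) := by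
    rw [mul_pow, mul_pow, pow_mul, pow_succ (y ^ 2)]
    field_simp
  have e2 : (t ^ 2) ^ (m + 1) * χ / 2 = ((t * y) ^ 2) ^ (m + 1) * χ / 2 / y ^ (2 * (m + 1)) := by
    rw [mul_pow, mul_pow, pow_mul]
    field_simp
  rw [e1, e2, ← add_div]
  exact div_le_div_of_nonneg_right key (by positivity)

/-- Plan: `y = Im w`, `t = ‖Δ‖`, `‖s'‖ ≤ sN ≤ ‖s‖/y`, `Σ ‖eV‖/|x - w| ≤ sN/y ≤ ‖s‖/y²`, so
`re leI ≥ χ (t^{2m+2} - 2 t^{2m+1}/y - 2 A t^{2m}/y²)`; distinguish `t y ≥ B` and `t y ≤ B` for a large constant `B`. -/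
theorem leI_tfT_ge (m : ℕ) : ∃ C : ℝ, ∀ (Λ : ℝ), 0 < Λ → ∀ (w : ℂ), 0 < w.im → ∀ (n : ℕ) (p : Conf n),
    (‖sDel p w‖ ^ 2) ^ (m + 1) * chiT m Λ (sF p w) / 2 - C / w.im ^ (2 * (m + 1)) ≤
      (leI p w (fun _ : Fin (0 + 1) => w) fun v => tfT m Λ (v 0)).re := by
  set A : ℝ := 4 + 3 * (2 * m + 3) with hA
  have hA0 : 0 ≤ A := by positivity
  refine ⟨((4 + 2 * A) ^ 2) ^ m * (2 * (4 + 2 * A) + 2 * A), fun Λ hΛ w hw n p => ?_⟩
  set s := sF p w with hs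
  obtain ⟨hχ, hχ1⟩ := chiT_pos m hΛ s
  have hN : sN p w ≤ ‖s‖ / w.im := by
    rw [le_div_iff₀' hw, ← im_sF]
    exact (le_abs_self _).trans (Complex.abs_im_le_norm _)
  have h1 := tfT_main m hΛ (im_sF_nonneg p hw)
  have h2 : ‖sD p w * tfT m Λ s‖ ≤ 2 * ‖s - Real.pi * Complex.I‖ / w.im *
      ((‖s - Real.pi * Complex.I‖ ^ 2) ^ m * chiT m Λ s) := by
    rw [norm_mul]
    refine (mul_le_mul_of_nonneg_right ((norm_sD_le p w).trans hN) (norm_nonneg _)).trans ?_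
    rw [div_mul_eq_mul_div, div_mul_eq_mul_div]
    exact div_le_div_of_nonneg_right (norm_tfT m hΛ s) hw.le
  have h3 : ‖∑ i, fderiv ℝ (tfT m Λ) s (1 / ((p.1 i : ℂ) - w) ^ 2) / ((p.1 i : ℂ) - w)‖ ≤
      A / w.im ^ 2 * ((‖s - Real.pi * Complex.I‖ ^ 2) ^ m * chiT m Λ s) := by
    have h4 : ∀ i, ‖fderiv ℝ (tfT m Λ) s (1 / ((p.1 i : ℂ) - w) ^ 2) / ((p.1 i : ℂ) - w)‖ ≤
        ‖fderiv ℝ (tfT m Λ) s‖ / w.im * (1 / ‖(p.1 i : ℂ) - w‖ ^ 2) := fun i => by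
      rw [norm_div, div_mul_eq_mul_div]
      refine div_le_div₀ (by positivity) ((ContinuousLinearMap.le_opNorm _ _).trans (le_of_eq ?_))
        hw (im_le_norm_sub _ _)
      rw [norm_div, norm_one, norm_pow]
    refine (norm_sum_le _ _).trans ((Finset.sum_le_sum fun i _ => h4 i).trans ?_)
    rw [← Finset.mul_sum]
    refine (mul_le_mul_of_nonneg_left hN (by positivity)).trans ?_
    rw [div_mul_div_comm, mul_comm _ ‖s‖, ← sq, div_mul_eq_mul_div]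
    exact div_le_div_of_nonneg_right (norm_fderiv_tfT m hΛ s) (by positivity)
  have e : leI p w (fun _ : Fin (0 + 1) => w) (fun v => tfT m Λ (v 0)) =
      ((Real.pi : ℂ) ^ 2 + s ^ 2) * tfT m Λ s + sD p w * tfT m Λ s +
        2 * ∑ i, fderiv ℝ (tfT m Λ) s (1 / ((p.1 i : ℂ) - w) ^ 2) / ((p.1 i : ℂ) - w) := by
    simp only [leI, CTestT_fderiv m hΛ, sV, eV, ← hs]
    ring
  have h5 := CTestT_real m hA0 hχ.le hχ1 (norm_nonneg (s - Real.pi * Complex.I)) hw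
  have h6 := neg_le_of_abs_le ((Complex.abs_re_le_norm _).trans h2)
  have h7 := neg_le_of_abs_le ((Complex.abs_re_le_norm _).trans h3)
  rw [e, Complex.add_re, Complex.add_re, two_mul (∑ i, _), Complex.add_re, sDel, ← hs]
  rw [← hs] at h1
  rw [add_mul, mul_div_assoc 2 A, mul_assoc 2 (A / _)] at h5
  linarith

end

end Crest.Agent.R166
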