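import Crest.Agent.R166.C.Det

/-! # Row 166, part C: the test function for the moment bounds -/

set_option autoImplicit false
set_option linter.unusedVariables false
set_option linter.unusedSectionVars false

open MeasureTheory ProbabilityTheory Filter Topology Matrix
open scoped ENNReal BoundedContinuousFunction ComplexConjugate

namespace Crest.Agent.R166

noncomputable section

theorem chiT_pos (m : ℕ) {Λ : ℝ} (hΛ : 0 < Λ) (s : ℂ) : 0 < chiT m Λ s ∧ chiT m Λ s ≤ 1 := by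
  have h : 1 ≤ (1 + ‖s - Real.pi * Complex.I‖ ^ 2 / Λ) ^ (m + 3) :=
    one_le_pow₀ (le_add_of_nonneg_right (by positivity))
  exact ⟨by unfold chiT; positivity, by unfold chiT; exact (div_le_one (by positivity)).2 h⟩

theorem CTestT0_eq (m : ℕ) (Λ : ℝ) : tfT m Λ = fun s : ℂ =>
    ((‖s - Real.pi * Complex.I‖ ^ 2) ^ m * (1 / (1 + ‖s - Real.pi * Complex.I‖ ^ 2 / Λ) ^ (m + 3)) *
      (‖s - 0‖ ^ 2 + Real.pi ^ 2)⁻¹) • conj ((Real.pi : ℂ) ^ 2 + s ^ 2) := by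
  funext s
  simp only [tfT, chiT, sub_zero, Complex.real_smul]
  push_cast
  ring

/-- `contDiff_norm_sq`, `Complex.conjCLE.contDiff`, `ContDiff.div`, `Complex.ofRealCLM.contDiff` -/
theorem contDiff_tfT (m : ℕ) {Λ : ℝ} (hΛ : 0 < Λ) : ContDiff ℝ 1 (tfT m Λ) := by
  rw [CTestT0_eq]
  have h1 : ∀ a : ℂ, ContDiff ℝ 1 fun s : ℂ => ‖s - a‖ ^ 2 := fun a =>
    (contDiff_id.sub contDiff_const).norm_sq ℝ
  refine ContDiff.smul ((((h1 _).pow m).mul (contDiff_const.div ?_ fun s => ?_)).mul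
    (((h1 0).add contDiff_const).inv fun s => ?_)) ?_
  · exact (contDiff_const.add ((h1 _).div_const Λ)).pow _
  · positivity
  · have := Real.pi_pos
    positivity
  · exact Complex.conjCLE.contDiff.comp (contDiff_const.add (contDiff_id.pow 2))

theorem CTestT0_sq (a s : ℂ) : ∃ L : ℂ →L[ℝ] ℝ, HasFDerivAt (fun z : ℂ => ‖z - a‖ ^ 2) L s ∧
    ‖L‖ ≤ 2 * ‖s - a‖ := by
  refine ⟨_, ((hasFDerivAt_id s).sub_const a).norm_sq, ?_⟩
  refine ContinuousLinearMap.opNorm_le_bound _ (by positivity) fun v => ?_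
  have h := abs_real_inner_le_norm (s - a) v
  simp only [two_smul, _root_.add_apply, ContinuousLinearMap.comp_apply,
    ContinuousLinearMap.id_apply, innerSL_apply_apply, id, Real.norm_eq_abs]
  refine (abs_add_le _ _).trans ?_
  linarith

theorem CTestT0_Th (m : ℕ) {Λ : ℝ} (hΛ : 0 < Λ) {u : ℝ} (hu : 0 ≤ u) : ∃ d : ℝ,
    HasDerivAt (fun x : ℝ => x ^ m * (1 / (1 + x / Λ) ^ (m + 3))) d u ∧
      u * |d| ≤ (2 * m + 3) * (u ^ m * (1 / (1 + u / Λ) ^ (m + 3))) := by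
  have hq : 0 < 1 + u / Λ := by positivity
  have h1 : HasDerivAt (fun x : ℝ => (1 + x / Λ) ^ (m + 3)) _ u :=
    (((hasDerivAt_id u).div_const Λ).const_add 1).pow (m + 3)
  have h2 := (hasDerivAt_pow m u).mul ((hasDerivAt_const u (1 : ℝ)).div h1 (by positivity))
  refine ⟨_, h2, ?_⟩
  have h3 : u * (m * u ^ (m - 1)) = m * u ^ m := by
    rcases m with _ | m
    · simp
    · simp only [Nat.add_sub_cancel]; ring
  set Θ := u ^ m * (1 / (1 + u / Λ) ^ (m + 3)) with hΘ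
  have hΘ0 : 0 ≤ Θ := by positivity
  have h4 : 0 ≤ u / Λ / (1 + u / Λ) := by positivity
  have h5 : u / Λ / (1 + u / Λ) ≤ 1 := (div_le_one hq).2 (by linarith)
  rw [← abs_of_nonneg hu, ← abs_mul, abs_of_nonneg hu]
  have h6 : ∀ x : ℝ, x = m * Θ - (m + 3) * (u / Λ / (1 + u / Λ) * Θ) → |x| ≤ (2 * m + 3) * Θ := by
    rintro x rfl
    have a1 : 0 ≤ u / Λ / (1 + u / Λ) * Θ := by positivity
    have a2 : u / Λ / (1 + u / Λ) * Θ ≤ Θ := mul_le_of_le_one_left hΘ0 h5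
    have a3 : (0 : ℝ) ≤ m := Nat.cast_nonneg m
    rw [abs_le]
    constructor <;> nlinarith
  refine h6 _ ?_
  rw [mul_add, ← mul_assoc, h3, hΘ]
  simp only [id, Pi.div_apply, Nat.add_succ_sub_one]
  push_cast
  generalize 1 + u / Λ = q at hq
  field_simp
  ring

theorem CTestT0_P (s : ℂ) : ∃ L : ℂ →L[ℝ] ℂ,
    HasFDerivAt (fun z : ℂ => conj ((Real.pi : ℂ) ^ 2 + z ^ 2)) L s ∧ ‖L‖ ≤ 2 * ‖s‖ := by
  have h1 : HasFDerivAt (fun z : ℂ => (Real.pi : ℂ) ^ 2 + z ^ 2) _ s :=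
    (((hasDerivAt_pow 2 s).const_add ((Real.pi : ℂ) ^ 2)).hasFDerivAt).restrictScalars ℝ
  refine ⟨_, Complex.conjCLE.toContinuousLinearMap.hasFDerivAt.comp s h1, ?_⟩
  refine ContinuousLinearMap.opNorm_le_bound _ (by positivity) fun v => ?_
  simp [mul_comm]

/-- Plan: `tfT = A · Θ(u)`, `A = conj (π² + s²)/(|s|² + π²)`, `u = |s - iπ|²`, `Θ(u) = u^m (1 + u/Λ)^{-(m+3)}`.
`‖A‖ ≤ 1`, `‖DA‖ ≤ 4|s|/(|s|² + π²)`, `‖Du‖ ≤ 2 √u`, `u |Θ'(u)| ≤ (2m+3) Θ(u)`, and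
`‖A‖ = √u |s + iπ|/(|s|² + π²)` with `|s + iπ|² ≤ 2(|s|² + π²)`.  Hence
`‖s‖ ‖D tfT‖ ≤ 4 Θ + 2 √2 (2m+3) Θ`. -/
theorem norm_fderiv_tfT (m : ℕ) {Λ : ℝ} (hΛ : 0 < Λ) (s : ℂ) :
    ‖s‖ * ‖fderiv ℝ (tfT m Λ) s‖ ≤
      (4 + 3 * (2 * m + 3)) * ((‖s - Real.pi * Complex.I‖ ^ 2) ^ m * chiT m Λ s) := by
  have hpi := Real.pi_pos
  obtain ⟨Lu, hu, hLu⟩ := CTestT0_sq (Real.pi * Complex.I) s
  obtain ⟨LN, hN, hLN⟩ := CTestT0_sq 0 s
  obtain ⟨d, hd, hdb⟩ := CTestT0_Th m hΛ (sq_nonneg ‖s - Real.pi * Complex.I‖)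
  obtain ⟨LP, hP, hLP⟩ := CTestT0_P s
  have hN0 : 0 < ‖s - 0‖ ^ 2 + Real.pi ^ 2 := by positivity
  have h1 := hd.comp_hasFDerivAt s hu
  have h2 := (hasDerivAt_inv hN0.ne').comp_hasFDerivAt s (hN.add_const (Real.pi ^ 2))
  have h3 := ((h1.mul h2).smul hP).fderiv
  rw [CTestT0_eq]
  refine le_trans (mul_le_mul_of_nonneg_left (le_of_eq (congrArg norm h3)) (norm_nonneg _)) ?_
  unfold chiT
  simp only [Function.comp, Pi.mul_apply, sub_zero] at *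
  set t := ‖s - Real.pi * Complex.I‖ with ht
  set Θ := (t ^ 2) ^ m * (1 / (1 + t ^ 2 / Λ) ^ (m + 3)) with hΘ
  set N := ‖s‖ ^ 2 + Real.pi ^ 2 with hNdef
  have hΘ0 : 0 ≤ Θ := by positivity
  have ht0 : 0 ≤ t := norm_nonneg _
  have hs0 := norm_nonneg s
  have hP1 : ‖conj ((Real.pi : ℂ) ^ 2 + s ^ 2)‖ ≤ N := by
    rw [Complex.norm_conj]
    refine (norm_add_le _ _).trans (le_of_eq ?_)
    simp [hNdef, abs_of_pos hpi, add_comm]
  have hP2 : ‖conj ((Real.pi : ℂ) ^ 2 + s ^ 2)‖ ≤ t * (‖s‖ + Real.pi) := by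
    have : (Real.pi : ℂ) ^ 2 + s ^ 2 = (s - Real.pi * Complex.I) * (s + Real.pi * Complex.I) := by
      linear_combination (Real.pi : ℂ) ^ 2 * Complex.I_sq
    rw [Complex.norm_conj, this, norm_mul]
    refine mul_le_mul_of_nonneg_left ((norm_add_le _ _).trans (le_of_eq ?_)) ht0
    simp [abs_of_pos hpi]
  set P := ‖conj ((Real.pi : ℂ) ^ 2 + s ^ 2)‖ with hPdef
  have hP0 : 0 ≤ P := norm_nonneg _
  have hb : ‖(Θ * N⁻¹) • LP + (Θ • -(N ^ 2)⁻¹ • LN + N⁻¹ • d • Lu).smulRight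
      (conj ((Real.pi : ℂ) ^ 2 + s ^ 2))‖ ≤
      Θ * N⁻¹ * (2 * ‖s‖) + (Θ * ((N ^ 2)⁻¹ * (2 * ‖s‖)) + N⁻¹ * (|d| * (2 * t))) * P := by
    refine (norm_add_le _ _).trans (add_le_add ?_ ?_)
    · rw [norm_smul, Real.norm_of_nonneg (by positivity)]
      gcongr
    · rw [ContinuousLinearMap.norm_smulRight_apply]
      refine mul_le_mul_of_nonneg_right ((norm_add_le _ _).trans (add_le_add ?_ ?_)) hP0
      · rw [norm_smul, norm_smul, norm_neg, Real.norm_of_nonneg hΘ0,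
          Real.norm_of_nonneg (by positivity)]
        gcongr
      · rw [norm_smul, norm_smul, Real.norm_of_nonneg (by positivity), Real.norm_eq_abs]
        gcongr
  refine (mul_le_mul_of_nonneg_left hb hs0).trans ?_
  have e1 : ‖s‖ ^ 2 * N⁻¹ ≤ 1 := by
    rw [← div_eq_mul_inv, div_le_one hN0, hNdef]
    nlinarith
  have e2 : P * N⁻¹ ≤ 1 := by
    rw [← div_eq_mul_inv, div_le_one hN0]
    exact hP1
  have e3 : ‖s‖ * (‖s‖ + Real.pi) * N⁻¹ ≤ 3 / 2 := by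
    rw [← div_eq_mul_inv, div_le_iff₀ hN0, hNdef]
    nlinarith [sq_nonneg (‖s‖ - Real.pi)]
  have f1 : ‖s‖ * (Θ * N⁻¹ * (2 * ‖s‖)) ≤ 2 * Θ := by
    calc _ = 2 * Θ * (‖s‖ ^ 2 * N⁻¹) := by ring
      _ ≤ 2 * Θ * 1 := by gcongr
      _ = _ := mul_one _
  have f2 : ‖s‖ * (Θ * ((N ^ 2)⁻¹ * (2 * ‖s‖)) * P) ≤ 2 * Θ := by
    calc _ = 2 * Θ * ((‖s‖ ^ 2 * N⁻¹) * (P * N⁻¹)) := by rw [← inv_pow]; ring
      _ ≤ 2 * Θ * (1 * 1) := by gcongr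
      _ = _ := by ring
  have f3 : ‖s‖ * (N⁻¹ * (|d| * (2 * t)) * P) ≤ 3 * ((2 * m + 3) * Θ) := by
    calc _ ≤ ‖s‖ * (N⁻¹ * (|d| * (2 * t)) * (t * (‖s‖ + Real.pi))) := by gcongr
      _ = 2 * ((‖s‖ * (‖s‖ + Real.pi) * N⁻¹) * (t ^ 2 * |d|)) := by ring
      _ ≤ 2 * (3 / 2 * ((2 * m + 3) * Θ)) := by gcongr
      _ = _ := by ring
  rw [add_mul, mul_add, mul_add]
  linarith

end

end Crest.Agent.R166
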