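import Crest.Agent.R166.C.Det

/-! # Row 166, part C: tightness -/

set_option autoImplicit false
set_option linter.unusedVariables false
set_option linter.unusedSectionVars false

open MeasureTheory ProbabilityTheory Filter Topology Matrix
open scoped ENNReal BoundedContinuousFunction ComplexConjugate

namespace Crest.Agent.R166

noncomputable section

/-- Plan: closed (intersection of closed conditions) and bounded in a proper space. -/
theorem isCompact_Kset (r k : ℕ) (R c : ℝ) : IsCompact (Kset r k R c) := by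
  refine Metric.isCompact_of_isClosed_isBounded ?_ ?_
  · have e : Kset r k R c = ⋂ j, ({Z : Fin k → Jet r | ‖Z j‖ ≤ R} ∩
        ((⋂ b, ⋂ b', {Z : Fin k → Jet r | (Z j).1 b' b = (Z j).1 b b'}) ∩
        ((⋂ b, ⋂ b', {Z : Fin k → Jet r | (Z j).2.1 b' b = (Z j).2.1 b b'}) ∩
        ⋂ v : Fin r → ℝ, {Z : Fin k → Jet r | c * (v ⬝ᵥ v) ≤ v ⬝ᵥ imM (Z j).1 *ᵥ v}))) := by
      ext Z
      simp only [Kset, Set.mem_ofPred_eq, Set.mem_iInter, Set.mem_inter_iff, Matrix.IsSymm.ext_iff,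
        Matrix.of_apply]
    rw [e]
    refine isClosed_iInter fun j => (isClosed_le (by fun_prop) continuous_const).inter
      ((isClosed_iInter fun b => isClosed_iInter fun b' => isClosed_eq (by fun_prop) (by fun_prop)).inter
      ((isClosed_iInter fun b => isClosed_iInter fun b' => isClosed_eq (by fun_prop) (by fun_prop)).inter
      (isClosed_iInter fun v => isClosed_le continuous_const ?_)))
    simp only [dotProduct, Matrix.mulVec, imM, Matrix.of_apply]
    fun_prop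
  · refine (Metric.isBounded_closedBall (x := (0 : Fin k → Jet r)) (r := max R 0)).subset fun Z hZ => ?_
    rw [mem_closedBall_zero_iff, pi_norm_le_iff_of_nonneg (le_max_right _ _)]
    exact fun j => (hZ j).1.trans (le_max_left _ _)

/-- Plan: `Matrix.posDef_iff_dotProduct_mulVec` (or the current API), symmetry of `imM`. -/
theorem Kset_subset (r k : ℕ) (R : ℝ) {c : ℝ} (hc : 0 < c) : Kset r k R c ⊆ SiegK r k := by
  intro Z hZ j
  obtain ⟨-, h1, h2, h3⟩ := hZ j
  refine ⟨h1, h2, Matrix.PosDef.of_dotProduct_mulVec_pos ?_ fun v hv => ?_⟩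
  · ext b b'
    have := h1.apply b b'
    simp only [Matrix.of_apply] at this
    simp [imM, this]
  · rw [star_trivial]
    refine lt_of_lt_of_le (mul_pos hc ?_) (h3 v)
    exact lt_of_le_of_ne (Finset.sum_nonneg fun _ _ => mul_self_nonneg _)
      fun h => hv (dotProduct_self_eq_zero.1 h.symm)

/-- Chebyshev (`gpi_bilin_sq_le`, `gpi_bilin_integrable`, `mul_meas_ge_le_integral_of_nonneg`) -/
theorem tight_cheb {r n : ℕ} (b c : Fin r) (a : Fin n → ℂ) {t : ℝ} (ht : 0 < t) :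
    gpi (Fin r × Fin n)
      {g | t ≤ ‖∑ i, ((g (b, i) * g (c, i) - if b = c then 1 else 0 : ℝ) : ℂ) * a i‖} ≤
      ENNReal.ofReal (2 * (∑ i, ‖a i‖ ^ 2) / t ^ 2) := by
  have h1 := mul_meas_ge_le_integral_of_nonneg (μ := gpi (Fin r × Fin n))
    (Eventually.of_forall fun g => by positivity) (gpi_bilin_integrable b c a 2) (t ^ 2)
  have h2 := h1.trans (gpi_bilin_sq_le b c a)
  have e : {g : Fin r × Fin n → ℝ |
      t ≤ ‖∑ i, ((g (b, i) * g (c, i) - if b = c then 1 else 0 : ℝ) : ℂ) * a i‖} =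
      {g | t ^ 2 ≤ ‖∑ i, ((g (b, i) * g (c, i) - if b = c then 1 else 0 : ℝ) : ℂ) * a i‖ ^ 2} := by
    ext g
    simp only [Set.mem_ofPred_eq]
    exact (pow_le_pow_iff_left₀ ht.le (norm_nonneg _) two_ne_zero).symm
  rw [e, ← ofReal_measureReal]
  refine ENNReal.ofReal_le_ofReal ?_
  rw [le_div_iff₀ (by positivity), mul_comm]
  exact h2

theorem CTight0_quad {r n : ℕ} (p : Conf n) (g : Fin r × Fin n → ℝ) (w : ℂ) (v : Fin r → ℝ) :
    v ⬝ᵥ imM (jetG p g w).1 *ᵥ v =
      ∑ i, (∑ b, v b * g (b, i)) ^ 2 * (w.im / ‖((p.1 i : ℝ) : ℂ) - w‖ ^ 2) := by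
  have e : ∀ b c, imM (jetG p g w).1 b c =
      ∑ i, g (b, i) * g (c, i) * (w.im / ‖((p.1 i : ℝ) : ℂ) - w‖ ^ 2) := by
    intro b c
    simp only [imM, jetG, jetV, Matrix.of_apply, Complex.sub_im, Complex.ofReal_im, sub_zero,
      Complex.im_sum]
    refine Finset.sum_congr rfl fun i _ => ?_
    rw [Complex.div_im, Complex.normSq_eq_norm_sq]
    simp only [Complex.ofReal_im, Complex.ofReal_re, Complex.sub_im]
    ring
  simp only [dotProduct, Matrix.mulVec, e, Finset.mul_sum, Finset.sum_mul, sq]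
  rw [Finset.sum_comm]
  conv_rhs => rw [Finset.sum_comm]
  refine Finset.sum_congr rfl fun b _ => ?_
  rw [Finset.sum_comm]
  exact Finset.sum_congr rfl fun c _ => Finset.sum_congr rfl fun i _ => by ring

/-- `vᵀ Im M(w) v = Σ_i (Σ_b v b g(b,i))² Im w/|x_i - w|²`, hence monotone under comparison of the
kernels (`norm_sub_cmp`) -/
theorem tight_cmp {r : ℕ} {w w' : ℂ} (hw : 0 < w.im) (hw' : 0 < w'.im) : ∃ c : ℝ, 0 < c ∧
    ∀ (n : ℕ) (p : Conf n) (g : Fin r × Fin n → ℝ) (v : Fin r → ℝ),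
      c * (v ⬝ᵥ imM (jetG p g w').1 *ᵥ v) ≤ v ⬝ᵥ imM (jetG p g w).1 *ᵥ v := by
  set A : ℝ := 1 + ‖w - w'‖ / w'.im with hA
  have hA0 : 0 < A := by positivity
  refine ⟨w.im / (w'.im * A ^ 2), by positivity, fun n p g v => ?_⟩
  rw [CTight0_quad, CTight0_quad, Finset.mul_sum]
  refine Finset.sum_le_sum fun i _ => ?_
  have h1 := norm_sub_cmp (p.1 i) w hw'
  have h2 : 0 < ‖((p.1 i : ℝ) : ℂ) - w‖ := hw.trans_le (im_le_norm_sub _ _)
  have h3 : 0 < ‖((p.1 i : ℝ) : ℂ) - w'‖ := hw'.trans_le (im_le_norm_sub _ _)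
  calc w.im / (w'.im * A ^ 2) * ((∑ b, v b * g (b, i)) ^ 2 * (w'.im / ‖((p.1 i : ℝ) : ℂ) - w'‖ ^ 2))
      = (∑ b, v b * g (b, i)) ^ 2 * (w.im / (A * ‖((p.1 i : ℝ) : ℂ) - w'‖) ^ 2) := by field_simp
    _ ≤ _ := by gcongr

end

end Crest.Agent.R166
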