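import Crest.Agent.R166.C.TransA0

/-! # Row 166, part C: pointwise facts for the translation argument -/

set_option autoImplicit false
set_option linter.unusedVariables false
set_option linter.unusedSectionVars false

open MeasureTheory ProbabilityTheory Filter Topology Matrix
open scoped ENNReal BoundedContinuousFunction ComplexConjugate

namespace Crest.Agent.R166

noncomputable section

theorem CTransA_fderiv {k : ℕ} {f : (Fin k → ℂ) → ℝ} (hf : ContDiff ℝ 1 f) (s : Fin k → ℂ) :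
    fderiv ℝ (fun s => (f s : ℂ)) s = Complex.ofRealCLM.comp (fderiv ℝ f s) :=
  (Complex.ofRealCLM.hasFDerivAt.comp s (hf.differentiable one_ne_zero s).hasFDerivAt).fderiv

theorem CTransA_norm (x y : ℝ) : ‖(x : ℂ) - y * Complex.I‖ ^ 2 = x ^ 2 + y ^ 2 := by
  rw [Complex.sq_norm, Complex.normSq_apply]
  simp only [Complex.sub_re, Complex.sub_im, Complex.mul_re, Complex.mul_im, Complex.ofReal_re,
    Complex.ofReal_im, Complex.I_re, Complex.I_im]
  ring

theorem CTransA_sN {n : ℕ} (p : Conf n) {y : ℝ} (hy : 1 ≤ y) :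
    y * sN p (y * Complex.I) ≤ Real.pi + y * ‖sDel p (y * Complex.I)‖ := by
  have h1 := im_sF p (y * Complex.I)
  have h2 : (sDel p (y * Complex.I)).im = (sF p (y * Complex.I)).im - Real.pi := by
    simp [sDel]
  have h3 := (le_abs_self _).trans (Complex.abs_im_le_norm (sDel p (y * Complex.I)))
  have h4 := le_mul_of_one_le_left (norm_nonneg (sDel p (y * Complex.I))) hy
  simp only [Complex.mul_im, Complex.ofReal_re, Complex.I_im, mul_one, Complex.ofReal_im,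
    Complex.I_re, mul_zero, add_zero] at h1
  linarith

theorem CTransA_sum {n : ℕ} (p : Conf n) {y : ℝ} (hy : 1 ≤ y) {a : Fin n → ℝ} {B : ℝ}
    (hB : 0 ≤ B) (h : ∀ i, |a i| ≤ B) :
    |∑ i, a i / (p.1 i ^ 2 + y ^ 2)| ≤ B / y * (Real.pi + y * ‖sDel p (y * Complex.I)‖) := by
  have hy0 : 0 < y := by linarith
  calc _ ≤ ∑ i, B * (1 / ‖(p.1 i : ℂ) - y * Complex.I‖ ^ 2) := by
        refine (Finset.abs_sum_le_sum_abs _ _).trans (Finset.sum_le_sum fun i _ => ?_)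
        rw [CTransA_norm, abs_div, abs_of_pos (by positivity : 0 < p.1 i ^ 2 + y ^ 2), mul_one_div]
        exact div_le_div_of_nonneg_right (h i) (by positivity)
    _ = B / y * (y * sN p (y * Complex.I)) := by
        rw [← Finset.mul_sum, sN]
        field_simp
    _ ≤ _ := mul_le_mul_of_nonneg_left (CTransA_sN p hy) (by positivity)

/-- complexification of a real test function -/
theorem dec_ofReal {k : ℕ} {f : (Fin k → ℂ) → ℝ} (hf : ContDiff ℝ 1 f) {C : ℝ}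
    (hC : ∀ s, (|f s| + ‖fderiv ℝ f s‖) * (1 + ‖s‖) ^ 4 ≤ C) : Dec fun s => (f s : ℂ) := by
  refine ⟨Complex.ofRealCLM.contDiff.comp hf, C, fun s => ?_⟩
  rw [CTransA_fderiv hf, Complex.norm_real, Real.norm_eq_abs]
  refine le_of_eq_of_le ?_ (hC s)
  congr 2
  exact Complex.ofRealLI.norm_toContinuousLinearMap_comp

/-- `y Im (1/(x - iy)) = y²/(x² + y²)`; `fderiv` of `ofReal ∘ f` is `ofRealCLM ∘L fderiv f` -/
theorem im_leI {n k : ℕ} (p : Conf n) {y : ℝ} (hy : 0 < y) (w : Fin k → ℂ) {f : (Fin k → ℂ) → ℝ}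
    (hf : ContDiff ℝ 1 f) :
    y * (leI p (y * Complex.I) w fun s => (f s : ℂ)).im = dY y p * f (sV p w)
      + 2 * ∑ i, fderiv ℝ f (sV p w) (eV w (p.1 i)) * (y ^ 2 / (p.1 i ^ 2 + y ^ 2)) := by
  have h1 : ∀ a x : ℝ, y * ((a : ℂ) / ((x : ℂ) - y * Complex.I)).im =
      a * (y ^ 2 / (x ^ 2 + y ^ 2)) := by
    intro a x
    rw [Complex.div_im, Complex.normSq_eq_norm_sq, CTransA_norm]
    simp only [Complex.sub_re, Complex.sub_im, Complex.mul_re, Complex.mul_im, Complex.ofReal_re,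
      Complex.ofReal_im, Complex.I_re, Complex.I_im]
    ring
  rw [leI, CTransA_fderiv hf, Complex.add_im, Complex.im_mul_ofReal, dY, mul_add, ← mul_assoc,
    two_mul, two_mul]
  simp only [Complex.add_im (∑ _i, _), Complex.im_sum, mul_add y (∑ _i, _), Finset.mul_sum,
    ContinuousLinearMap.comp_apply, Complex.ofRealCLM_apply, h1]

/-- Plan: `π² + s² = Δ² + 2π i Δ`, so `dY = y Im Δ² + 2π Re (y Δ) + y Im s'`; `sD_diff` with `h = √y`,
`y sN(iy) = Im s(iy) ≤ π + ‖Δ‖`; `abs_bT_sub_le`. -/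
theorem abs_dY_sub_dT {n : ℕ} (p : Conf n) {y Λ : ℝ} (hy : 1 ≤ y) (hΛ : 0 < Λ) :
    |dY y p - dT Λ y p| ≤
      ((y * ‖sDel p (y * Complex.I)‖) ^ 2 + 2 * (y * ‖sDel p (y * Complex.I)‖)
        + y * ‖sDel p (y * Complex.I + (√y : ℝ))‖ + Real.pi) / √y
      + 6 * Real.pi * (y * ‖sDel p (y * Complex.I)‖) ^ 3 / Λ ^ 2 := by
  have hy0 : 0 < y := by linarith
  have hh : 0 < √y := Real.sqrt_pos.2 hy0
  have hh2 : √y * √y = y := Real.mul_self_sqrt hy0.le
  have hh1 : 1 ≤ √y := Real.one_le_sqrt.2 hy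
  have him : ((y : ℂ) * Complex.I).im = y := by simp
  have h1 := sD_diff p (w := y * Complex.I) (by rwa [him]) hh
  have h2 := abs_bT_sub_le hΛ (y * sDel p (y * Complex.I))
  have h3 := CTransA_sN p hy
  have e1 : sF p (y * Complex.I + (√y : ℝ)) - sF p (y * Complex.I) =
      sDel p (y * Complex.I + (√y : ℝ)) - sDel p (y * Complex.I) := by
    simp only [sDel]; ring
  have e2 : dY y p - dT Λ y p = y * (sDel p (y * Complex.I) ^ 2).im + y * (sD p (y * Complex.I)).im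
      - 2 * Real.pi * (bT Λ (y * sDel p (y * Complex.I)) - (y * sDel p (y * Complex.I)).re) := by
    have : (Real.pi : ℂ) ^ 2 + sF p (y * Complex.I) ^ 2 = sDel p (y * Complex.I) ^ 2 +
        ((2 * Real.pi : ℝ) : ℂ) * (Complex.I * sDel p (y * Complex.I)) := by
      simp only [sDel]
      push_cast
      linear_combination (Real.pi : ℂ) ^ 2 * Complex.I_sq
    rw [dY, dT, this, Complex.add_im, Complex.add_im, Complex.im_ofReal_mul, Complex.I_mul_im,
      Complex.re_ofReal_mul]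
    ring
  rw [e1, him] at h1
  rw [norm_mul, Complex.norm_real, Real.norm_of_nonneg hy0.le] at h2
  rw [e2]
  generalize sDel p (y * Complex.I + (√y : ℝ)) = Δ' at *
  generalize bT Λ (y * sDel p (y * Complex.I)) - (y * sDel p (y * Complex.I)).re = β at *
  generalize sDel p (y * Complex.I) = Δ at *
  generalize sD p (y * Complex.I) = D at *
  generalize sN p (y * Complex.I) = N at *
  have a1 : |y * (Δ ^ 2).im| ≤ (y * ‖Δ‖) ^ 2 / √y := by
    rw [abs_mul, abs_of_pos hy0, le_div_iff₀ hh]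
    have b1 := Complex.abs_im_le_norm (Δ ^ 2)
    rw [norm_pow] at b1
    have b2 : √y ≤ y := by nlinarith
    calc y * |(Δ ^ 2).im| * √y ≤ y * ‖Δ‖ ^ 2 * y := by gcongr
      _ = _ := by ring
  have a2 : |y * D.im| ≤ (2 * (y * ‖Δ‖) + y * ‖Δ'‖ + Real.pi) / √y := by
    rw [abs_mul, abs_of_pos hy0, le_div_iff₀ hh]
    have b1 := Complex.abs_im_le_norm D
    have b2 : ‖D‖ ≤ ‖(Δ' - Δ) / (√y : ℝ)‖ + √y * N / y := by
      have := norm_sub_norm_le D ((Δ' - Δ) / (√y : ℝ))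
      rw [norm_sub_rev] at this
      linarith
    have b3 : ‖(Δ' - Δ) / (√y : ℝ)‖ ≤ (‖Δ'‖ + ‖Δ‖) / √y := by
      rw [norm_div, Complex.norm_real, Real.norm_of_nonneg hh.le]
      exact div_le_div_of_nonneg_right (norm_sub_le _ _) hh.le
    calc y * |D.im| * √y ≤ y * ((‖Δ'‖ + ‖Δ‖) / √y + √y * N / y) * √y := by
          gcongr
          linarith
      _ = y * (‖Δ'‖ + ‖Δ‖) + √y * √y * N := by field_simp
      _ ≤ _ := by rw [hh2]; linarith
  have a3 : |2 * Real.pi * β| ≤ 6 * Real.pi * (y * ‖Δ‖) ^ 3 / Λ ^ 2 := by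
    rw [abs_mul, abs_of_pos (by positivity : 0 < 2 * Real.pi)]
    refine (mul_le_mul_of_nonneg_left h2 (by positivity)).trans (le_of_eq ?_)
    ring
  refine (abs_sub _ _).trans (add_le_add ((abs_add_le _ _).trans
    ((add_le_add a1 a2).trans (le_of_eq ?_))) a3)
  ring

/-- `y²/(x²+y²) = 1 - x²/(x²+y²)`, `sum_eV`, `sq_mul_norm_eV_le`, `sN(iy) ≤ (π + ‖Δ‖)/y` -/
theorem abs_def_sub_psiT {k : ℕ} {w : Fin k → ℂ} (hw : ∀ j, 0 < (w j).im) : ∃ C : ℝ, 0 ≤ C ∧
    ∀ (f : (Fin k → ℂ) → ℝ) (y : ℝ), 1 ≤ y → ∀ (n : ℕ) (p : Conf n),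
      |∑ i, fderiv ℝ f (sV p w) (eV w (p.1 i)) * (y ^ 2 / (p.1 i ^ 2 + y ^ 2)) - psiT f w p| ≤
        C / y * (Real.pi + y * ‖sDel p (y * Complex.I)‖) * ‖fderiv ℝ f (sV p w)‖ := by
  obtain ⟨C, hC, H⟩ := sq_mul_norm_eV_le hw
  refine ⟨C, hC, fun f y hy n p => ?_⟩
  have hy0 : 0 < y := by linarith
  have e : ∑ i, fderiv ℝ f (sV p w) (eV w (p.1 i)) * (y ^ 2 / (p.1 i ^ 2 + y ^ 2)) - psiT f w p =
      ∑ i, -(p.1 i ^ 2 * fderiv ℝ f (sV p w) (eV w (p.1 i))) / (p.1 i ^ 2 + y ^ 2) := by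
    rw [psiT, ← sum_eV, map_sum, ← Finset.sum_sub_distrib]
    refine Finset.sum_congr rfl fun i _ => ?_
    field_simp
    ring
  rw [e]
  refine (CTransA_sum p hy (B := C * ‖fderiv ℝ f (sV p w)‖) (by positivity) fun i => ?_).trans
    (le_of_eq (by ring))
  rw [abs_neg, abs_mul, abs_of_nonneg (sq_nonneg _)]
  refine (mul_le_mul_of_nonneg_left ((fderiv ℝ f (sV p w)).le_opNorm _) (sq_nonneg _)).trans ?_
  rw [mul_comm ‖_‖, ← mul_assoc]
  exact mul_le_mul_of_nonneg_right (H _) (norm_nonneg _)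

/-- `‖eV (iy') x‖ ≤ 1/y'²`, `Σ y²/(x²+y²) = y Im s(iy) ≤ y (π + ‖Δ‖)` -/
theorem abs_def_cross {n : ℕ} (p : Conf n) {y y' : ℝ} (hy : 1 ≤ y) (hy' : 0 < y')
    (L : (Fin (0 + 1) → ℂ) →L[ℝ] ℝ) :
    |∑ i, L (eV (fun _ => y' * Complex.I) (p.1 i)) * (y ^ 2 / (p.1 i ^ 2 + y ^ 2))| ≤
      ‖L‖ * (y / y' ^ 2) * (Real.pi + y * ‖sDel p (y * Complex.I)‖) := by
  have hy0 : 0 < y := by linarith
  simp only [← mul_div_assoc]
  refine (CTransA_sum p hy (B := ‖L‖ * (1 / y' ^ 2) * y ^ 2) (by positivity) fun i => ?_).trans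
    (le_of_eq (by field_simp))
  rw [abs_mul, abs_of_nonneg (sq_nonneg y)]
  refine mul_le_mul_of_nonneg_right ((L.le_opNorm _).trans
    (mul_le_mul_of_nonneg_left ?_ (norm_nonneg _))) (sq_nonneg _)
  refine (pi_norm_le_iff_of_nonneg (by positivity)).2 fun j => ?_
  rw [eV, norm_div, norm_one, norm_pow, CTransA_norm]
  exact one_div_le_one_div_of_le (by positivity) (le_add_of_nonneg_left (sq_nonneg _))

end

end Crest.Agent.R166
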