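import Crest.Agent.R166.C.Det

/-! # Row 166, part C: pointwise facts for the translation argument -/

set_option autoImplicit false
set_option linter.unusedVariables false
set_option linter.unusedSectionVars false

open MeasureTheory ProbabilityTheory Filter Topology Matrix
open scoped ENNReal BoundedContinuousFunction ComplexConjugate

namespace Crest.Agent.R166

noncomputable section

theorem CTransA0_abs {Λ : ℝ} (z : ℂ) : |bT Λ z| ≤ ‖z‖ / (1 + ‖z‖ ^ 2 / Λ ^ 2) ^ 3 := by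
  rw [bT, abs_div, abs_of_pos (a := _ ^ 3) (by positivity)]
  exact div_le_div_of_nonneg_right (Complex.abs_re_le_norm z) (by positivity)

theorem CTransA0_abs' {Λ : ℝ} (hΛ : 0 < Λ) (z : ℂ) :
    |bT Λ z| ≤ Λ / (1 + ‖z‖ ^ 2 / Λ ^ 2) ^ 2 := by
  refine (CTransA0_abs z).trans ?_
  have h1 : ‖z‖ ≤ Λ * (1 + ‖z‖ ^ 2 / Λ ^ 2) := by
    rw [← div_pow, ← div_le_iff₀' hΛ]
    nlinarith [sq_nonneg (‖z‖ / Λ - 1), sq_nonneg (‖z‖ / Λ)]
  exact (div_le_div_of_nonneg_right h1 (by positivity)).trans (le_of_eq (by field_simp))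

theorem abs_bT_le {Λ : ℝ} (hΛ : 0 < Λ) (z : ℂ) : |bT Λ z| ≤ min ‖z‖ Λ := by
  have h1 : 1 ≤ 1 + ‖z‖ ^ 2 / Λ ^ 2 := le_add_of_nonneg_right (by positivity)
  exact le_min ((CTransA0_abs z).trans (div_le_self (norm_nonneg _) (one_le_pow₀ h1)))
    ((CTransA0_abs' hΛ z).trans (div_le_self hΛ.le (one_le_pow₀ h1)))

/-- `1 - (1+u)^{-3} ≤ 3u` -/
theorem abs_bT_sub_le {Λ : ℝ} (hΛ : 0 < Λ) (z : ℂ) : |bT Λ z - z.re| ≤ 3 * ‖z‖ ^ 3 / Λ ^ 2 := by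
  have e : 3 * ‖z‖ ^ 3 / Λ ^ 2 = ‖z‖ * (3 * (‖z‖ ^ 2 / Λ ^ 2)) := by ring
  rw [e, bT]
  have hu : 0 ≤ ‖z‖ ^ 2 / Λ ^ 2 := by positivity
  generalize ‖z‖ ^ 2 / Λ ^ 2 = u at hu
  have h1 : 0 < (1 + u) ^ 3 := by positivity
  have h2 : 0 ≤ (1 + u) ^ 3 - 1 := sub_nonneg.2 (one_le_pow₀ (by linarith))
  rw [show z.re / (1 + u) ^ 3 - z.re = -(z.re * (((1 + u) ^ 3 - 1) / (1 + u) ^ 3)) by
    field_simp; ring, abs_neg, abs_mul, abs_of_nonneg (div_nonneg h2 h1.le)]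
  refine mul_le_mul (Complex.abs_re_le_norm z) ?_ (div_nonneg h2 h1.le) (norm_nonneg _)
  rw [div_le_iff₀ h1]
  nlinarith [pow_nonneg hu 2, pow_nonneg hu 3, pow_nonneg hu 4]

theorem contDiff_bT {Λ : ℝ} (hΛ : 0 < Λ) : ContDiff ℝ 1 (bT Λ) :=
  Complex.reCLM.contDiff.div ((contDiff_const.add ((contDiff_norm_sq ℝ).div_const _)).pow 3)
    fun z => by positivity

/-- `‖D bT z‖ ≤ (1 + 6 u/(1+u)) (1+u)^{-3}`, `u = ‖z‖²/Λ²` -/
theorem norm_fderiv_bT {Λ : ℝ} (hΛ : 0 < Λ) (z : ℂ) :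
    ‖fderiv ℝ (bT Λ) z‖ ≤ 7 / (1 + ‖z‖ ^ 2 / Λ ^ 2) ^ 3 := by
  have h0 : 0 < 1 + ‖z‖ ^ 2 / Λ ^ 2 := by positivity
  have h1 : HasDerivAt (fun s : ℝ => ((1 + s / Λ ^ 2) ^ 3)⁻¹)
      (-(3 / (Λ ^ 2 * (1 + ‖z‖ ^ 2 / Λ ^ 2) ^ 4))) (‖z‖ ^ 2) := by
    have h2 := ((((hasDerivAt_id (‖z‖ ^ 2)).div_const (Λ ^ 2)).const_add 1).fun_pow 3).fun_inv
      (pow_pos h0 3).ne'
    refine h2.congr_deriv ?_
    simp only [id]
    generalize 1 + ‖z‖ ^ 2 / Λ ^ 2 = D at h0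
    field_simp
    ring
  have h2 := Complex.reCLM.hasFDerivAt.mul
    (h1.comp_hasFDerivAt z (hasStrictFDerivAt_norm_sq z).hasFDerivAt)
  have e : bT Λ = ⇑Complex.reCLM * (fun s : ℝ => ((1 + s / Λ ^ 2) ^ 3)⁻¹) ∘ fun x : ℂ => ‖x‖ ^ 2 := by
    funext w
    simp [bT, div_eq_mul_inv]
  rw [e, h2.fderiv]
  refine (norm_add_le _ _).trans ?_
  rw [norm_smul, norm_smul, RCLike.norm_nsmul ℝ, norm_smul, Complex.reCLM_norm, norm_neg,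
    innerSL_apply_norm, Function.comp_apply,
    Real.norm_of_nonneg (r := 3 / (Λ ^ 2 * (1 + ‖z‖ ^ 2 / Λ ^ 2) ^ 4)) (by positivity),
    Real.norm_of_nonneg (inv_pos.2 (pow_pos h0 3)).le]
  have h3 : ‖Complex.reCLM z‖ ≤ ‖z‖ := Complex.abs_re_le_norm z
  have h4 : ‖z‖ * (3 / (Λ ^ 2 * (1 + ‖z‖ ^ 2 / Λ ^ 2) ^ 4) * 2 • ‖z‖) =
      6 / (1 + ‖z‖ ^ 2 / Λ ^ 2) ^ 3 * (‖z‖ ^ 2 / Λ ^ 2 / (1 + ‖z‖ ^ 2 / Λ ^ 2)) := by
    rw [nsmul_eq_mul]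
    generalize hD : 1 + ‖z‖ ^ 2 / Λ ^ 2 = D at h0
    field_simp
    ring
  refine (add_le_add_left ((mul_le_mul_of_nonneg_right h3 (by positivity)).trans (h4.trans_le
    (mul_le_of_le_one_right (by positivity) ((div_le_one h0).2 (by linarith))))) _).trans
    (le_of_eq ?_)
  ring

/-- the test function of the cross terms -/
def crossT (Λ y : ℝ) (v : Fin (0 + 1) → ℂ) : ℝ :=
  2 * Real.pi * bT Λ (y * (v 0 - Real.pi * Complex.I))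

theorem contDiff_crossT {Λ : ℝ} (hΛ : 0 < Λ) (y : ℝ) : ContDiff ℝ 1 (crossT Λ y) :=
  contDiff_const.mul ((contDiff_bT hΛ).comp
    (contDiff_const.mul ((contDiff_apply ℝ ℂ 0).sub contDiff_const)))

theorem norm_fderiv_crossT {Λ y : ℝ} (hΛ : 0 < Λ) (hy : 0 < y) (v : Fin (0 + 1) → ℂ) :
    ‖fderiv ℝ (crossT Λ y) v‖ ≤
      14 * Real.pi * y / (1 + ‖(y : ℂ) * (v 0 - Real.pi * Complex.I)‖ ^ 2 / Λ ^ 2) ^ 3 := by
  have h1 := ((hasFDerivAt_apply (𝕜 := ℝ) 0 v).sub_const (Real.pi * Complex.I)).const_mul (y : ℂ)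
  have h2 := (((contDiff_bT hΛ).differentiable one_ne_zero _).hasFDerivAt.comp v h1).const_mul
    (2 * Real.pi)
  have h3 : ‖(ContinuousLinearMap.proj 0 : (Fin (0 + 1) → ℂ) →L[ℝ] ℂ)‖ ≤ 1 :=
    ContinuousLinearMap.opNorm_le_bound _ zero_le_one fun w => by
      rw [one_mul]; exact norm_le_pi_norm w 0
  have hp := Real.pi_pos
  have e : crossT Λ y = fun v : Fin (0 + 1) → ℂ => 2 * Real.pi *
      (bT Λ ∘ fun v : Fin (0 + 1) → ℂ => (y : ℂ) * (v 0 - Real.pi * Complex.I)) v := rfl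
  rw [e, h2.fderiv, norm_smul, Real.norm_of_nonneg (by positivity)]
  have h4 : ‖(y : ℂ) • (ContinuousLinearMap.proj 0 : (Fin (0 + 1) → ℂ) →L[ℝ] ℂ)‖ ≤ y := by
    rw [norm_smul, Complex.norm_real, Real.norm_of_nonneg hy.le]
    exact mul_le_of_le_one_right hy.le h3
  have h5 := mul_le_mul (norm_fderiv_bT hΛ ((y : ℂ) * (v 0 - Real.pi * Complex.I))) h4
    (norm_nonneg _) (by positivity)
  have h6 := mul_le_mul_of_nonneg_left ((ContinuousLinearMap.opNorm_comp_le _ _).trans h5)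
    (show 0 ≤ 2 * Real.pi by positivity)
  exact h6.trans (le_of_eq (by ring))

/-- decay: `|bT z| ≤ ‖z‖ (1 + ‖z‖²/Λ²)^{-3}` -/
theorem decay_crossT {Λ y : ℝ} (hΛ : 0 < Λ) (hy : 0 < y) : ∃ C : ℝ, ∀ v : Fin (0 + 1) → ℂ,
    (|crossT Λ y v| + ‖fderiv ℝ (crossT Λ y) v‖) * (1 + ‖v‖) ^ 4 ≤ C ∧
    1 / (1 + ‖(y : ℂ) * (v 0 - Real.pi * Complex.I)‖ ^ 2 / Λ ^ 2) ^ 3 * (1 + ‖v‖) ^ 4 ≤ C := by
  have hp := Real.pi_pos
  refine ⟨4 * (1 + Real.pi + Λ / y) ^ 4 * (2 * Real.pi * Λ + 14 * Real.pi * y + 1), fun v => ?_⟩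
  have h1 : |crossT Λ y v| ≤ 2 * Real.pi *
      (Λ / (1 + ‖(y : ℂ) * (v 0 - Real.pi * Complex.I)‖ ^ 2 / Λ ^ 2) ^ 2) := by
    rw [crossT, abs_mul, abs_of_pos (a := 2 * Real.pi) (by positivity)]
    exact mul_le_mul_of_nonneg_left (CTransA0_abs' hΛ _) (by positivity)
  have h2 := norm_fderiv_crossT hΛ hy v
  have h3 : ‖v‖ ≤ Real.pi + Λ / y * (‖(y : ℂ) * (v 0 - Real.pi * Complex.I)‖ / Λ) := by
    refine (pi_norm_le_iff_of_nonneg (by positivity)).2 fun i => ?_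
    rw [Subsingleton.elim (α := Fin 1) i 0, norm_mul, Complex.norm_real, Real.norm_of_nonneg hy.le,
      show Λ / y * (y * ‖v 0 - Real.pi * Complex.I‖ / Λ) = ‖v 0 - Real.pi * Complex.I‖ by
        field_simp]
    have := norm_le_norm_add_norm_sub' (v 0) (Real.pi * Complex.I)
    simpa [abs_of_pos hp] using this
  rw [← div_pow] at h1 h2 ⊢
  have ht : 0 ≤ ‖(y : ℂ) * (v 0 - Real.pi * Complex.I)‖ / Λ := by positivity
  generalize ‖(y : ℂ) * (v 0 - Real.pi * Complex.I)‖ / Λ = t at *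
  have hq : 0 < Λ / y := by positivity
  have h4 : (1 + ‖v‖) ^ 4 ≤ 4 * (1 + Real.pi + Λ / y) ^ 4 * (1 + t ^ 2) ^ 2 := by
    calc _ ≤ ((1 + Real.pi + Λ / y) * (1 + t)) ^ 4 :=
          pow_le_pow_left₀ (by positivity) (by nlinarith) 4
      _ = (1 + Real.pi + Λ / y) ^ 4 * ((1 + t) ^ 2) ^ 2 := by ring
      _ ≤ (1 + Real.pi + Λ / y) ^ 4 * (2 * (1 + t ^ 2)) ^ 2 := by
          gcongr
          nlinarith [sq_nonneg (t - 1)]
      _ = _ := by ring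
  have hA : 0 < 4 * (1 + Real.pi + Λ / y) ^ 4 := by positivity
  generalize 4 * (1 + Real.pi + Λ / y) ^ 4 = A at *
  have hD : 1 ≤ 1 + t ^ 2 := le_add_of_nonneg_right (sq_nonneg t)
  generalize 1 + t ^ 2 = D at *
  have h5 : 1 / D ^ 3 ≤ 1 / D ^ 2 :=
    one_div_le_one_div_of_le (by positivity) (pow_le_pow_right₀ hD (by norm_num))
  have h6 : 1 / D ^ 2 * (1 + ‖v‖) ^ 4 ≤ A :=
    (mul_le_mul_of_nonneg_left h4 (by positivity)).trans (le_of_eq (by field_simp))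
  have h7 : |crossT Λ y v| + ‖fderiv ℝ (crossT Λ y) v‖ ≤
      (2 * Real.pi * Λ + 14 * Real.pi * y) * (1 / D ^ 2) := by
    have h8 := mul_le_mul_of_nonneg_left h5 (show 0 ≤ 14 * Real.pi * y by positivity)
    rw [div_eq_mul_one_div] at h1 h2
    linarith
  have h8 : 0 < 2 * Real.pi * Λ + 14 * Real.pi * y := by positivity
  constructor
  · refine (mul_le_mul_of_nonneg_right h7 (by positivity)).trans ?_
    rw [mul_assoc]
    nlinarith [mul_le_mul_of_nonneg_left h6 h8.le]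
  · nlinarith [mul_le_mul_of_nonneg_right h5 (show 0 ≤ (1 + ‖v‖) ^ 4 by positivity),
      mul_pos hA h8]

end

end Crest.Agent.R166
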