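import Crest.Agent.R166.C.TransB1

/-! # Row 166, part C: the derivative in the translation parameter vanishes -/

set_option autoImplicit false
set_option linter.unusedVariables false
set_option linter.unusedSectionVars false

open MeasureTheory ProbabilityTheory Filter Topology Matrix
open scoped ENNReal BoundedContinuousFunction ComplexConjugate

namespace Crest.Agent.R166

noncomputable section

variable {ι : Type} {F : Filter ι} {n : ι → ℕ} {μ : ∀ i, Measure (Conf (n i))}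

theorem CTransB_bessel {X : Type} [MeasurableSpace X] (ν : Measure X) [IsProbabilityMeasure ν]
    {T : ℕ} (hT : 0 < T) {d : Fin T → X → ℝ} {g : X → ℝ} {D B a η u v δ : ℝ}
    (hd : ∀ l, Measurable (d l)) (hD : ∀ l x, |d l x| ≤ D) (hg : Measurable g)
    (hB : ∀ x, |g x| ≤ B) (ha : ∀ l, |a + ∫ x, d l x * g x ∂ν| ≤ η) (hu : 0 ≤ u)
    (hdd : ∀ l l', ∫ x, d l x * d l' x ∂ν ≤ (if l = l' then u else 0) + v) (hδ : 0 < δ) :
    |a| ≤ η + B * (δ + (u / T + v) / δ) := by
  have hT0 : (0 : ℝ) < T := by exact_mod_cast hT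
  have hmul : ∀ {a b : X → ℝ} {A B : ℝ}, Measurable a → Measurable b → (∀ x, |a x| ≤ A) →
      (∀ x, |b x| ≤ B) → Integrable (fun x => a x * b x) ν := by
    intro a b A B ha hb hA hB
    refine Integrable.of_bound (ha.mul hb).aestronglyMeasurable (A * B)
      (Eventually.of_forall fun x => ?_)
    rw [Real.norm_eq_abs, abs_mul]
    exact mul_le_mul (hA x) (hB x) (abs_nonneg _) (le_trans (abs_nonneg _) (hA x))
  set A : X → ℝ := fun x => (∑ l, d l x) / T with hA
  have i1 : ∀ l, Integrable (fun x => d l x * g x) ν := fun l => hmul (hd l) hg (hD l) hB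
  have i2 : ∀ l l', Integrable (fun x => d l x * d l' x) ν := fun l l' =>
    hmul (hd l) (hd l') (hD l) (hD l')
  have eA : ∀ x, A x ^ 2 = (∑ l, ∑ l', d l x * d l' x) / T ^ 2 := fun x => by
    rw [hA, div_pow, sq (∑ l, d l x), Finset.sum_mul_sum]
  have iA : Integrable (fun x => A x ^ 2) ν := by
    simp only [eA]
    exact (integrable_finsetSum _ fun l _ => integrable_finsetSum _ fun l' _ => i2 l l').div_const _
  have hA2 : ∫ x, A x ^ 2 ∂ν ≤ u / T + v := by
    simp only [eA]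
    rw [integral_div, integral_finsetSum _ fun l _ => integrable_finsetSum _ fun l' _ => i2 l l',
      div_le_iff₀ (by positivity)]
    calc ∑ l, ∫ x, ∑ l', d l x * d l' x ∂ν ≤ ∑ l : Fin T, (u + T * v) := by
          refine Finset.sum_le_sum fun l _ => ?_
          rw [integral_finsetSum _ fun l' _ => i2 l l']
          refine (Finset.sum_le_sum fun l' _ => hdd l l').trans ?_
          simp [Finset.sum_add_distrib]
      _ = _ := by
          simp only [Finset.sum_const, Finset.card_univ, Fintype.card_fin, nsmul_eq_mul]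
          field_simp
  have e1 : ∫ x, A x * g x ∂ν = (∑ l, ∫ x, d l x * g x ∂ν) / T := by
    rw [← integral_finsetSum _ fun l _ => i1 l, ← integral_div]
    refine integral_congr_ae (Eventually.of_forall fun x => ?_)
    simp only [hA]
    rw [div_mul_eq_mul_div, Finset.sum_mul]
  have h1 : |a + ∫ x, A x * g x ∂ν| ≤ η := by
    have e : a + ∫ x, A x * g x ∂ν = (∑ l, (a + ∫ x, d l x * g x ∂ν)) / T := by
      rw [e1, Finset.sum_add_distrib]
      simp only [Finset.sum_const, Finset.card_univ, Fintype.card_fin, nsmul_eq_mul]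
      field_simp
    rw [e, abs_div, abs_of_pos hT0, div_le_iff₀ hT0]
    refine (Finset.abs_sum_le_sum_abs _ _).trans ((Finset.sum_le_sum fun l _ => ha l).trans ?_)
    simp [mul_comm]
  have hne : Nonempty X := ν.nonempty_of_neZero
  have hB0 : 0 ≤ B := le_trans (abs_nonneg _) (hB hne.some)
  have h2 : |∫ x, A x * g x ∂ν| ≤ B * (δ + (u / T + v) / δ) := by
    have i3 : Integrable (fun x => B * (δ + A x ^ 2 / δ)) ν :=
      ((integrable_const δ).add (iA.div_const δ)).const_mul B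
    calc |∫ x, A x * g x ∂ν| ≤ ∫ x, B * (δ + A x ^ 2 / δ) ∂ν := by
          rw [← Real.norm_eq_abs]
          refine norm_integral_le_of_norm_le i3 (Eventually.of_forall fun x => ?_)
          rw [Real.norm_eq_abs, abs_mul, mul_comm]
          refine mul_le_mul (hB x) ?_ (abs_nonneg _) hB0
          rw [← sq_abs, ← sub_le_iff_le_add', le_div_iff₀ hδ]
          nlinarith [sq_nonneg (|A x| - δ), abs_nonneg (A x)]
      _ = B * (δ + (∫ x, A x ^ 2 ∂ν) / δ) := by
          rw [integral_const_mul, integral_add (integrable_const δ) (iA.div_const δ), integral_div]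
          simp
      _ ≤ _ := by gcongr
  have := abs_sub_abs_le_abs_sub a (-∫ x, A x * g x ∂ν)
  rw [abs_neg, sub_neg_eq_add] at this
  linarith

/-- Plan (Bessel over scales): `y_l = 2^l y₀`, `A = (1/N) Σ_{l<N} dT Λ y_l`; averaging `psiT_dT`,
`|2 E psiT| ≤ ‖f‖ E|A| + small`, `|A| ≤ δ + A²/δ`, `E A² ≤ N⁻² Σ_{l,l'} E dT dT ≤ C₁/N + 4C₂/N + C₂(Λ/√y₀ + 1/Λ) + ε`
(`Σ_{l<l'} 2^{l-l'} ≤ N`).  Choose `δ`, then `N`, `Λ`, then `y₀`. -/
theorem psiT_tendsto (hf : IsFam n μ) (hle : LoopE F n μ) (hm : MomS F n μ) {k : ℕ}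
    {w : Fin (k + 1) → ℂ} (hw : ∀ j, 0 < (w j).im) {f : (Fin (k + 1) → ℂ) → ℝ} (h1 : ContDiff ℝ 1 f)
    (hc : HasCompactSupport f) : Tendsto (fun i => ∫ p, psiT f w p ∂(μ i)) F (𝓝 0) := by
  obtain ⟨C₁, hC₁, h₁⟩ := dT_sq hf hm
  obtain ⟨C₂, hC₂, h₂⟩ := dT_cross hf hle hm
  obtain ⟨C₃, hC₃, h₃⟩ := psiT_dT hf hle hm hw h1 hc
  obtain ⟨B, hB⟩ := h1.continuous.bounded_above_of_compact_support hc
  have hB0 : 0 ≤ B := le_trans (norm_nonneg _) (hB 0)
  rw [Metric.tendsto_nhds]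
  intro ε hε
  set δ : ℝ := ε / (2 * (B + 1)) with hδ
  have hδ0 : 0 < δ := by positivity
  set κ : ℝ := min (ε / 4) (δ ^ 2 / 2) with hκ
  have hκ0 : 0 < κ := lt_min (by positivity) (by positivity)
  obtain ⟨T, hT⟩ := exists_nat_ge (1 + (C₁ + 3 * C₂ + 2 * C₃) / κ)
  have hq : 0 ≤ (C₁ + 3 * C₂ + 2 * C₃) / κ := by positivity
  have hT1 : (1 : ℝ) ≤ T := by linarith
  have hT0 : (0 : ℝ) < T := by linarith
  have hTκ : (C₁ + 3 * C₂ + 2 * C₃) / T ≤ κ := by
    rw [div_le_iff₀ hT0]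
    have : (C₁ + 3 * C₂ + 2 * C₃) / κ ≤ T := by linarith
    rw [div_le_iff₀ hκ0] at this
    linarith
  let y : Fin T → ℝ := fun l => (T : ℝ) ^ ((l : ℕ) + 4)
  have hy1 : ∀ l, 1 ≤ y l := fun l => one_le_pow₀ hT1
  have hy0 : ∀ l, 0 < y l := fun l => lt_of_lt_of_le one_pos (hy1 l)
  have hsq : ∀ l, (T : ℝ) * T ≤ √(y l) := fun l => by
    refine Real.le_sqrt_of_sq_le ?_
    calc ((T : ℝ) * T) ^ 2 = (T : ℝ) ^ 4 := by ring
      _ ≤ _ := pow_le_pow_right₀ hT1 (by omega)
  have hs1 : ∀ l, (T : ℝ) / √(y l) ≤ 1 / T := fun l => by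
    rw [div_le_div_iff₀ (Real.sqrt_pos.2 (hy0 l)) hT0, one_mul]
    exact hsq l
  have hs2 : ∀ l, 1 / √(y l) ≤ 1 / T := fun l =>
    le_trans (div_le_div_of_nonneg_right hT1 (Real.sqrt_nonneg _)) (hs1 l)
  have hr : ∀ l l' : Fin T, l < l' → y l ≤ y l' ∧ y l / y l' ≤ 1 / T := fun l l' h => by
    have h' : (l : ℕ) < l' := h
    refine ⟨pow_le_pow_right₀ hT1 (by omega), ?_⟩
    rw [div_le_div_iff₀ (hy0 l') hT0, one_mul]
    calc y l * T = (T : ℝ) ^ ((l : ℕ) + 4 + 1) := (pow_succ _ _).symm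
      _ ≤ _ := pow_le_pow_right₀ hT1 (by omega)
  have e1 : ∀ᶠ i in F, ∀ l : Fin T, ∫ p, dT T (y l) p ^ 2 ∂(μ i) ≤ C₁ + κ :=
    eventually_all.2 fun l => h₁ _ _ (hy0 l) hT0 κ hκ0
  have e2 : ∀ᶠ i in F, ∀ l l' : Fin T, l < l' →
      |∫ p, dT T (y l) p * dT T (y l') p ∂(μ i)| ≤ 3 * C₂ / T + κ := by
    refine eventually_all.2 fun l => eventually_all.2 fun l' => ?_
    by_cases h : l < l'
    · filter_upwards [h₂ _ _ _ (hy1 l) (hr l l' h).1 hT1 κ hκ0] with i hi _
      refine hi.trans (add_le_add ?_ le_rfl)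
      calc C₂ * (y l / y l' + T / √(y l) + 1 / T) ≤ C₂ * (1 / T + 1 / T + 1 / T) :=
            mul_le_mul_of_nonneg_left (by linarith [(hr l l' h).2, hs1 l]) hC₂
        _ = _ := by ring
    · exact Eventually.of_forall fun i h' => absurd h' h
  have e3 : ∀ᶠ i in F, ∀ l : Fin T, |2 * ∫ p, psiT f w p ∂(μ i)
      + ∫ p, dT T (y l) p * f (sV p w) ∂(μ i)| ≤ 2 * C₃ / T + κ := by
    refine eventually_all.2 fun l => ?_
    filter_upwards [h₃ _ _ (hy1 l) hT1 κ hκ0] with i hi
    refine hi.trans (add_le_add ?_ le_rfl)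
    calc C₃ * (1 / √(y l) + 1 / T) ≤ C₃ * (1 / T + 1 / T) :=
          mul_le_mul_of_nonneg_left (by linarith [hs2 l]) hC₃
      _ = _ := by ring
  filter_upwards [e1, e2, e3] with i a1 a2 a3
  have := (hf i).1
  have hTpos : 0 < T := by exact_mod_cast hT0
  have key := CTransB_bessel (μ i) hTpos (d := fun l p => dT T (y l) p) (g := fun p => f (sV p w))
    (fun l => (continuous_dT hT0 (hy0 l)).measurable) (fun l p => abs_dT_le hT0 _ p)
    (h1.continuous.comp (continuous_sV hw)).measurable (fun p => hB _) a3 (u := C₁)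
    (v := 3 * C₂ / T + κ) hC₁ (fun l l' => ?_) hδ0
  · rw [Real.dist_eq, sub_zero]
    rw [abs_mul, abs_two] at key
    have b1 : 2 * C₃ / T ≤ κ :=
      le_trans (div_le_div_of_nonneg_right (by linarith) hT0.le) hTκ
    have b2 : C₁ / T + (3 * C₂ / T + κ) ≤ δ ^ 2 := by
      have : C₁ / T + 3 * C₂ / T ≤ κ := by
        rw [← add_div]
        exact le_trans (div_le_div_of_nonneg_right (by linarith) hT0.le) hTκ
      have h' : κ ≤ δ ^ 2 / 2 := min_le_right _ _
      linarith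
    have b3 : (C₁ / T + (3 * C₂ / T + κ)) / δ ≤ δ := by
      rw [div_le_iff₀ hδ0, ← sq]; exact b2
    have b4 : B * (δ + (C₁ / T + (3 * C₂ / T + κ)) / δ) ≤ (B + 1) * (2 * δ) :=
      mul_le_mul (by linarith) (by linarith) (by positivity) (by linarith)
    have b5 : (B + 1) * (2 * δ) = ε := by rw [hδ]; field_simp
    have h' : κ ≤ ε / 4 := min_le_left _ _
    linarith
  · have hv : 0 ≤ 3 * C₂ / T := by positivity
    rcases lt_trichotomy l l' with h | h | h
    · rw [if_neg h.ne, zero_add]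
      exact (le_abs_self _).trans (a2 l l' h)
    · subst h
      rw [if_pos rfl]
      simp only [← sq]
      linarith [a1 l]
    · rw [if_neg h.ne', zero_add]
      simp only [mul_comm (dT (T : ℝ) (y l) _)]
      exact (le_abs_self _).trans (a2 l' l h)

end

end Crest.Agent.R166
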