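import Crest.Agent.R166.C.TransA
import Crest.Agent.R166.C.Mom

/-! # Row 166, part C: the derivative in the translation parameter vanishes -/

set_option autoImplicit false
set_option linter.unusedVariables false
set_option linter.unusedSectionVars false

open MeasureTheory ProbabilityTheory Filter Topology Matrix
open scoped ENNReal BoundedContinuousFunction ComplexConjugate

namespace Crest.Agent.R166

noncomputable section

variable {ι : Type} {F : Filter ι} {n : ι → ℕ} {μ : ∀ i, Measure (Conf (n i))}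

theorem continuous_dY {N : ℕ} {y : ℝ} (hy : 0 < y) : Continuous fun p : Conf N => dY y p := by
  have h : 0 < ((y : ℂ) * Complex.I).im := by simpa using hy
  exact continuous_const.mul (Complex.continuous_im.comp
    ((continuous_const.add ((continuous_sF h.ne').pow 2)).add (continuous_sD h)))

theorem continuous_dT {N : ℕ} {Λ y : ℝ} (hΛ : 0 < Λ) (hy : 0 < y) :
    Continuous fun p : Conf N => dT Λ y p := by
  have h : 0 < ((y : ℂ) * Complex.I).im := by simpa using hy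
  exact continuous_const.mul ((contDiff_bT hΛ).continuous.comp
    (continuous_const.mul (continuous_sDel h)))

theorem abs_dT_le {N : ℕ} {Λ : ℝ} (hΛ : 0 < Λ) (y : ℝ) (p : Conf N) :
    |dT Λ y p| ≤ 2 * Real.pi * Λ := by
  rw [dT, abs_mul, abs_of_pos (by positivity : 0 < 2 * Real.pi)]
  exact mul_le_mul_of_nonneg_left ((abs_bT_le hΛ _).trans (min_le_right _ _)) (by positivity)

/-- `|dY y p| ≤ C (1 + ‖s(w₁)‖)⁴` (`sF_bound`, `norm_sD_le`) -/
theorem abs_dY_le {y : ℝ} (hy : 0 < y) {w₁ : ℂ} (hw₁ : 0 < w₁.im) :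
    ∃ C : ℝ, ∀ (N : ℕ) (p : Conf N), |dY y p| ≤ C * (1 + ‖sF p w₁‖) ^ 4 := by
  have h : 0 < ((y : ℂ) * Complex.I).im := by simpa using hy
  obtain ⟨C, hC, hb⟩ := sF_bound hw₁ h
  refine ⟨y * (Real.pi ^ 2 + C ^ 2 + C), fun N p => ?_⟩
  obtain ⟨h1, h2⟩ := hb N p
  have h3 := (norm_sD_le p _).trans h2
  rw [dY, abs_mul, abs_of_pos hy, mul_assoc]
  refine mul_le_mul_of_nonneg_left ((Complex.abs_im_le_norm _).trans ?_) hy.le
  refine (norm_add₃_le).trans ?_
  rw [norm_pow, norm_pow, Complex.norm_real, Real.norm_of_nonneg Real.pi_pos.le]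
  generalize hs : ‖sF p w₁‖ = s at h1 h3
  have hs0 : 0 ≤ s := hs ▸ norm_nonneg _
  have e0 : 1 ≤ (1 + s) ^ 4 := one_le_pow₀ (by linarith)
  have e1 : s ≤ (1 + s) ^ 4 := (by linarith : s ≤ 1 + s).trans (le_self_pow₀ (by linarith) (by norm_num))
  have e2 : s ^ 2 ≤ (1 + s) ^ 4 := (pow_le_pow_left₀ hs0 (by linarith : s ≤ 1 + s) 2).trans
    (pow_le_pow_right₀ (by linarith) (by norm_num))
  have e3 := pow_le_pow_left₀ (norm_nonneg _) h1 2
  rw [mul_pow] at e3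
  have e4 := mul_le_mul_of_nonneg_left e0 (sq_nonneg Real.pi)
  have e5 := mul_le_mul_of_nonneg_left e1 hC
  have e6 := mul_le_mul_of_nonneg_left e2 (sq_nonneg C)
  linarith

theorem CTransB0_int (hf : IsFam n μ) {w₁ : ℂ} (hw₁ : 0 < w₁.im) {B : ℝ}
    {ω : ∀ i, Conf (n i) → ℝ} (hω : Wt n w₁ B ω) (i : ι) {w : ℂ} (hw : 0 < w.im) {q : ℕ}
    (hq : q ≤ 4) : Integrable (fun p => (w.im * ‖sDel p w‖) ^ q * ω i p) (μ i) := by
  obtain ⟨C, hC, hb⟩ := sF_bound hw₁ hw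
  have hπ := Real.pi_pos
  refine integrable_wt hf hw₁ hω i
    ((continuous_const.mul (continuous_sDel hw).norm).pow q).measurable
    (C := (w.im * (C + Real.pi)) ^ q) fun p => ?_
  have h1 : ‖sDel p w‖ ≤ (C + Real.pi) * (1 + ‖sF p w₁‖) := by
    refine (norm_sub_le _ _).trans ?_
    rw [norm_mul, Complex.norm_real, Complex.norm_I, Real.norm_of_nonneg hπ.le]
    have h2 := (hb _ p).1
    have h3 := mul_nonneg hπ.le (norm_nonneg (sF p w₁))
    linarith
  rw [abs_of_nonneg (by positivity)]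
  calc _ ≤ (w.im * ((C + Real.pi) * (1 + ‖sF p w₁‖))) ^ q := by gcongr
    _ = (w.im * (C + Real.pi)) ^ q * (1 + ‖sF p w₁‖) ^ q := by rw [← mul_assoc, mul_pow]
    _ ≤ _ := mul_le_mul_of_nonneg_left
      (pow_le_pow_right₀ (le_add_of_nonneg_right (norm_nonneg _)) hq) (by positivity)

/-- `abs_dY_sub_dT`, `mom_wt` five times (`q = 0, 1, 1, 2, 3`), `integrable_wt` -/
theorem dY_sub_dT_wt (hf : IsFam n μ) (hm : MomS F n μ) : ∃ C : ℝ, 0 ≤ C ∧ ∀ (y Λ : ℝ), 1 ≤ y → 0 < Λ →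
    ∀ w₁ : ℂ, 0 < w₁.im → ∀ (B : ℝ) (ω : ∀ i, Conf (n i) → ℝ), Wt n w₁ B ω → ∀ ε : ℝ, 0 < ε →
      ∀ᶠ i in F, ∫ p, |dY y p - dT Λ y p| * ω i p ∂(μ i) ≤ B * C * (1 / √y + 1 / Λ ^ 2) + ε := by
  obtain ⟨C₀, hC₀, h₀⟩ := mom_wt hf hm
  have hπ := Real.pi_pos
  refine ⟨C₀ * (4 + 6 * Real.pi), by positivity, fun y Λ hy hΛ w₁ hw₁ B ω hω ε hε => ?_⟩
  have hy0 : 0 < y := one_pos.trans_le hy
  have hq : 0 < √y := Real.sqrt_pos.2 hy0
  have i1 : ((y : ℂ) * Complex.I).im = y := by simp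
  have i2 : ((y : ℂ) * Complex.I + (√y : ℝ)).im = y := by simp
  have h1 : 0 < ((y : ℂ) * Complex.I).im := by rwa [i1]
  have h2 : 0 < ((y : ℂ) * Complex.I + (√y : ℝ)).im := by rwa [i2]
  obtain ⟨K, hK⟩ : ∃ K, K = (4 + Real.pi) / √y + 6 * Real.pi / Λ ^ 2 := ⟨_, rfl⟩
  have hK0 : 0 < K := by rw [hK]; positivity
  have hε' : 0 < ε / K := by positivity
  filter_upwards [h₀ 0 (by norm_num) _ w₁ h1 hw₁ B ω hω _ hε', h₀ 1 (by norm_num) _ w₁ h1 hw₁ B ω hω _ hε',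
    h₀ 2 (by norm_num) _ w₁ h1 hw₁ B ω hω _ hε', h₀ 3 (by norm_num) _ w₁ h1 hw₁ B ω hω _ hε',
    h₀ 1 (by norm_num) _ w₁ h2 hw₁ B ω hω _ hε'] with i m0 m1 m2 m3 m4
  have n0 := CTransB0_int hf hw₁ hω i h1 (q := 0) (by norm_num)
  have n1 := CTransB0_int hf hw₁ hω i h1 (q := 1) (by norm_num)
  have n2 := CTransB0_int hf hw₁ hω i h1 (q := 2) (by norm_num)
  have n3 := CTransB0_int hf hw₁ hω i h1 (q := 3) (by norm_num)
  have n4 := CTransB0_int hf hw₁ hω i h2 (q := 1) (by norm_num)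
  rw [i1] at m0 m1 m2 m3 n0 n1 n2 n3
  rw [i2] at m4 n4
  have hB : 0 ≤ B := (hω.2.1 i 0).1.trans (hω.2.1 i 0).2
  have a1 := n2.add (n1.const_mul 2)
  have a2 := a1.add n4
  have a3 := a2.add (n0.const_mul Real.pi)
  have a4 := a3.const_mul (1 / √y)
  have a5 := n3.const_mul (6 * Real.pi / Λ ^ 2)
  refine (integral_mono_of_nonneg
    (Eventually.of_forall fun p => mul_nonneg (abs_nonneg _) (hω.2.1 i p).1) (a4.add a5)
    (Eventually.of_forall fun p => ?_)).trans ?_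
  · refine (mul_le_mul_of_nonneg_right (abs_dY_sub_dT p hy hΛ) (hω.2.1 i p).1).trans (le_of_eq ?_)
    simp only [Pi.add_apply]
    ring
  · rw [integral_add' a4 a5, integral_const_mul, integral_const_mul, integral_add' a2 (n0.const_mul _),
      integral_add' a1 n4, integral_add' n2 (n1.const_mul _), integral_const_mul, integral_const_mul]
    obtain ⟨T, hT⟩ : ∃ T, T = B * C₀ + ε / K := ⟨_, rfl⟩
    rw [← hT] at m0 m1 m2 m3 m4
    calc _ ≤ 1 / √y * (T + 2 * T + T + Real.pi * T) + 6 * Real.pi / Λ ^ 2 * T := by gcongr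
      _ = T * K := by rw [hK]; ring
      _ = B * C₀ * K + ε := by rw [hT, add_mul, div_mul_cancel₀ _ hK0.ne']
      _ ≤ B * C₀ * ((4 + 6 * Real.pi) * (1 / √y + 1 / Λ ^ 2)) + ε := by
        refine add_le_add (mul_le_mul_of_nonneg_left ?_ (mul_nonneg hB hC₀)) le_rfl
        rw [hK, mul_add, mul_one_div, mul_one_div]
        gcongr <;> linarith
      _ = _ := by ring

/-- `dT² ≤ 4π² y² min(‖Δ‖, Λ/y)²`, `MomS` with `m = 1` -/
theorem dT_sq (hf : IsFam n μ) (hm : MomS F n μ) : ∃ C : ℝ, 0 ≤ C ∧ ∀ (y Λ : ℝ), 0 < y → 0 < Λ →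
    ∀ ε : ℝ, 0 < ε → ∀ᶠ i in F, ∫ p, dT Λ y p ^ 2 ∂(μ i) ≤ C + ε := by
  obtain ⟨C₀, h₀⟩ := hm 1
  have hπ := Real.pi_pos
  refine ⟨(2 * Real.pi) ^ 2 * |C₀|, by positivity, fun y Λ hy hΛ ε hε => ?_⟩
  have i1 : ((y : ℂ) * Complex.I).im = y := by simp
  have h1 : 0 < ((y : ℂ) * Complex.I).im := by rwa [i1]
  obtain ⟨K, hK⟩ : ∃ K, K = (2 * Real.pi) ^ 2 * y ^ 2 := ⟨_, rfl⟩
  have hK0 : 0 < K := by rw [hK]; positivity
  filter_upwards [h₀ _ h1 (Λ / y) (by positivity) (ε / K) (by positivity)] with i hi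
  rw [i1, mul_one] at hi
  have := (hf i).1
  have hint : Integrable (fun p : Conf (n i) => min ‖sDel p (y * Complex.I)‖ (Λ / y) ^ 2) (μ i) := by
    refine Integrable.of_bound
      ((((continuous_sDel h1).norm.min continuous_const).pow 2).aestronglyMeasurable) ((Λ / y) ^ 2)
      (Eventually.of_forall fun p => ?_)
    rw [Real.norm_of_nonneg (sq_nonneg _)]
    exact pow_le_pow_left₀ (le_min (norm_nonneg _) (by positivity)) (min_le_right _ _) 2
  refine (integral_mono_of_nonneg (Eventually.of_forall fun p => sq_nonneg _) (hint.const_mul K)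
    (Eventually.of_forall fun p => ?_)).trans ?_
  · have h2 := abs_bT_le hΛ (y * sDel p (y * Complex.I))
    have h3 : min ‖(y : ℂ) * sDel p (y * Complex.I)‖ Λ
        = y * min ‖sDel p (y * Complex.I)‖ (Λ / y) := by
      rw [mul_min_of_nonneg _ _ hy.le, mul_div_cancel₀ _ hy.ne', norm_mul, Complex.norm_real,
        Real.norm_of_nonneg hy.le]
    rw [h3] at h2
    have h4 := pow_le_pow_left₀ (abs_nonneg _) h2 2
    rw [sq_abs, mul_pow] at h4
    simp only [dT]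
    rw [hK, mul_pow, mul_assoc]
    exact mul_le_mul_of_nonneg_left h4 (by positivity)
  · rw [integral_const_mul]
    refine (mul_le_mul_of_nonneg_left hi hK0.le).trans ?_
    rw [mul_add, mul_div_cancel₀ _ hK0.ne', hK, mul_assoc, mul_div_cancel₀ _ (by positivity)]
    gcongr
    exact le_abs_self _

end

end Crest.Agent.R166
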