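import Crest.Agent.R166.C.Det

/-! # Row 166, part C: translation invariance -/

set_option autoImplicit false
set_option linter.unusedVariables false
set_option linter.unusedSectionVars false

open MeasureTheory ProbabilityTheory Filter Topology Matrix
open scoped ENNReal BoundedContinuousFunction ComplexConjugate

namespace Crest.Agent.R166

noncomputable section

theorem CTransC0_supp {k : ℕ} {f : (Fin k → ℂ) → ℝ} (h1 : ContDiff ℝ 1 f)
    (hc : HasCompactSupport f) : ∃ R M : ℝ, 0 < R ∧ 0 < M ∧ (∀ x, R < ‖x‖ → fderiv ℝ f x = 0) ∧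
      ∀ x, ‖fderiv ℝ f x‖ ≤ M := by
  have hc' : HasCompactSupport (fderiv ℝ f) := hc.fderiv ℝ
  obtain ⟨R, hR, h⟩ := hc'.isCompact.isBounded.exists_pos_norm_le
  obtain ⟨M, hM⟩ := (h1.continuous_fderiv one_ne_zero).bounded_above_of_compact_support hc'
  exact ⟨R, max M 1, hR, lt_max_of_lt_right one_pos,
    fun x hx => image_eq_zero_of_notMem_tsupport fun hx' => (h x hx').not_gt hx,
    fun x => (hM x).trans (le_max_left _ _)⟩

theorem CTransC0_K {k : ℕ} {w : Fin k → ℂ} (hw : ∀ j, 0 < (w j).im) :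
    ∃ K : ℝ, 0 < K ∧ ∀ j, 1 / (w j).im ≤ K := by
  have h0 : ∀ j, 0 ≤ 1 / (w j).im := fun j => (one_div_pos.2 (hw j)).le
  refine ⟨∑ j, 1 / (w j).im + 1, add_pos_of_nonneg_of_pos (Finset.sum_nonneg fun j _ => h0 j) one_pos,
    fun j => ?_⟩
  have := Finset.single_le_sum (f := fun j => 1 / (w j).im) (fun j _ => h0 j) (Finset.mem_univ j)
  linarith

theorem CTransC0_sN {n k : ℕ} (p : Conf n) {w : Fin k → ℂ} (hw : ∀ j, 0 < (w j).im) {K R : ℝ}
    (hK : ∀ j, 1 / (w j).im ≤ K) (hR : ‖sV p w‖ ≤ R) (j : Fin k) : sN p (w j) ≤ R * K := by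
  have h1 : (w j).im * sN p (w j) ≤ R := by
    rw [← im_sF]
    exact ((le_abs_self _).trans (Complex.abs_im_le_norm _)).trans
      ((norm_le_pi_norm (sV p w) j).trans hR)
  have h2 : sN p (w j) ≤ R * (1 / (w j).im) := by
    rw [mul_one_div, le_div_iff₀' (hw j)]
    exact h1
  exact h2.trans (mul_le_mul_of_nonneg_left (hK j) ((norm_nonneg _).trans hR))

/-- Plan: `y = min_j Im (w j)`.  For `|t - t'| ≤ δ ≤ 1`: `‖sV(w+t) - sV(w+t')‖` and `‖sD(w+t) - sD(w+t')‖` are at most
`C δ ‖sV(w+t)‖` (`norm_sF_sub`, `norm_sD_sub`, `sN ≤ ‖s‖/y`), `‖sD(w+t')‖ ≤ C‖sV(w+t)‖`.  If `‖sV (w+t)‖ ≤ R₁` use the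
uniform continuity of `fderiv f`; by symmetry the same if `‖sV (w+t')‖ ≤ R₁`; otherwise both terms vanish
(`R₁` = radius of the support). -/
theorem psiT_unif {k : ℕ} {w : Fin k → ℂ} (hw : ∀ j, 0 < (w j).im) {f : (Fin k → ℂ) → ℝ}
    (h1 : ContDiff ℝ 1 f) (hc : HasCompactSupport f) {ε : ℝ} (hε : 0 < ε) :
    ∃ δ : ℝ, 0 < δ ∧ ∀ t t' : ℝ, |t - t'| ≤ δ → ∀ (n : ℕ) (p : Conf n),
      |psiT f (fun j => w j + t) p - psiT f (fun j => w j + t') p| ≤ ε := by
  obtain ⟨R, M, hR, hM, hz, hb⟩ := CTransC0_supp h1 hc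
  obtain ⟨K, hK0, hK⟩ := CTransC0_K hw
  have huc := (hc.fderiv ℝ).uniformContinuous_of_continuous (h1.continuous_fderiv one_ne_zero)
  obtain ⟨δ₁, hδ₁, hu⟩ := Metric.uniformContinuous_iff_le.1 huc (ε / 2 / (R * K)) (by positivity)
  set A := (1 + K) * (R * K) with hA
  have hA0 : 0 < A := by positivity
  refine ⟨min 1 (min (δ₁ / A) (ε / 2 / (M * (2 * K * A)))), by positivity, ?_⟩
  have key : ∀ t t' : ℝ, |t - t'| ≤ min 1 (min (δ₁ / A) (ε / 2 / (M * (2 * K * A)))) →
      ∀ (n : ℕ) (p : Conf n), ‖sV p fun j => w j + t‖ ≤ R →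
      |psiT f (fun j => w j + t) p - psiT f (fun j => w j + t') p| ≤ ε := by
    intro t t' ht n p hp
    have e : ∀ (j) (t : ℝ), (w j + t).im = (w j).im := fun j t => by simp
    have hw' : ∀ (t : ℝ) j, 0 < (w j + t).im := fun t j => by rw [e]; exact hw j
    have hN := CTransC0_sN p (hw' t) (fun j => by rw [e]; exact hK j) hp
    have hd : ∀ j, ‖w j + t - (w j + t')‖ = |t - t'| := fun j => by
      rw [add_sub_add_left_eq_sub, ← Complex.ofReal_sub, Complex.norm_real, Real.norm_eq_abs]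
    have ht1 := ht.trans (min_le_left _ _)
    have ht2 := (le_div_iff₀ hA0).1 (ht.trans ((min_le_right _ _).trans (min_le_left _ _)))
    have ht3 := (le_div_iff₀ (by positivity)).1
      (ht.trans ((min_le_right _ _).trans (min_le_right _ _)))
    have hq : ∀ j, |t - t'| / (w j).im ≤ K := fun j =>
      (div_le_div_of_nonneg_right ht1 (hw j).le).trans (hK j)
    have a1 : ‖(sV p fun j => w j + t') - sV p fun j => w j + t‖ ≤ |t - t'| * A := by
      refine (pi_norm_le_iff_of_nonneg (by positivity)).2 fun j => ?_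
      refine (norm_sF_sub p (hw' t j) (hw' t' j)).trans ?_
      rw [hd, e, hA, ← mul_assoc]
      have := hq j
      have := hN j
      have := sN_nonneg p (w j + t)
      have := hw j
      gcongr
    have a2 : ‖(fun j => sD p (w j + t)) - fun j => sD p (w j + t')‖ ≤ |t - t'| * (2 * K * A) := by
      rw [norm_sub_rev]
      refine (pi_norm_le_iff_of_nonneg (by positivity)).2 fun j => ?_
      refine (norm_sD_sub p (hw' t j) (hw' t' j)).trans ?_
      rw [hd, e, e]
      have := hq j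
      have := hN j
      have := sN_nonneg p (w j + t)
      have := hw j
      have := hK j
      calc _ ≤ |t - t'| * (1 + K) * (K + K) * (R * K) := by gcongr
        _ = _ := by rw [hA]; ring
    have a3 : ‖fun j => sD p (w j + t)‖ ≤ R * K :=
      (pi_norm_le_iff_of_nonneg (by positivity)).2 fun j => (norm_sD_le p _).trans (hN j)
    have a4 := hu (a := sV p fun j => w j + t) (b := sV p fun j => w j + t')
      (by rw [dist_comm, dist_eq_norm]; exact a1.trans ht2)
    rw [dist_eq_norm] at a4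
    have e2 : psiT f (fun j => w j + t) p - psiT f (fun j => w j + t') p =
        (fderiv ℝ f (sV p fun j => w j + t) - fderiv ℝ f (sV p fun j => w j + t'))
          (fun j => sD p (w j + t)) + fderiv ℝ f (sV p fun j => w j + t')
            ((fun j => sD p (w j + t)) - fun j => sD p (w j + t')) := by
      simp only [psiT, ContinuousLinearMap.sub_apply, map_sub]
      ring
    rw [e2, ← Real.norm_eq_abs]
    refine (norm_add_le _ _).trans ((add_le_add
      ((ContinuousLinearMap.le_opNorm _ _).trans (mul_le_mul a4 a3 (norm_nonneg _) (by positivity)))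
      ((ContinuousLinearMap.le_opNorm _ _).trans (mul_le_mul (hb _) a2 (norm_nonneg _) hM.le))).trans
      ?_)
    rw [div_mul_cancel₀ _ (by positivity)]
    linarith
  intro t t' ht n p
  rcases le_or_gt ‖sV p fun j => w j + t‖ R with h | h
  · exact key t t' ht n p h
  rcases le_or_gt ‖sV p fun j => w j + t'‖ R with h' | h'
  · rw [abs_sub_comm] at ht ⊢
    exact key t' t ht n p h'
  · simp [psiT, hz _ h, hz _ h', hε.le]

theorem psiT_bdd {k : ℕ} {w : Fin k → ℂ} (hw : ∀ j, 0 < (w j).im) {f : (Fin k → ℂ) → ℝ}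
    (h1 : ContDiff ℝ 1 f) (hc : HasCompactSupport f) :
    ∃ C : ℝ, ∀ (n : ℕ) (p : Conf n), |psiT f w p| ≤ C := by
  obtain ⟨R, M, hR, hM, hz, hb⟩ := CTransC0_supp h1 hc
  obtain ⟨K, hK0, hK⟩ := CTransC0_K hw
  refine ⟨M * (R * K), fun n p => ?_⟩
  rcases le_or_gt ‖sV p w‖ R with h | h
  · have a3 : ‖fun j => sD p (w j)‖ ≤ R * K :=
      (pi_norm_le_iff_of_nonneg (by positivity)).2 fun j =>
        (norm_sD_le p _).trans (CTransC0_sN p hw hK h j)
    rw [← Real.norm_eq_abs]
    exact (ContinuousLinearMap.le_opNorm _ _).trans (mul_le_mul (hb _) a3 (norm_nonneg _) hM.le)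
  · simp only [psiT, hz _ h, ContinuousLinearMap.zero_apply, abs_zero]
    positivity

theorem continuous_psiT {n k : ℕ} {w : Fin k → ℂ} (hw : ∀ j, 0 < (w j).im) {f : (Fin k → ℂ) → ℝ}
    (h1 : ContDiff ℝ 1 f) : Continuous fun p : Conf n => psiT f w p := ((h1.continuous_fderiv one_ne_zero).comp (continuous_sV hw)).clm_apply
    (continuous_pi fun j => continuous_sD (hw j))

theorem hasDerivAt_f_sV {n k : ℕ} (p : Conf n) {w : Fin k → ℂ} (hw : ∀ j, 0 < (w j).im)
    {f : (Fin k → ℂ) → ℝ} (h1 : ContDiff ℝ 1 f) (τ : ℝ) :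
    HasDerivAt (fun t : ℝ => f (sV p fun j => w j + t)) (psiT f (fun j => w j + τ) p) τ := by
  have h2 : HasDerivAt (fun t : ℝ => sV p fun j => w j + t) (fun j => sD p (w j + τ)) τ :=
    hasDerivAt_pi.2 fun j => hasDerivAt_sF p (hw j) τ
  exact (h1.differentiable one_ne_zero _).hasFDerivAt.comp_hasDerivAt τ h2

variable {ι : Type} {F : Filter ι} {n : ι → ℕ} {μ : ∀ i, Measure (Conf (n i))}

end

end Crest.Agent.R166
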