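import Crest.Agent.R166.C.TransB0
import Crest.Agent.R166.C.TransC0

/-! # Row 166, part C: the derivative in the translation parameter vanishes -/

set_option autoImplicit false
set_option linter.unusedVariables false
set_option linter.unusedSectionVars false

open MeasureTheory ProbabilityTheory Filter Topology Matrix
open scoped ENNReal BoundedContinuousFunction ComplexConjugate

namespace Crest.Agent.R166

noncomputable section

variable {ι : Type} {F : Filter ι} {n : ι → ℕ} {μ : ∀ i, Measure (Conf (n i))}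

/-- the deformation term of the real loop equation -/
def CTransB1_def {N k : ℕ} (y : ℝ) (w : Fin k → ℂ) (f : (Fin k → ℂ) → ℝ) (p : Conf N) : ℝ :=
  ∑ i, fderiv ℝ f (sV p w) (eV w (p.1 i)) * (y ^ 2 / (p.1 i ^ 2 + y ^ 2))

theorem CTransB1_core (hf : IsFam n μ) (hle : LoopE F n μ) (hm : MomS F n μ) : ∃ C : ℝ, 0 ≤ C ∧
    ∀ {k : ℕ} {w : Fin (k + 1) → ℂ}, (∀ j, 0 < (w j).im) → ∀ {f : (Fin (k + 1) → ℂ) → ℝ},
      ContDiff ℝ 1 f → ∀ {C' : ℝ}, (∀ s, (|f s| + ‖fderiv ℝ f s‖) * (1 + ‖s‖) ^ 4 ≤ C') →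
      ∀ {B : ℝ}, (∀ s, |f s| ≤ B) → ∀ {y Λ : ℝ}, 1 ≤ y → 0 < Λ → ∀ {ε : ℝ}, 0 < ε → ∀ᶠ i in F,
        Integrable (CTransB1_def y w f) (μ i) ∧
        |∫ p, dT Λ y p * f (sV p w) ∂(μ i) + 2 * ∫ p, CTransB1_def y w f p ∂(μ i)| ≤
          B * C * (1 / √y + 1 / Λ ^ 2) + ε := by
  obtain ⟨C, hC, h⟩ := dY_sub_dT_wt hf hm
  refine ⟨C, hC, fun {k w} hw {f} h1 {C'} hC' {B} hB {y Λ} hy hΛ {ε} hε => ?_⟩
  have hy0 : 0 < y := lt_of_lt_of_le one_pos hy
  have hyI : 0 < ((y : ℂ) * Complex.I).im := by simpa using hy0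
  have hdec := dec_ofReal h1 hC'
  have hgc : ∀ N, Continuous fun p : Conf N => f (sV p w) := fun N =>
    h1.continuous.comp (continuous_sV hw)
  have hω : Wt n (w 0) B fun i p => |f (sV p w)| := by
    refine ⟨fun i => (hgc _).abs.measurable, fun i p => ⟨abs_nonneg _, hB _⟩, C', fun i p => ?_⟩
    refine le_trans ?_ (hC' (sV p w))
    have a1 : ‖sF p (w 0)‖ ≤ ‖sV p w‖ := norm_le_pi_norm (sV p w) 0
    gcongr
    exact le_add_of_nonneg_right (norm_nonneg _)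
  obtain ⟨C₁, hC₁⟩ := leI_bdd hyI hw hdec
  obtain ⟨C₂, hC₂⟩ := abs_dY_le hy0 (hw 0)
  have hl := ((Complex.continuous_im.tendsto 0).comp (hle k _ w hyI hw _ hdec)).const_mul y
  simp only [Complex.zero_im, mul_zero] at hl
  filter_upwards [Metric.tendsto_nhds.1 hl (ε / 2) (half_pos hε),
    h y Λ hy hΛ (w 0) (hw 0) B _ hω (ε / 2) (half_pos hε)] with i a1 a2
  have := (hf i).1
  have i0 : Integrable (fun p => leI p (y * Complex.I) w fun s => (f s : ℂ)) (μ i) :=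
    Integrable.of_bound (continuous_leI hyI hw hdec.1).aestronglyMeasurable C₁
      (Eventually.of_forall fun p => hC₁ _ p)
  have i1 : Integrable (fun p => dY y p * f (sV p w)) (μ i) := by
    refine (integrable_wt hf (hw 0) hω i (continuous_dY hy0).measurable (hC₂ _)).mono
      ((continuous_dY hy0).mul (hgc _)).aestronglyMeasurable (Eventually.of_forall fun p => ?_)
    simp
  have i2 : Integrable (fun p => dT Λ y p * f (sV p w)) (μ i) := by
    refine Integrable.of_bound ((continuous_dT hΛ hy0).mul (hgc _)).aestronglyMeasurable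
      (2 * Real.pi * Λ * B) (Eventually.of_forall fun p => ?_)
    rw [Real.norm_eq_abs, abs_mul]
    exact mul_le_mul (abs_dT_le hΛ y p) (hB _) (abs_nonneg _) (by positivity)
  have e : ∀ p : Conf (n i), y * (leI p (y * Complex.I) w fun s => (f s : ℂ)).im
      = dY y p * f (sV p w) + 2 * CTransB1_def y w f p := fun p => im_leI p hy0 w h1
  have i3 : Integrable (CTransB1_def y w f) (μ i) := by
    refine (((i0.im.const_mul y).sub i1).div_const 2).congr (Eventually.of_forall fun p => ?_)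
    have := e p
    simp only [Pi.sub_apply, RCLike.im_to_complex]
    linarith
  refine ⟨i3, ?_⟩
  have e2 : y * (∫ p, leI p (y * Complex.I) w fun s => (f s : ℂ) ∂(μ i)).im =
      ∫ p, dY y p * f (sV p w) ∂(μ i) + 2 * ∫ p, CTransB1_def y w f p ∂(μ i) := by
    rw [← integral_const_mul, ← integral_add i1 (i3.const_mul 2), ← funext e, integral_const_mul]
    congr 1
    exact (integral_im i0).symm
  have a3 : |∫ p, dY y p * f (sV p w) ∂(μ i) - ∫ p, dT Λ y p * f (sV p w) ∂(μ i)| ≤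
      ∫ p, |dY y p - dT Λ y p| * |f (sV p w)| ∂(μ i) := by
    rw [← integral_sub i1 i2]
    refine (abs_integral_le_integral_abs).trans (le_of_eq ?_)
    simp only [← sub_mul, abs_mul]
  simp only [Function.comp, Real.dist_eq, sub_zero] at a1
  rw [e2] at a1
  rw [abs_le] at a3 ⊢
  rw [abs_lt] at a1
  constructor <;> linarith [a1.1, a1.2, a3.1, a3.2]

theorem CTransB1_wt (hf : IsFam n μ) (hm : MomS F n μ) : ∃ C : ℝ, 0 ≤ C ∧
    ∀ {y : ℝ}, 1 ≤ y → ∀ {w₁ : ℂ}, 0 < w₁.im → ∀ {B : ℝ} {ω : ∀ i, Conf (n i) → ℝ}, Wt n w₁ B ω →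
      ∀ {ε : ℝ}, 0 < ε → ∀ᶠ i in F,
        Integrable (fun p => (Real.pi + y * ‖sDel p (y * Complex.I)‖) * ω i p) (μ i) ∧
        ∫ p, (Real.pi + y * ‖sDel p (y * Complex.I)‖) * ω i p ∂(μ i) ≤ B * C + ε := by
  obtain ⟨C, hC, h⟩ := mom_wt hf hm
  have hpi := Real.pi_pos
  refine ⟨Real.pi + C, by positivity, fun {y} hy {w₁} hw₁ {B ω} hω {ε} hε => ?_⟩
  have hy0 : 0 < y := lt_of_lt_of_le one_pos hy
  have hyI : 0 < ((y : ℂ) * Complex.I).im := by simpa using hy0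
  obtain ⟨C₁, hC₁, h₁⟩ := sF_bound hw₁ hyI
  filter_upwards [h 1 (by norm_num) _ w₁ hyI hw₁ B ω hω ε hε] with i a1
  have := (hf i).1
  have i1 : Integrable (fun p => Real.pi * ω i p) (μ i) :=
    (Integrable.of_bound (hω.1 i).aestronglyMeasurable B (Eventually.of_forall fun p => by
      rw [Real.norm_of_nonneg (hω.2.1 i p).1]; exact (hω.2.1 i p).2)).const_mul _
  have i2 : Integrable (fun p => y * ‖sDel p (y * Complex.I)‖ * ω i p) (μ i) := by
    refine integrable_wt hf hw₁ hω i ((continuous_sDel hyI).norm.const_mul y).measurable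
      (C := y * (C₁ + Real.pi)) fun p => ?_
    rw [abs_of_nonneg (by positivity), mul_assoc]
    refine mul_le_mul_of_nonneg_left ?_ hy0.le
    have b1 : ‖sDel p (y * Complex.I)‖ ≤ C₁ * ‖sF p w₁‖ + Real.pi := by
      refine (norm_sub_le _ _).trans (add_le_add (h₁ _ p).1 (le_of_eq ?_))
      simp [abs_of_pos hpi]
    have b2 : 1 + ‖sF p w₁‖ ≤ (1 + ‖sF p w₁‖) ^ 4 :=
      le_self_pow₀ (le_add_of_nonneg_right (norm_nonneg _)) (by norm_num)
    have b3 := mul_le_mul_of_nonneg_left b2 (show 0 ≤ C₁ + Real.pi by positivity)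
    nlinarith [norm_nonneg (sF p w₁)]
  simp only [add_mul]
  refine ⟨i1.add i2, ?_⟩
  rw [integral_add i1 i2]
  have a2 : ∫ p, Real.pi * ω i p ∂(μ i) ≤ B * Real.pi := by
    calc _ ≤ ∫ _, B * Real.pi ∂(μ i) := integral_mono i1 (integrable_const _) fun p => by
          have := (hω.2.1 i p).2
          simp only
          nlinarith
      _ = _ := by simp
  simp only [Complex.mul_im, Complex.ofReal_re, Complex.I_im, mul_one, Complex.ofReal_im,
    Complex.I_re, mul_zero, add_zero, pow_one] at a1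
  linarith

/-- Plan: `LoopE` at `w₀ = iy` with the test function `crossT Λ y'` at `w = iy'` (`dT Λ y' p = crossT Λ y' (sV p w)`),
`im_leI`; `dY_sub_dT_wt` with the weight `|dT Λ y'|` (`B = 2πΛ`), `abs_def_cross`, `norm_fderiv_crossT` and `mom_wt`
(`q = 0, 1`) with the weight `(1 + ‖y' Δ(iy')‖²/Λ²)^{-3}` (`B = 1`, `decay_crossT`). -/
theorem dT_cross (hf : IsFam n μ) (hle : LoopE F n μ) (hm : MomS F n μ) : ∃ C : ℝ, 0 ≤ C ∧
    ∀ (y y' Λ : ℝ), 1 ≤ y → y ≤ y' → 1 ≤ Λ → ∀ ε : ℝ, 0 < ε → ∀ᶠ i in F,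
      |∫ p, dT Λ y p * dT Λ y' p ∂(μ i)| ≤ C * (y / y' + Λ / √y + 1 / Λ) + ε := by
  obtain ⟨C₁, hC₁, h₁⟩ := CTransB1_core hf hle hm
  obtain ⟨C₂, hC₂, h₂⟩ := CTransB1_wt hf hm
  have hpi := Real.pi_pos
  refine ⟨2 * Real.pi * C₁ + 28 * Real.pi * C₂, by positivity, fun y y' Λ hy hyy hΛ ε hε => ?_⟩
  have hy0 : 0 < y := lt_of_lt_of_le one_pos hy
  have hy' : 0 < y' := lt_of_lt_of_le hy0 hyy
  have hΛ0 : 0 < Λ := lt_of_lt_of_le one_pos hΛ
  have hw : ∀ j : Fin (0 + 1), 0 < ((fun _ => (y' : ℂ) * Complex.I : Fin (0 + 1) → ℂ) j).im :=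
    fun _ => by simpa using hy'
  obtain ⟨C', hC'⟩ := decay_crossT hΛ0 hy'
  have hB : ∀ v, |crossT Λ y' v| ≤ 2 * Real.pi * Λ := fun v => by
    rw [crossT, abs_mul, abs_of_pos (by positivity)]
    exact mul_le_mul_of_nonneg_left ((abs_bT_le hΛ0 _).trans (min_le_right _ _)) (by positivity)
  let ω : ∀ i, Conf (n i) → ℝ := fun i p =>
    1 / (1 + ‖(y' : ℂ) * sDel p (y' * Complex.I)‖ ^ 2 / Λ ^ 2) ^ 3
  have hω : Wt n (y' * Complex.I) 1 ω := by
    refine ⟨fun i => ?_, fun i p => ⟨by positivity, ?_⟩, C', fun i p => ?_⟩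
    · have := continuous_sDel (n := n i) (hw 0)
      exact Measurable.const_div (by fun_prop) 1
    · exact div_le_one_of_le₀ (one_le_pow₀ (le_add_of_nonneg_right (by positivity)))
        (by positivity)
    · have := (hC' (sV p fun _ => y' * Complex.I)).2
      rwa [show ‖sV p fun _ : Fin (0 + 1) => (y' : ℂ) * Complex.I‖ = ‖sF p (y' * Complex.I)‖ from
        pi_norm_const _] at this
  have hq : 0 ≤ y / y' := by positivity
  have hq1 : y / y' ≤ 1 := (div_le_one hy').2 hyy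
  filter_upwards [h₁ hw (contDiff_crossT hΛ0 y') (fun v => (hC' v).1) hB hy hΛ0 (half_pos hε),
    h₂ hy (hw 0) hω (show 0 < ε / (56 * Real.pi) by positivity)] with i a1 a2
  obtain ⟨-, a1⟩ := a1
  obtain ⟨i2, a2⟩ := a2
  have a3 : |∫ p, CTransB1_def y (fun _ : Fin (0 + 1) => (y' : ℂ) * Complex.I) (crossT Λ y') p
      ∂(μ i)| ≤ 14 * Real.pi * (y / y') * (1 * C₂ + ε / (56 * Real.pi)) := by
    refine le_trans ?_ (mul_le_mul_of_nonneg_left a2 (by positivity))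
    rw [← integral_const_mul, ← Real.norm_eq_abs]
    refine norm_integral_le_of_norm_le (i2.const_mul _) (Eventually.of_forall fun p => ?_)
    refine (abs_def_cross p hy hy' _).trans ?_
    have b1 := norm_fderiv_crossT hΛ0 hy' (sV p fun _ => y' * Complex.I)
    calc _ ≤ 14 * Real.pi * y' * ω i p * (y / y' ^ 2) *
          (Real.pi + y * ‖sDel p (y * Complex.I)‖) := by
          gcongr
          exact b1.trans (le_of_eq (by simp only [ω, sV, sDel]; ring))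
      _ = _ := by field_simp
  have a4 : 14 * Real.pi * (y / y') * (ε / (56 * Real.pi)) ≤ ε / 4 := by
    calc _ = y / y' * (ε / 4) := by field_simp; ring
      _ ≤ _ := mul_le_of_le_one_left (by positivity) hq1
  have a5 : 2 * Real.pi * Λ * C₁ * (1 / √y + 1 / Λ ^ 2) = 2 * Real.pi * C₁ * (Λ / √y + 1 / Λ) := by
    field_simp
  have e : ∫ p, dT Λ y p * dT Λ y' p ∂(μ i) =
      ∫ p, dT Λ y p * crossT Λ y' (sV p fun _ => y' * Complex.I) ∂(μ i) := rfl
  rw [e]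
  rw [a5] at a1
  have t1 : 0 ≤ 2 * Real.pi * C₁ * (y / y') := by positivity
  have t2 : 0 ≤ 28 * Real.pi * C₂ * (Λ / √y + 1 / Λ) := by positivity
  rw [abs_le] at a1 a3 ⊢
  constructor <;> nlinarith [a1.1, a1.2, a3.1, a3.2]

/-- Plan: `LoopE` at `w₀ = iy` with `f`, `im_leI`, `abs_def_sub_psiT`, `mom_wt` with the weight `‖fderiv f (sV p w)‖`,
`dY_sub_dT_wt` with the weight `|f (sV p w)|` (`w₁ = w 0`). -/
theorem psiT_dT (hf : IsFam n μ) (hle : LoopE F n μ) (hm : MomS F n μ) {k : ℕ} {w : Fin (k + 1) → ℂ}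
    (hw : ∀ j, 0 < (w j).im) {f : (Fin (k + 1) → ℂ) → ℝ} (h1 : ContDiff ℝ 1 f)
    (hc : HasCompactSupport f) : ∃ C : ℝ, 0 ≤ C ∧ ∀ (y Λ : ℝ), 1 ≤ y → 1 ≤ Λ → ∀ ε : ℝ, 0 < ε →
      ∀ᶠ i in F, |2 * ∫ p, psiT f w p ∂(μ i) + ∫ p, dT Λ y p * f (sV p w) ∂(μ i)| ≤
        C * (1 / √y + 1 / Λ) + ε := by
  obtain ⟨C₁, hC₁, h₁⟩ := CTransB1_core hf hle hm
  obtain ⟨C₂, hC₂, h₂⟩ := CTransB1_wt hf hm
  obtain ⟨C₃, hC₃, h₃⟩ := abs_def_sub_psiT hw
  obtain ⟨C₄, h₄⟩ := psiT_bdd hw h1 hc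
  have hD : Continuous (fderiv ℝ f) := h1.continuous_fderiv one_ne_zero
  obtain ⟨B, hB⟩ : ∃ B : ℝ, ∀ s, (|f s| + ‖fderiv ℝ f s‖) * (1 + ‖s‖) ^ 4 ≤ B := by
    have c1 : Continuous fun s => (|f s| + ‖fderiv ℝ f s‖) * (1 + ‖s‖) ^ 4 :=
      (h1.continuous.abs.add hD.norm).mul (by fun_prop)
    have c2 : HasCompactSupport fun s => (|f s| + ‖fderiv ℝ f s‖) * (1 + ‖s‖) ^ 4 :=
      HasCompactSupport.mul_right (hc.norm.add (hc.fderiv ℝ).norm)
    obtain ⟨B, hB⟩ := c1.bounded_above_of_compact_support c2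
    exact ⟨B, fun s => (le_abs_self _).trans (hB s)⟩
  have hB' : ∀ s, |f s| + ‖fderiv ℝ f s‖ ≤ B := fun s =>
    le_trans (le_mul_of_one_le_right (by positivity)
      (one_le_pow₀ (le_add_of_nonneg_right (norm_nonneg _)))) (hB s)
  have hB0 : 0 ≤ B := le_trans (by positivity) (hB' 0)
  refine ⟨B * C₁ + 2 * C₃ * (B * C₂), by positivity, fun y Λ hy hΛ ε hε => ?_⟩
  have hy0 : 0 < y := lt_of_lt_of_le one_pos hy
  have hΛ0 : 0 < Λ := lt_of_lt_of_le one_pos hΛ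
  have hω : Wt n (w 0) B fun i p => ‖fderiv ℝ f (sV p w)‖ := by
    refine ⟨fun i => (hD.comp (continuous_sV hw)).norm.measurable, fun i p =>
      ⟨norm_nonneg _, le_trans (le_add_of_nonneg_left (abs_nonneg _)) (hB' _)⟩, B, fun i p => ?_⟩
    refine le_trans ?_ (hB (sV p w))
    have a1 : ‖sF p (w 0)‖ ≤ ‖sV p w‖ := norm_le_pi_norm (sV p w) 0
    gcongr
    exact le_add_of_nonneg_left (abs_nonneg _)
  filter_upwards [h₁ hw h1 hB (fun s => le_trans (le_add_of_nonneg_right (norm_nonneg _)) (hB' s))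
    hy hΛ0 (half_pos hε), h₂ hy (hw 0) hω (show 0 < ε / (4 * (C₃ + 1)) by positivity)] with i a1 a2
  have := (hf i).1
  obtain ⟨i1, a1⟩ := a1
  obtain ⟨i2, a2⟩ := a2
  have i3 : Integrable (psiT f w) (μ i) :=
    Integrable.of_bound (continuous_psiT hw h1).aestronglyMeasurable C₄
      (Eventually.of_forall fun p => h₄ _ p)
  have a3 : |∫ p, CTransB1_def y w f p ∂(μ i) - ∫ p, psiT f w p ∂(μ i)| ≤
      C₃ / y * (B * C₂ + ε / (4 * (C₃ + 1))) := by
    refine le_trans ?_ (mul_le_mul_of_nonneg_left a2 (by positivity))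
    rw [← integral_const_mul, ← Real.norm_eq_abs, ← integral_sub i1 i3]
    refine norm_integral_le_of_norm_le (i2.const_mul _) (Eventually.of_forall fun p => ?_)
    exact (h₃ f y hy _ p).trans (le_of_eq (mul_assoc _ _ _))
  have hs : 0 < √y := Real.sqrt_pos.2 hy0
  have b1 : 1 / y ≤ 1 / √y := by
    refine one_div_le_one_div_of_le hs ?_
    rw [Real.sqrt_le_left hy0.le]
    nlinarith
  have b2 : 1 / Λ ^ 2 ≤ 1 / Λ := one_div_le_one_div_of_le hΛ0 (by nlinarith)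
  have b3 : C₃ / y * (ε / (4 * (C₃ + 1))) ≤ ε / 4 := by
    calc _ ≤ (C₃ + 1) * (ε / (4 * (C₃ + 1))) := by
          gcongr
          exact (div_le_self hC₃ hy).trans (by linarith)
      _ = _ := by field_simp
  have b4 : C₃ / y * (B * C₂) ≤ C₃ * (B * C₂) * (1 / √y + 1 / Λ) := by
    calc _ = C₃ * (B * C₂) * (1 / y) := by ring
      _ ≤ _ := mul_le_mul_of_nonneg_left (b1.trans (le_add_of_nonneg_right (by positivity)))
          (by positivity)
  have b5 : B * C₁ * (1 / √y + 1 / Λ ^ 2) ≤ B * C₁ * (1 / √y + 1 / Λ) :=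
    mul_le_mul_of_nonneg_left (by linarith) (by positivity)
  rw [mul_add] at a3
  rw [abs_le] at a1 a3 ⊢
  constructor <;> linarith [a1.1, a1.2, a3.1, a3.2]

end

end Crest.Agent.R166
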