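import Crest.Agent.R166.C.TransB

/-! # Row 166, part C: translation invariance -/

set_option autoImplicit false
set_option linter.unusedVariables false
set_option linter.unusedSectionVars false

open MeasureTheory ProbabilityTheory Filter Topology Matrix
open scoped ENNReal BoundedContinuousFunction ComplexConjugate

namespace Crest.Agent.R166

noncomputable section

variable {ι : Type} {F : Filter ι} {n : ι → ℕ} {μ : ∀ i, Measure (Conf (n i))}

theorem CTransC_lim {a : ι → ℝ} (C : ℝ) (h : ∀ ε, 0 < ε → ε ≤ 1 → ∀ᶠ i in F, |a i| ≤ C * ε) :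
    Tendsto a F (𝓝 0) := by
  refine Metric.tendsto_nhds.2 fun ε hε => ?_
  have h0 : Tendsto (fun t : ℝ => C * t) (𝓝[>] 0) (𝓝 0) :=
    ((continuous_const_mul C).tendsto' 0 0 (mul_zero C)).mono_left nhdsWithin_le_nhds
  obtain ⟨t, h1, h2⟩ := ((h0.eventually_lt_const hε).and (Ioc_mem_nhdsGT one_pos)).exists
  filter_upwards [h t h2.1 h2.2] with i hi
  rw [Real.dist_0_eq_abs]
  exact hi.trans_lt h1

theorem CTransC_close {X : Type} [MeasurableSpace X] (ν : Measure X) [IsProbabilityMeasure ν]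
    {u v : X → ℝ} (hu : Measurable u) (hv : Measurable v) {C ε : ℝ} (hε : 0 ≤ ε)
    (bu : ∀ x, |u x| ≤ C) (bv : ∀ x, |v x| ≤ C) {S : Set X} (hS : MeasurableSet S)
    (h : ∀ x ∉ S, |u x - v x| ≤ ε) (hν : ν S ≤ ENNReal.ofReal ε) :
    |∫ x, u x ∂ν - ∫ x, v x ∂ν| ≤ ε + 2 * C * ε := by
  obtain ⟨x₀⟩ := nonempty_of_isProbabilityMeasure ν
  have hC : 0 ≤ C := (abs_nonneg _).trans (bu x₀)
  have i1 := (integrable_const (μ := ν) (2 * C)).indicator hS
  rw [← integral_sub (.of_bound hu.aestronglyMeasurable C (.of_forall bu))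
    (.of_bound hv.aestronglyMeasurable C (.of_forall bv))]
  refine (norm_integral_le_of_norm_le (f := fun x => u x - v x) ((integrable_const ε).add i1)
    (.of_forall fun x => ?_)).trans ?_
  · by_cases hx : x ∈ S
    · simp only [Pi.add_apply, Set.indicator_of_mem hx, Real.norm_eq_abs]
      linarith [abs_sub (u x) (v x), bu x, bv x]
    · simpa [hx] using h x hx
  · rw [integral_add' (integrable_const ε) i1, integral_indicator_const _ hS, integral_const,
      probReal_univ, one_smul, smul_eq_mul, mul_comm]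
    gcongr
    exact ENNReal.toReal_le_of_le_ofReal hε hν

theorem CTransC_tight (ht : TightS F n μ) {k : ℕ} {w : Fin k → ℂ} (hw : ∀ j, 0 < (w j).im) {ε : ℝ}
    (hε : 0 < ε) : ∃ R : ℝ, ∀ᶠ i in F, μ i {p | R < ‖sV p w‖} ≤ ENNReal.ofReal ε := by
  obtain ⟨K, hK, -, h⟩ := ht 0 k w hw ε hε
  obtain ⟨R, hR⟩ := hK.isBounded.exists_norm_le
  refine ⟨R, h.mono fun i hi => le_trans ?_ hi⟩
  rw [← mul_one (μ i _), ← measure_univ (μ := gpi (Fin 0 × Fin (n i))), ← Measure.prod_prod]
  refine measure_mono fun q hq hK => hq.1.not_ge (le_trans ?_ (hR _ hK))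
  exact (pi_norm_le_iff_of_nonneg (norm_nonneg _)).2 fun j =>
    ((norm_snd_le (jetG q.1 q.2 (w j)).2).trans (norm_snd_le _)).trans
      (norm_le_pi_norm (fun j => jetG q.1 q.2 (w j)) j)

/-- Plan: `h = τ/N` with `|h| ≤ δ`; pointwise in `p`,
`|f(sV(w + (m+1)h)) - f(sV(w + m h)) - h psiT(w + m h)| ≤ |h| ε` (mean value inequality for
`t ↦ f(sV(w+t)) - t psiT(w + m h)`, `Convex.norm_image_sub_le_of_norm_hasDerivWithin_le`); telescope
(`Finset.sum_range_sub`), integrate, `psiT_tendsto` at the `N` grid points. -/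
theorem trans_smooth (hf : IsFam n μ) (hle : LoopE F n μ) (hm : MomS F n μ) {k : ℕ}
    {w : Fin (k + 1) → ℂ} (hw : ∀ j, 0 < (w j).im) {f : (Fin (k + 1) → ℂ) → ℝ} (h1 : ContDiff ℝ 1 f)
    (hc : HasCompactSupport f) (τ : ℝ) :
    Tendsto (fun i => ∫ p, f (sV p fun j => w j + τ) ∂(μ i) - ∫ p, f (sV p w) ∂(μ i)) F (𝓝 0) := by
  have hw' : ∀ (t : ℝ) j, 0 < (w j + t).im := fun t j => by simpa using hw j
  obtain ⟨B, hB⟩ := h1.continuous.bounded_above_of_compact_support hc
  refine CTransC_lim (2 * |τ|) fun ε hε _ => ?_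
  obtain ⟨δ, hδ, hu⟩ := psiT_unif hw h1 hc hε
  have step : ∀ t h : ℝ, |h| ≤ δ → ∀ᶠ i in F, |∫ p, f (sV p fun j => w j + (t + h : ℝ)) ∂(μ i) -
      ∫ p, f (sV p fun j => w j + t) ∂(μ i)| ≤ 2 * |h| * ε := fun t h hh => by
    obtain ⟨C, hC⟩ := psiT_bdd (hw' t) h1 hc
    filter_upwards [(psiT_tendsto hf hle hm (hw' t) h1 hc).abs.eventually_le_const
      (abs_zero.trans_lt hε)] with i hi
    have := (hf i).1
    have ia : ∀ s : ℝ, Integrable (fun p => f (sV p fun j => w j + s)) (μ i) := fun s => .of_bound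
      (h1.continuous.comp (continuous_sV (hw' s))).aestronglyMeasurable B (.of_forall fun _ => hB _)
    have ib : Integrable (fun p => h * psiT f (fun j => w j + t) p) (μ i) := .const_mul (.of_bound
      (continuous_psiT (hw' t) h1).aestronglyMeasurable C (.of_forall (hC _))) h
    have := norm_integral_le_of_norm_le_const (μ := μ i) (C := ε * |h|)
      (f := fun p => f (sV p fun j => w j + (t + h : ℝ)) - f (sV p fun j => w j + t) -
        h * psiT f (fun j => w j + t) p) (.of_forall fun p => by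
      have := (convex_closedBall t δ).norm_image_sub_le_of_norm_hasDerivWithin_le
        (f := fun s : ℝ => f (sV p fun j => w j + s) - s * psiT f (fun j => w j + t) p)
        (fun s _ => ((hasDerivAt_f_sV p hw h1 s).sub (hasDerivAt_mul_const _)).hasDerivWithinAt)
        (fun s hs => hu s t hs _ p) (Metric.mem_closedBall_self hδ.le) (y := t + h)
        (by rwa [← add_sub_cancel_left t h] at hh)
      rw [add_sub_cancel_left] at this
      refine le_of_eq_of_le (congrArg _ (by ring)) this)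
    rw [integral_sub (by exact (ia _).sub (ia _)) ib, integral_sub (ia _) (ia _), integral_const_mul,
      probReal_univ, mul_one] at this
    have h2 := abs_add_le _ (h * ∫ p, psiT f (fun j => w j + t) p ∂(μ i)) |>.trans
      (add_le_add this ((abs_mul _ _).trans_le (mul_le_mul_of_nonneg_left hi (abs_nonneg h))))
    rw [sub_add_cancel] at h2
    linarith
  obtain ⟨N, hN⟩ := exists_nat_gt (|τ| / δ)
  have N0 : (0 : ℝ) < N := lt_of_le_of_lt (by positivity) hN
  have hh : |τ / N| ≤ δ := by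
    rw [abs_div, abs_of_pos N0, div_le_iff₀ N0]
    rw [div_lt_iff₀ hδ] at hN
    linarith
  have ind : ∀ m : ℕ, ∀ᶠ i in F, |∫ p, f (sV p fun j => w j + (m * (τ / N) : ℝ)) ∂(μ i) -
      ∫ p, f (sV p w) ∂(μ i)| ≤ m * (2 * |τ / N| * ε) := fun m => by
    induction m with
    | zero => simp
    | succ m ih =>
      filter_upwards [ih, step (m * (τ / N)) _ hh] with i h1 h2
      rw [Nat.cast_succ, add_one_mul, add_one_mul]
      linarith [abs_sub_le (∫ p, f (sV p fun j => w j + (m * (τ / N) + τ / N : ℝ)) ∂(μ i))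
        (∫ p, f (sV p fun j => w j + (m * (τ / N) : ℝ)) ∂(μ i)) (∫ p, f (sV p w) ∂(μ i))]
  filter_upwards [ind N] with i hi
  rw [mul_div_cancel₀ _ N0.ne', abs_div, abs_of_pos N0] at hi
  exact hi.trans_eq (by field_simp)

/-- Plan: multiply by a continuous compactly supported cut-off equal to `1` on the ball
(`exists_continuous_one_zero_of_isCompact` or `ContDiffBump`), then `Continuous.exists_contDiff_approx`. -/
theorem exists_smooth_approx {k : ℕ} (f : (Fin k → ℂ) →ᵇ ℝ) (R : ℝ) {ε : ℝ} (hε : 0 < ε) :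
    ∃ g : (Fin k → ℂ) → ℝ, ContDiff ℝ 1 g ∧ HasCompactSupport g ∧ (∀ s, |g s| ≤ ‖f‖ + ε) ∧
      ∀ s, ‖s‖ ≤ R → |g s - f s| ≤ ε := by
  obtain ⟨g, hg, h, -⟩ := f.continuous.exists_contDiff_approx 1 (ε := fun _ => ε) continuous_const
    fun _ => hε
  let χ : ContDiffBump (0 : Fin k → ℂ) := ⟨|R| + 1, |R| + 2, by positivity, by linarith⟩
  refine ⟨fun s => χ s * g s, χ.contDiff.mul hg, χ.hasCompactSupport.mul_right, fun s => ?_,
    fun s hs => ?_⟩
  · rw [abs_mul, abs_of_nonneg χ.nonneg]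
    refine (mul_le_of_le_one_left (abs_nonneg _) χ.le_one).trans ?_
    linarith [abs_sub_abs_le_abs_sub (g s) (f s), (show |g s - f s| < ε from h s),
      (show |f s| ≤ ‖f‖ from f.norm_coe_le_norm s)]
  · simp only [χ.one_of_mem_closedBall (mem_closedBall_zero_iff.2
      (hs.trans ((le_abs_self R).trans (le_add_of_nonneg_right zero_le_one)))), one_mul]
    exact (h s).le

/-- Plan: `k = 0` is trivial (`Subsingleton`); otherwise `TightS.sF_le` for the finitely many points `w j`,
`w j + τ`, `exists_smooth_approx`, `trans_smooth`. -/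
theorem transS_of (hf : IsFam n μ) (ht : TightS F n μ) (hle : LoopE F n μ) (hm : MomS F n μ) :
    TransS F n μ := by
  rintro (_ | k) w hw τ f
  · rw [show (fun i => ∫ p, f (fun j => sF p (w j + τ)) ∂(μ i) - ∫ p, f (fun j => sF p (w j)) ∂(μ i))
      = fun _ => 0 from funext fun i => sub_eq_zero.2 (congrArg _
        (funext fun _ => congrArg f (Subsingleton.elim _ _)))]
    exact tendsto_const_nhds
  have hw' : ∀ j, 0 < (w j + τ).im := fun j => by simpa using hw j
  refine CTransC_lim (4 * ‖f‖ + 7) fun ε hε h1 => ?_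
  obtain ⟨R, hR⟩ := CTransC_tight ht hw hε
  obtain ⟨R', hR'⟩ := CTransC_tight ht hw' hε
  obtain ⟨g, g1, g2, g3, g4⟩ := exists_smooth_approx f (max R R') hε
  filter_upwards [hR, hR', (trans_smooth hf hle hm hw g1 g2 τ).abs.eventually_le_const
    (abs_zero.trans_lt hε)] with i a1 a2 a3
  have := (hf i).1
  have key : ∀ {v : Fin (k + 1) → ℂ} {r : ℝ}, (∀ j, 0 < (v j).im) → r ≤ max R R' →
      μ i {p | r < ‖sV p v‖} ≤ ENNReal.ofReal ε →
      |∫ p, g (sV p v) ∂(μ i) - ∫ p, f (sV p v) ∂(μ i)| ≤ ε + 2 * (‖f‖ + 1) * ε := fun hv hr h =>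
    CTransC_close (μ i) (g1.continuous.comp (continuous_sV hv)).measurable
      (f.continuous.comp (continuous_sV hv)).measurable hε.le
      (fun p => (g3 _).trans (by linarith))
      (fun p => (f.norm_coe_le_norm _).trans (by linarith))
      (isOpen_lt continuous_const (continuous_sV hv).norm).measurableSet
      (fun p hp => g4 _ ((not_lt.1 hp).trans hr)) h
  have b1 := abs_le.1 (key hw (le_max_left _ _) a1)
  have b2 := abs_le.1 (key hw' (le_max_right _ _) a2)
  have b3 := abs_le.1 a3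
  change |∫ p, f (sV p fun j => w j + τ) ∂(μ i) - ∫ p, f (sV p w) ∂(μ i)| ≤ _
  rw [abs_le]
  constructor <;> linarith [b1.1, b1.2, b2.1, b2.2, b3.1, b3.2]

end

end Crest.Agent.R166
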